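import Mathlib.RingTheory.AdicCompletion.Basic
import Mathlib.RingTheory.KrullDimension.Basic
import Mathlib.RingTheory.LocalRing.ResidueField.Basic
import Mathlib.RingTheory.Regular.RegularSequence

/-! Notions for the universal form of the negative answer. -/

set_option autoImplicit false

namespace Vale.Agent.P190.H128

universe v

/-- The local ring `S` has no small Cohen-Macaulay module: for every finitely generated
`S`-module `M`, every `M`-regular sequence in the maximal ideal has length less than `dim S`. -/
def NoSmallCM (S : Type) [CommRing S] [IsLocalRing S] : Prop :=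
  ∀ (M : Type v) [AddCommGroup M] [Module S M] [Module.Finite S M] (rs : List S),
    (∀ r ∈ rs, r ∈ IsLocalRing.maximalIdeal S) → RingTheory.Sequence.IsRegular M rs →
    ((rs.length : ℕ) : WithBot ℕ∞) < ringKrullDim S

/-- The three elements `x i` of the local ring `S`, together with the residue characteristic `p`
of `S` if `p > 0`, are part of a system of parameters of `S`. -/
def IsParam (S : Type) [CommRing S] [IsLocalRing S] (x : Fin 3 → S) : Prop :=
  (∀ i, x i ∈ IsLocalRing.maximalIdeal S) ∧
  ((CharZero (IsLocalRing.ResidueField S) ∧
      ringKrullDim (S ⧸ Ideal.span (Set.range x)) + 3 ≤ ringKrullDim S) ∨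
    ∃ p : ℕ, p.Prime ∧ (p : S) ∈ IsLocalRing.maximalIdeal S ∧
      ringKrullDim (S ⧸ Ideal.span (insert (p : S) (Set.range x))) + 4 ≤ ringKrullDim S)

/-- The algebra `S'` over the local ring `S` obstructs small Cohen-Macaulay modules: if `T` is a
Noetherian local ring, `S' → T` a ring homomorphism such that `S → T` is local, and
`dim T = dim S + dim T / 𝔪_S T` (the inequality `≤` always holds), then `T` has no small
Cohen-Macaulay module. -/
def Obstructs (S S' : Type) [CommRing S] [IsLocalRing S] [CommRing S'] [Algebra S S'] : Prop :=
  ∀ (T : Type) [CommRing T] [IsLocalRing T] [IsNoetherianRing T] (g : S' →+* T),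
    IsLocalHom (g.comp (algebraMap S S')) →
    ringKrullDim (T ⧸ (IsLocalRing.maximalIdeal S).map (g.comp (algebraMap S S'))) +
      ringKrullDim S ≤ ringKrullDim T →
    NoSmallCM.{v} T

end Vale.Agent.P190.H128
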