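import Vale.Agent.P190.Bdl.B5
import Mathlib.RingTheory.Localization.Cardinality

/-! Embedding of a domain of characteristic zero into an ultraproduct field. -/

set_option autoImplicit false

namespace Vale.Agent.P190.H128

open Vale.Agent.P190.D Cardinal Filter

/-- the algebraically closed field of characteristic `p` with transcendental elements indexed by
`T`. -/
noncomputable def kT (T : Type) (p : ℕ) [Fact p.Prime] : Type :=
  AlgebraicClosure (FractionRing (MvPolynomial T (ZMod p)))

noncomputable instance (T : Type) (p : ℕ) [Fact p.Prime] : Field (kT T p) :=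
  inferInstanceAs (Field (AlgebraicClosure (FractionRing (MvPolynomial T (ZMod p)))))

instance (T : Type) (p : ℕ) [Fact p.Prime] : IsAlgClosed (kT T p) :=
  inferInstanceAs (IsAlgClosed (AlgebraicClosure (FractionRing (MvPolynomial T (ZMod p)))))

/-- the canonical map -/
noncomputable def kTmap (T : Type) (p : ℕ) [Fact p.Prime] : MvPolynomial T (ZMod p) →+* kT T p :=
  (algebraMap (FractionRing (MvPolynomial T (ZMod p)))
    (AlgebraicClosure (FractionRing (MvPolynomial T (ZMod p))))).comp
    (algebraMap (MvPolynomial T (ZMod p)) (FractionRing (MvPolynomial T (ZMod p))))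

theorem kTmap_injective (T : Type) (p : ℕ) [Fact p.Prime] :
    Function.Injective (kTmap T p) :=
  (algebraMap (FractionRing (MvPolynomial T (ZMod p)))
    (AlgebraicClosure (FractionRing (MvPolynomial T (ZMod p))))).injective.comp
    (IsFractionRing.injective _ _)

instance (T : Type) (p : ℕ) [Fact p.Prime] : CharP (kT T p) p :=
  have : CharP (MvPolynomial T (ZMod p)) p := inferInstance
  charP_of_injective_ringHom (kTmap_injective T p) p

/-- an algebraically closed uncountable field of characteristic zero with at least `#K` elements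
contains `K` -/
theorem exists_embedding (K : Type) [Field K] [CharZero K] (Ω : Type) [Field Ω] [CharZero Ω]
    [IsAlgClosed Ω] (hun : ℵ₀ < #Ω) (hK : #K ≤ #Ω) : Nonempty (K →+* Ω) := by
  let P := MvPolynomial Ω K
  let F := FractionRing P
  let L := AlgebraicClosure F
  have h1 : #P ≤ #Ω := by
    refine MvPolynomial.cardinalMk_le_max.trans ?_
    exact max_le (max_le hK le_rfl) hun.le
  have h2 : #F ≤ #Ω := by
    have : #F = #P := Cardinal.mk_fractionRing P
    rw [this]; exact h1
  have h3 : #L ≤ #Ω := by
    refine (Algebra.IsAlgebraic.cardinalMk_le_max F L).trans ?_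
    exact max_le h2 hun.le
  have h4 : Function.Injective (fun t : Ω => (algebraMap F L) (algebraMap P F (MvPolynomial.X t))) := by
    refine (algebraMap F L).injective.comp ((IsFractionRing.injective P F).comp ?_)
    exact MvPolynomial.X_injective
  have h5 : #L = #Ω := le_antisymm h3 (Cardinal.mk_le_of_injective h4)
  have hc : CharZero P := inferInstance
  have hF : CharZero F := charZero_of_injective_algebraMap (IsFractionRing.injective P F)
  have hL : CharZero L := charZero_of_injective_algebraMap (algebraMap F L).injective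
  obtain ⟨e⟩ := IsAlgClosed.ringEquiv_of_equiv_of_charZero (K := L) (L := Ω)
    (by rw [h5]; exact hun) (Cardinal.eq.1 h5)
  exact ⟨(e : L →+* Ω).comp ((algebraMap F L).comp ((algebraMap P F).comp MvPolynomial.C))⟩

/-- every field of characteristic zero embeds into a suitable ultraproduct field -/
theorem exists_UK (K : Type) [Field K] [CharZero K] : ∃ (U : Ultrafilter ℕ)
    (_ : (U : Filter ℕ) ≤ atTop) (p : ℕ → ℕ) (_ : ∀ i, (p i).Prime) (_ : Tendsto p atTop atTop)
    (k : ℕ → Type) (_ : ∀ i, Field (k i)) (_ : ∀ i, IsAlgClosed (k i))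
    (_ : ∀ i, CharP (k i) (p i)), CharZero (UK U k) ∧ Nonempty (K →+* UK U k) := by
  classical
  let p : ℕ → ℕ := fun i => Nat.nth Nat.Prime i
  have hp : ∀ i, (p i).Prime := fun i => Nat.prime_nth_prime i
  have hp' : Tendsto p atTop atTop :=
    (Nat.nth_strictMono Nat.infinite_setOfPred_prime).tendsto_atTop
  have : ∀ i, Fact (p i).Prime := fun i => ⟨hp i⟩
  let k : ℕ → Type := fun i => kT K (p i)
  let U : Ultrafilter ℕ := hyperfilter ℕ
  have hU : (U : Filter ℕ) ≤ atTop := Nat.hyperfilter_le_atTop
  let iF : ∀ i, Field (k i) := fun i => inferInstanceAs (Field (kT K (p i)))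
  have iA : ∀ i, IsAlgClosed (k i) := fun i => inferInstanceAs (IsAlgClosed (kT K (p i)))
  have iC : ∀ i, CharP (k i) (p i) := fun i => inferInstanceAs (CharP (kT K (p i)) (p i))
  have h0 : CharZero (UK U k) := UK_charZero hU p hp'
  have hinf : ∀ i, Infinite (k i) := fun i => IsAlgClosed.instInfinite
  have hcl : IsAlgClosed (UK U k) := UK_isAlgClosed
  have hcard : 𝔠 ≤ #(UK U k) := UK_le_card hU
  have hK : #K ≤ #(UK U k) := by
    refine mk_le_of_injective (f := fun t : K => ulim U k fun i =>
      (kTmap K (p i) (MvPolynomial.X t) : kT K (p i))) ?_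
    intro s t h
    have h2 := ulim_eq.1 h
    obtain ⟨i, hi⟩ := h2.exists
    exact MvPolynomial.X_injective (kTmap_injective K (p i) hi)
  exact ⟨U, hU, p, hp, hp', k, iF, iA, iC, h0,
    exists_embedding K (UK U k) (aleph0_lt_continuum.trans_le hcard) hK⟩

end Vale.Agent.P190.H128
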