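import Vale.Agent.P190.H128.E9

/-! The ring of Witt vectors of a perfect field as a coefficient ring; Cohen's theorem in mixed
characteristic with perfect residue field. -/

set_option autoImplicit false

namespace Vale.Agent.P190.H128

open Vale.Agent.P190 Vale.Agent.P190.D IsLocalRing RingTheory.Sequence

section

variable (p : ℕ) [hp : Fact p.Prime] (k : Type) [Field k] [CharP k p] [PerfectRing k p]

theorem witt_max : maximalIdeal (WittVector p k) = Ideal.span {(p : WittVector p k)} :=
  (IsDiscreteValuationRing.irreducible_iff_uniformizer _).1 (WittVector.irreducible p)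

theorem witt_complete : IsAdicComplete (maximalIdeal (WittVector p k)) (WittVector p k) := by
  rw [witt_max]
  infer_instance

omit [PerfectRing k p] in
theorem witt_charZero : CharZero (WittVector p k) := by
  have hne : (p : WittVector p k) ≠ 0 := (WittVector.irreducible p (k := k)).ne_zero
  refine charZero_of_inj_zero fun n hn => ?_
  by_contra hn0
  obtain ⟨m, hm, h⟩ : ∃ m : ℕ, ¬ p ∣ m ∧ ∃ a : ℕ, n = p ^ a * m := by
    obtain ⟨a, m, h1, h2⟩ := Nat.exists_eq_pow_mul_and_not_dvd hn0 p hp.1.ne_one
    exact ⟨m, h1, a, h2⟩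
  obtain ⟨a, rfl⟩ := h
  push_cast at hn
  have h1 : (m : WittVector p k) = 0 :=
    (mul_eq_zero.1 hn).resolve_left (pow_ne_zero a hne)
  have h2 : (m : k) = 0 := by
    have := congrArg (WittVector.constantCoeff (p := p) (R := k)) h1
    rwa [map_natCast, map_zero] at this
  exact hm ((CharP.cast_eq_zero_iff k p m).1 h2)

theorem witt_par : IsPar (WittVector p k) [(p : WittVector p k)] where
  reg := by
    rw [isWeaklyRegular_cons_iff]
    refine ⟨fun a b hab => ?_, IsWeaklyRegular.nil _ _⟩
    have hne : (p : WittVector p k) ≠ 0 := (WittVector.irreducible p (k := k)).ne_zero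
    exact mul_left_cancel₀ hne hab
  gen := by
    rw [Ideal.ofList_singleton, witt_max]

theorem witt_archDiv : ArchDiv (WittVector p k) := archDiv_of_isIntegrallyClosed

end

/-- Cohen's theorem in mixed characteristic, perfect residue field -/
theorem exists_cohen_mixed (p : ℕ) [hp : Fact p.Prime] (B k : Type) [CommRing B] [IsDomain B]
    [IsLocalRing B] [IsNoetherianRing B] [CharZero B]
    (hB : IsAdicComplete (maximalIdeal B) B)
    [Field k] [CharP k p] [PerfectRing k p] (π : B →+* k) (hπ : Function.Surjective π) :
    ∃ (n : ℕ) (φ : MvPowerSeries (Fin n) (WittVector p k) →+* B),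
      φ.Finite ∧ Function.Injective φ ∧ ringKrullDim B = (n + 1 : ℕ) := by
  obtain ⟨g, hg⟩ := exists_witt p B k hB π hπ
  have hkerB : RingHom.ker π = maximalIdeal B :=
    IsLocalRing.eq_maximalIdeal (RingHom.ker_isMaximal_of_surjective π hπ)
  have hgl : IsLocalHom g := by
    constructor
    intro x hx
    apply WittVector.isUnit_of_coeff_zero_ne_zero
    rw [← hg]
    exact (hx.map π).ne_zero
  have hgs : Function.Surjective ((residue B).comp g) := by
    intro y
    obtain ⟨b, rfl⟩ := residue_surjective y
    refine ⟨WittVector.mk p (fun n => if n = 0 then π b else 0), ?_⟩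
    rw [RingHom.comp_apply, ← sub_eq_zero, ← map_sub, residue_eq_zero_iff, ← hkerB,
      RingHom.mem_ker, map_sub, hg, WittVector.coeff_mk, if_pos rfl, sub_self]
  have hpB : (p : B) ≠ 0 := by exact_mod_cast hp.1.ne_zero
  have hmap : (maximalIdeal (WittVector p k)).map g = Ideal.span {(p : B)} := by
    rw [witt_max, Ideal.map_span, Set.image_singleton, map_natCast]
  have h1 := ringKrullDim_quotient_succ_le_of_nonZeroDivisor (R := B) (r := (p : B))
    (mem_nonZeroDivisors_of_ne_zero hpB)
  obtain ⟨n, φ, -, h2, h3, h4⟩ := exists_cohen (witt_complete p k) (witt_par p k) hB g hgl hgs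
    (by rw [hmap]; exact_mod_cast h1)
  refine ⟨n, φ, h2, h3, ?_⟩
  rw [h4, List.length_singleton, add_comm]

end Vale.Agent.P190.H128
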