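import Vale.Agent.P190.H128.E7

/-! Cohen's theorem over a coefficient field. -/

set_option autoImplicit false

namespace Vale.Agent.P190.H128

open Vale.Agent.P190 Vale.Agent.P190.D IsLocalRing RingTheory.Sequence

theorem isPar_field (K : Type) [Field K] : IsPar K [] where
  reg := IsWeaklyRegular.nil K K
  gen := by
    rw [Ideal.ofList_nil]
    exact (IsLocalRing.isField_iff_maximalIdeal_eq.1 (Field.toIsField K)).symm

theorem isAdicComplete_field (K : Type) [Field K] : IsAdicComplete (maximalIdeal K) K := by
  rw [IsLocalRing.isField_iff_maximalIdeal_eq.1 (Field.toIsField K)]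
  infer_instance

theorem exists_finite_powerSeries (B : Type) [CommRing B] [IsDomain B] [IsLocalRing B]
    [IsNoetherianRing B] (hB : IsAdicComplete (IsLocalRing.maximalIdeal B) B) (K : Type) [Field K]
    (f : K →+* B) (hf : Function.Surjective ((IsLocalRing.residue B).comp f)) (d : ℕ)
    (hd : ringKrullDim B = d) :
    ∃ φ : MvPowerSeries (Fin d) K →+* B, φ.Finite ∧ Function.Injective φ := by
  have hloc : IsLocalHom f := inferInstance
  have hmap : (maximalIdeal K).map f = ⊥ := by
    rw [IsLocalRing.isField_iff_maximalIdeal_eq.1 (Field.toIsField K), Ideal.map_bot]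
  obtain ⟨n, φ, -, h1, h2, h3⟩ := exists_cohen (isAdicComplete_field K) (isPar_field K) hB f hloc hf
    (by
      rw [hmap, List.length_nil, Nat.cast_zero, add_zero]
      exact ringKrullDim_quotient_le ⊥)
  rw [hd, List.length_nil, zero_add] at h3
  have h4 : d = n := by exact_mod_cast h3
  subst h4
  exact ⟨φ, h1, h2⟩

end Vale.Agent.P190.H128
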