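import Vale.Agent.P190.H455.Main
import Vale.Agent.P190.H231.Coeff
import Vale.Agent.P190.H128.E8
import Vale.Agent.P190.H128.E10

/-! Every complete local domain of characteristic zero and dimension at least three (four in mixed
characteristic, with perfect residue field) has a finite extension without small Cohen-Macaulay
modules. -/

set_option autoImplicit false

namespace Vale.Agent.P190.H128

open Vale.Agent.P190 Vale.Agent.P190.D IsLocalRing RingTheory.Sequence Vale.Agent.P190.H455

universe v

theorem main_equal (B : Type) [CommRing B] [IsDomain B] [IsLocalRing B] [IsNoetherianRing B]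
    [CharZero (ResidueField B)] (hB : IsAdicComplete (maximalIdeal B) B) (d : ℕ)
    (hd : ringKrullDim B = d) (h3 : 3 ≤ d) :
    ∃ (R : Type) (_ : CommRing R) (_ : IsLocalRing R) (_ : Algebra B R),
      Module.Finite B R ∧ Function.Injective (algebraMap B R) ∧ IsCounterexample.{v} R d := by
  have hu : ∀ n : ℕ, n ≠ 0 → IsUnit ((n : ℤ) : B) := by
    intro n hn
    rw [Int.cast_natCast]
    by_contra h
    have h1 : residue B (n : B) = 0 := (residue_eq_zero_iff _).2 ((mem_maximalIdeal _).2 h)
    rw [map_natCast] at h1
    exact hn (by exact_mod_cast h1)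
  have hu2 : ∀ y : nonZeroDivisors ℤ, IsUnit (Int.castRingHom B y) := by
    rintro ⟨y, hy⟩
    have hy0 : y ≠ 0 := nonZeroDivisors.ne_zero hy
    have h1 := hu y.natAbs (by omega)
    change IsUnit ((y : ℤ) : B)
    rcases Int.natAbs_eq y with h2 | h2
    · rw [h2]; exact h1
    · rw [h2, Int.cast_neg]; exact h1.neg
  let q : ℚ →+* B := IsLocalization.lift (M := nonZeroDivisors ℤ) hu2
  let _ : Algebra ℚ B := q.toAlgebra
  obtain ⟨K, iK, hK0, f, hf⟩ := Vale.Agent.P190.H231.exists_coefficientField B hB
  obtain ⟨φ, h1, h2⟩ := exists_finite_powerSeries B hB K f hf.surjective d hd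
  let _ : Algebra (MvPowerSeries (Fin d) K) B := φ.toAlgebra
  have : Module.Finite (MvPowerSeries (Fin d) K) B := h1
  exact main_field.{v} K d h3 B h2

theorem main_perfect (p : ℕ) (hp : p.Prime) (B : Type) [CommRing B] [IsDomain B] [IsLocalRing B]
    [IsNoetherianRing B] [CharZero B] [CharP (ResidueField B) p] [PerfectField (ResidueField B)]
    (hB : IsAdicComplete (maximalIdeal B) B) (d : ℕ) (hd : ringKrullDim B = d) (h4 : 4 ≤ d) :
    ∃ (R : Type) (_ : CommRing R) (_ : IsLocalRing R) (_ : Algebra B R),
      Module.Finite B R ∧ Function.Injective (algebraMap B R) ∧ IsCounterexample.{v} R d := by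
  have : Fact p.Prime := ⟨hp⟩
  have : PerfectRing (ResidueField B) p := inferInstance
  obtain ⟨n, φ, h1, h2, h3⟩ := exists_cohen_mixed p B (ResidueField B) hB (residue B)
    residue_surjective
  rw [hd] at h3
  have h5 : d = n + 1 := by exact_mod_cast h3
  subst h5
  let _ : Algebra (MvPowerSeries (Fin n) (WittVector p (ResidueField B))) B := φ.toAlgebra
  have : Module.Finite (MvPowerSeries (Fin n) (WittVector p (ResidueField B))) B := h1
  have hz : CharZero (WittVector p (ResidueField B)) := witt_charZero p _
  have hc : IsAdicComplete (maximalIdeal (WittVector p (ResidueField B)))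
    (WittVector p (ResidueField B)) := witt_complete p _
  exact main_dvr.{v} (WittVector p (ResidueField B)) n (by omega) B h2

end Vale.Agent.P190.H128
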