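import Vale.Agent.P190.Bdl.B5
import Mathlib.FieldTheory.KummerPolynomial
import Mathlib.FieldTheory.IntermediateField.Adjoin.Algebra
import Mathlib.RingTheory.AlgebraTower
import Mathlib.FieldTheory.Perfect

/-! `p`-bases. -/

set_option autoImplicit false

namespace Vale.Agent.P190.H128

/-- monomials -/
noncomputable def mn {ι R : Type} [CommRing R] (x : ι → R) (m : ι →₀ ℕ) : R :=
  m.prod fun i a => x i ^ a

section mn

variable {ι R : Type} [CommRing R] (x : ι → R)

theorem mn_zero : mn x 0 = 1 := Finsupp.prod_zero_index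

theorem mn_add (a b : ι →₀ ℕ) : mn x (a + b) = mn x a * mn x b := by
  classical
  exact Finsupp.prod_add_index' (fun i => pow_zero _) (fun i a b => pow_add _ _ _)

theorem mn_nsmul (q : ℕ) (a : ι →₀ ℕ) : mn x (q • a) = mn x a ^ q := by
  induction q with
  | zero => rw [zero_smul, mn_zero, pow_zero]
  | succ q ih => rw [succ_nsmul, mn_add, ih, pow_succ]

theorem mn_single (i : ι) (a : ℕ) : mn x (Finsupp.single i a) = x i ^ a := by
  classical
  exact Finsupp.prod_single_index (pow_zero _)

theorem map_mn {S : Type} [CommRing S] (f : R →+* S) (m : ι →₀ ℕ) :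
    f (mn x m) = mn (fun i => f (x i)) m := by
  unfold mn Finsupp.prod
  rw [map_prod]
  exact Finset.prod_congr rfl fun i _ => map_pow f _ _

/-- remainders -/
noncomputable def md (q : ℕ) (m : ι →₀ ℕ) : ι →₀ ℕ := m.mapRange (· % q) (Nat.zero_mod q)

/-- quotients -/
noncomputable def dv (q : ℕ) (m : ι →₀ ℕ) : ι →₀ ℕ := m.mapRange (· / q) (Nat.zero_div q)

theorem md_add_dv (q : ℕ) (m : ι →₀ ℕ) : md q m + q • dv q m = m := by
  ext i
  simp only [md, dv, Finsupp.add_apply, Finsupp.mapRange_apply, Finsupp.smul_apply, smul_eq_mul]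
  exact Nat.mod_add_div _ _

theorem mn_md_dv (q : ℕ) (m : ι →₀ ℕ) : mn x m = mn x (md q m) * mn x (dv q m) ^ q := by
  conv_lhs => rw [← md_add_dv q m]
  rw [mn_add, mn_nsmul]

end mn

/-- exponents less than `q`, supported in `X` -/
def MS {ι : Type} (X : Set ι) (q : ℕ) : Set (ι →₀ ℕ) := {m | (m.support : Set ι) ⊆ X ∧ ∀ i, m i < q}

theorem md_mem {ι : Type} {X : Set ι} {q : ℕ} (hq : 0 < q) {m : ι →₀ ℕ}
    (hm : (m.support : Set ι) ⊆ X) : md q m ∈ MS X q :=
  ⟨fun i hi => hm (by
    rw [Finset.mem_coe, Finsupp.mem_support_iff] at hi ⊢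
    intro h
    apply hi
    simp [md, h]), fun i => Nat.mod_lt _ hq⟩

theorem dv_supp {ι : Type} {X : Set ι} {q : ℕ} {m : ι →₀ ℕ}
    (hm : (m.support : Set ι) ⊆ X) : ((dv q m).support : Set ι) ⊆ X :=
  fun i hi => hm (by
    rw [Finset.mem_coe, Finsupp.mem_support_iff] at hi ⊢
    intro h
    apply hi
    simp [dv, h])

theorem dv_mem {ι : Type} {X : Set ι} {q r : ℕ} {m : ι →₀ ℕ}
    (hm : m ∈ MS X (q * r)) : dv q m ∈ MS X r :=
  ⟨dv_supp hm.1, fun i => Nat.div_lt_of_lt_mul (hm.2 i)⟩

section pb

variable {k : Type} [Field k] (p : ℕ) [hp : Fact p.Prime] [CharP k p]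

/-- the subfield of `p`-th powers -/
abbrev KP : Subfield k := (frobenius k p).fieldRange

theorem pow_mem_KP (c : k) : c ^ p ∈ (KP p : Subfield k) := ⟨c, rfl⟩

/-- `p`-independent sets -/
def Ind (X : Set k) : Prop := LinearIndepOn (KP p : Subfield k) (mn (id : k → k)) (MS X p)

theorem ind_insert {X : Set k} (hX : Ind p X) {y : k}
    (hy : y ∉ IntermediateField.adjoin (KP p : Subfield k) X) : Ind p (insert y X) := by
  classical
  let L := IntermediateField.adjoin (KP p : Subfield k) X
  have hmem : ∀ m : MS X p, mn (id : k → k) m ∈ L := fun m =>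
    prod_mem fun i hi => pow_mem (IntermediateField.subset_adjoin _ _ (m.2.1 hi)) _
  let b : MS X p → L := fun m => ⟨mn (id : k → k) m, hmem m⟩
  have hb : LinearIndependent (KP p : Subfield k) b :=
    LinearIndependent.of_comp L.val.toLinearMap hX
  have hpm : y ^ p ∈ (KP p : Subfield k) := pow_mem_KP p y
  let a : L := algebraMap (KP p : Subfield k) L ⟨y ^ p, hpm⟩
  have ha : ((a : L) : k) = y ^ p := rfl
  have hirr : Irreducible (Polynomial.X ^ p - Polynomial.C a) := by
    apply X_pow_sub_C_irreducible_of_prime hp.1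
    intro c hc
    have h1 : (c : k) ^ p = y ^ p := by
      rw [← ha, ← hc]
      rfl
    have h2 : (c : k) = y := frobenius_inj k p h1
    exact hy (h2 ▸ c.2)
  have hmin : minpoly L y = Polynomial.X ^ p - Polynomial.C a := by
    symm
    apply minpoly.eq_of_irreducible_of_monic hirr
    · rw [map_sub, map_pow, Polynomial.aeval_X, Polynomial.aeval_C]
      exact sub_self _
    · exact Polynomial.monic_X_pow_sub_C a hp.1.ne_zero
  have hdeg : (minpoly L y).natDegree = p := by
    rw [hmin, Polynomial.natDegree_X_pow_sub_C]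
  have hc : LinearIndependent L (fun j : Fin p => y ^ (j : ℕ)) := by
    have h1 := linearIndependent_pow (K := L) y
    rw [hdeg] at h1
    exact h1
  have hbc := linearIndependent_smul hb hc
  have hin : ∀ m : MS (insert y X) p, (m : k →₀ ℕ).erase y ∈ MS X p := by
    rintro ⟨m, hm1, hm2⟩
    refine ⟨fun i hi => ?_, fun i => ?_⟩
    · rw [Finsupp.support_erase, Finset.coe_erase] at hi
      exact (hm1 hi.1).resolve_left hi.2
    · by_cases h : i = y
      · subst h; rw [Finsupp.erase_same]; exact hp.1.pos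
      · rw [Finsupp.erase_ne h]; exact hm2 i
  let e : MS (insert y X) p → MS X p × Fin p := fun m => (⟨_, hin m⟩, ⟨m.1 y, m.2.2 y⟩)
  have he : Function.Injective e := by
    rintro ⟨m, hm⟩ ⟨m', hm'⟩ h
    apply Subtype.ext
    have h1 : m.erase y = m'.erase y := congrArg (fun q => (q.1 : k →₀ ℕ)) h
    have h2 : m y = m' y := congrArg (fun q => (q.2 : ℕ)) h
    ext i
    by_cases hi : i = y
    · subst hi; exact h2
    · have := DFunLike.congr_fun h1 i
      rwa [Finsupp.erase_ne hi, Finsupp.erase_ne hi] at this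
  have h3 := hbc.comp e he
  have h5 : (fun m : MS (insert y X) p => mn (id : k → k) (m : k →₀ ℕ))
      = (fun q : MS X p × Fin p => b q.1 • y ^ (q.2 : ℕ)) ∘ e := by
    funext m
    have h4 := Finsupp.mul_prod_erase' (m : k →₀ ℕ) y (fun (i : k) (a : ℕ) => (id i : k) ^ a)
      (fun i => pow_zero _)
    change mn (id : k → k) (m : k →₀ ℕ)
      = (mn (id : k → k) ((m : k →₀ ℕ).erase y)) * y ^ ((m : k →₀ ℕ) y)
    rw [mul_comm]
    exact h4.symm
  unfold Ind LinearIndepOn
  rw [h5]
  exact h3

/-- `p`-bases exist -/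
theorem exists_pbasis : ∃ X : Set k, Ind p X ∧
    ∀ y : k, y ∈ IntermediateField.adjoin (KP p : Subfield k) X := by
  classical
  obtain ⟨X, hX⟩ := zorn_subset {X : Set k | Ind p X} (by
    intro c hc hch
    rcases c.eq_empty_or_nonempty with rfl | hne
    · refine ⟨∅, ?_, fun s hs => hs.elim⟩
      have h1 : MS (∅ : Set k) p = {0} := by
        ext m
        constructor
        · intro hm
          rw [Set.mem_singleton_iff, ← Finsupp.support_eq_empty, ← Finset.coe_eq_empty]
          exact Set.subset_eq_empty hm.1 rfl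
        · rintro rfl
          exact ⟨by simp, fun i => hp.1.pos⟩
      change LinearIndepOn _ _ _
      rw [h1, linearIndepOn_singleton_iff, mn_zero]
      exact one_ne_zero
    · refine ⟨⋃₀ c, ?_, fun s hs => Set.subset_sUnion_of_mem hs⟩
      have h1 : MS (⋃₀ c) p = ⋃ X ∈ c, MS X p := by
        ext m
        rw [Set.mem_iUnion₂]
        constructor
        · intro hm
          obtain ⟨X, hX, h2⟩ := hch.directedOn.exists_mem_subset_of_finite_of_subset_sUnion hne
            m.support.finite_toSet hm.1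
          exact ⟨X, hX, h2, hm.2⟩
        · rintro ⟨X, hX, hm⟩
          exact ⟨hm.1.trans (Set.subset_sUnion_of_mem hX), hm.2⟩
      change LinearIndepOn _ _ _
      rw [h1]
      refine linearIndepOn_biUnion_of_directed ?_ fun X hX => hc hX
      intro a ha b hb
      obtain ⟨d, hd, h3, h4⟩ := hch.directedOn a ha b hb
      exact ⟨d, hd, fun m hm => ⟨hm.1.trans h3, hm.2⟩, fun m hm => ⟨hm.1.trans h4, hm.2⟩⟩)
  refine ⟨X, hX.1, fun y => ?_⟩
  by_contra hy
  have h1 := hX.2 (ind_insert p hX.1 hy) (Set.subset_insert y X)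
  exact hy (IntermediateField.subset_adjoin _ _ (h1 (Set.mem_insert y X)))

theorem exists_mn_of_mem_closure {ι R : Type} [CommRing R] (x : ι → R) (X : Set ι) {y : R}
    (hy : y ∈ Submonoid.closure (x '' X)) :
    ∃ m : ι →₀ ℕ, (m.support : Set ι) ⊆ X ∧ y = mn x m := by
  classical
  induction hy using Submonoid.closure_induction with
  | mem y hy =>
    obtain ⟨i, hi, rfl⟩ := hy
    refine ⟨Finsupp.single i 1, ?_, by rw [mn_single, pow_one]⟩
    refine (Finset.coe_subset.2 Finsupp.support_single_subset).trans ?_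
    simpa using hi
  | one => exact ⟨0, by simp, (mn_zero x).symm⟩
  | mul a b _ _ iha ihb =>
    obtain ⟨m, hm, rfl⟩ := iha
    obtain ⟨m', hm', rfl⟩ := ihb
    refine ⟨m + m', ?_, (mn_add x m m').symm⟩
    refine (Finset.coe_subset.2 Finsupp.support_add).trans ?_
    rw [Finset.coe_union]
    exact Set.union_subset hm hm'

/-- the reduced monomials span -/
theorem span_top {X : Set k} (hX : ∀ y : k, y ∈ IntermediateField.adjoin (KP p : Subfield k) X)
    (y : k) : y ∈ Submodule.span (KP p : Subfield k) (mn (id : k → k) '' MS X p) := by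
  have halg : ∀ x ∈ X, IsAlgebraic (KP p : Subfield k) x := by
    intro x _
    refine IsAlgebraic.of_pow hp.1.pos ?_
    exact isAlgebraic_algebraMap (⟨x ^ p, pow_mem_KP p x⟩ : (KP p : Subfield k))
  have h1 : y ∈ (IntermediateField.adjoin (KP p : Subfield k) X).toSubalgebra := hX y
  rw [IntermediateField.adjoin_toSubalgebra_of_isAlgebraic halg, ← Subalgebra.mem_toSubmodule,
    Algebra.adjoin_eq_span] at h1
  refine Submodule.span_le.2 ?_ h1
  intro z hz
  obtain ⟨m, hm, rfl⟩ := exists_mn_of_mem_closure (id : k → k) X (by rwa [Set.image_id])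
  rw [mn_md_dv id p m, mul_comm]
  exact Submodule.smul_mem _ (⟨mn id (dv p m) ^ p, pow_mem_KP p _⟩ : (KP p : Subfield k))
    (Submodule.subset_span ⟨_, md_mem hp.1.pos hm, rfl⟩)

/-- independence at level `n` -/
theorem ind_pow {X : Set k} (hX : Ind p X) (n : ℕ) : ∀ (s : Finset (k →₀ ℕ))
    (c : (k →₀ ℕ) → k), (∀ m ∈ s, m ∈ MS X (p ^ n)) →
    ∑ m ∈ s, c m ^ (p ^ n) * mn (id : k → k) m = 0 → ∀ m ∈ s, c m = 0 := by
  classical
  induction n with
  | zero =>
    intro s c hs h m hm
    have h0 : ∀ m ∈ s, m = 0 := by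
      intro m hm
      ext i
      have := (hs m hm).2 i
      rw [pow_zero] at this
      rw [Finsupp.coe_zero, Pi.zero_apply]
      omega
    have h1 : s = {0} := by
      rw [Finset.eq_singleton_iff_nonempty_unique_mem]
      exact ⟨⟨m, hm⟩, h0⟩
    rw [h1, Finset.sum_singleton, mn_zero, mul_one, pow_zero, pow_one] at h
    rw [h0 m hm, h]
  | succ n ih =>
    intro s c hs h
    have hterm : ∀ m, c m ^ (p ^ (n + 1)) * mn (id : k → k) m =
        (c m ^ (p ^ n) * mn (id : k → k) (dv p m)) ^ p * mn (id : k → k) (md p m) := by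
      intro m
      rw [mn_md_dv id p m, mul_pow, ← pow_mul, ← pow_succ]
      ring
    have h2 : ∑ r ∈ s.image (md p), (∑ m ∈ s.filter (fun m => md p m = r),
        c m ^ (p ^ n) * mn (id : k → k) (dv p m)) ^ p * mn (id : k → k) r = 0 := by
      rw [← h, ← Finset.sum_fiberwise_of_maps_to (g := md p) (t := s.image (md p))
        fun m hm => Finset.mem_image_of_mem _ hm]
      refine Finset.sum_congr rfl fun r hr => ?_
      rw [sum_pow_char, Finset.sum_mul]
      refine Finset.sum_congr rfl fun m hm => ?_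
      rw [hterm, (Finset.mem_filter.1 hm).2]
    have h3 := linearIndepOn_iff.1 hX
    have h4 : ∀ r ∈ s.image (md p), ∑ m ∈ s.filter (fun m => md p m = r),
        c m ^ (p ^ n) * mn (id : k → k) (dv p m) = 0 := by
      let f : (k →₀ ℕ) → (KP p : Subfield k) := fun r =>
        ⟨(∑ m ∈ s.filter (fun m => md p m = r),
          c m ^ (p ^ n) * mn (id : k → k) (dv p m)) ^ p, pow_mem_KP p _⟩
      have h5 := h3 (Finsupp.onFinset (s.image (md p))
        (fun r => if r ∈ s.image (md p) then f r else 0)
        (fun r hr => by by_contra h; exact hr (if_neg h))) ?_ ?_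
      · intro r hr
        have h6 := DFunLike.congr_fun h5 r
        rw [Finsupp.onFinset_apply, if_pos hr, Finsupp.coe_zero, Pi.zero_apply] at h6
        exact pow_eq_zero_iff hp.1.ne_zero |>.1 (congrArg Subtype.val h6)
      · rw [Finsupp.mem_supported]
        intro r hr
        have hr2 := Finsupp.support_onFinset_subset (Finset.mem_coe.1 hr)
        obtain ⟨m, hm, rfl⟩ := Finset.mem_image.1 hr2
        exact md_mem hp.1.pos (hs m hm).1
      · rw [Finsupp.linearCombination_apply,
          Finsupp.onFinset_sum (g := fun i a => a • mn (id : k → k) i) _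
            (fun a => zero_smul _ _)]
        rw [← h2]
        refine Finset.sum_congr rfl fun r hr => ?_
        rw [if_pos hr]
        rfl
    intro m hm
    have h5 := h4 (md p m) (Finset.mem_image_of_mem _ hm)
    have hinj : Set.InjOn (dv p) (s.filter (fun m' => md p m' = md p m) : Set (k →₀ ℕ)) := by
      intro a ha b hb hab
      rw [← md_add_dv p a, ← md_add_dv p b, hab, (Finset.mem_filter.1 ha).2,
        (Finset.mem_filter.1 hb).2]
    have h6 := ih ((s.filter (fun m' => md p m' = md p m)).image (dv p))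
      (fun q => c (md p m + p • q)) ?_ ?_ (dv p m)
      (Finset.mem_image_of_mem _ (Finset.mem_filter.2 ⟨hm, rfl⟩))
    · rwa [md_add_dv] at h6
    · intro q hq
      obtain ⟨m', hm', rfl⟩ := Finset.mem_image.1 hq
      refine dv_mem (q := p) ?_
      rw [← pow_succ']
      exact hs m' (Finset.mem_filter.1 hm').1
    · rw [Finset.sum_image hinj, ← h5]
      refine Finset.sum_congr rfl fun m' hm' => ?_
      rw [← (Finset.mem_filter.1 hm').2, md_add_dv]

end pb

end Vale.Agent.P190.H128
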