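import Vale.Agent.P190.H128.E12
import Mathlib.RingTheory.WittVector.Frobenius
import Mathlib.RingTheory.WittVector.Verschiebung
import Mathlib.RingTheory.WittVector.Teichmuller
import Mathlib.RingTheory.LocalRing.ResidueField.Basic

/-! A tower of subrings which converges to a Cohen subring. -/

set_option autoImplicit false

namespace Vale.Agent.P190.H128

open IsLocalRing

variable {B : Type} [CommRing B] [IsLocalRing B]

/-- towers of subrings -/
structure Tower (p : ℕ) (S : ℕ → Subring B) : Prop where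
  anti : ∀ n, S (n + 1) ≤ S n
  pow : ∀ n, ∀ b ∈ maximalIdeal B ^ (n + 1), b ∈ S n
  res : ∀ y : ResidueField B, ∃ v ∈ S 0, residue B v = y
  lift : ∀ n, ∀ v ∈ S n, ∃ u ∈ S (n + 1), v - u ∈ maximalIdeal B ^ (n + 1)
  div : ∀ n, ∀ v ∈ S (n + 1), v ∈ maximalIdeal B →
    ∃ a ∈ S n, v - p * a ∈ maximalIdeal B ^ (n + 2)

variable (p : ℕ) [hp : Fact p.Prime]

/-- truncated ghost rings -/
noncomputable def TT (n : ℕ) : Subring B :=
  ((Ideal.Quotient.mk (maximalIdeal B ^ (n + 1))).comp
    (WittVector.ghostComponent (p := p) (R := B) n)).range.comap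
    (Ideal.Quotient.mk (maximalIdeal B ^ (n + 1)))

theorem mem_TT {n : ℕ} {b : B} : b ∈ TT p n ↔
    ∃ w : WittVector p B, b - WittVector.ghostComponent n w ∈ maximalIdeal B ^ (n + 1) := by
  unfold TT
  rw [Subring.mem_comap, RingHom.mem_range]
  constructor
  · rintro ⟨w, hw⟩
    exact ⟨w, by rw [← Ideal.Quotient.eq]; exact hw.symm⟩
  · rintro ⟨w, hw⟩
    exact ⟨w, (Ideal.Quotient.eq.2 hw).symm⟩

omit [IsLocalRing B] in
theorem ghost_succ (n : ℕ) (w : WittVector p B) : WittVector.ghostComponent (n + 1) w =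
    w.coeff 0 ^ p ^ (n + 1) +
      p * WittVector.ghostComponent n (WittVector.mk p fun i => w.coeff (i + 1)) := by
  rw [WittVector.ghostComponent_apply, WittVector.ghostComponent_apply, aeval_wittPolynomial,
    aeval_wittPolynomial, Finset.sum_range_succ', pow_zero, one_mul, Nat.sub_zero, add_comm,
    Finset.mul_sum]
  congr 1
  refine Finset.sum_congr rfl fun i _ => ?_
  rw [pow_succ', mul_assoc, Nat.succ_sub_succ]
  rfl

theorem TT_pow_mem (n : ℕ) (b : B) : b ^ (p ^ n) ∈ TT (B := B) p n :=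
  (mem_TT p).2 ⟨WittVector.teichmuller p b, by
    rw [WittVector.ghostComponent_teichmuller, sub_self]; exact zero_mem _⟩

theorem TT_of_mem (n : ℕ) {b : B} (hb : b ∈ maximalIdeal B ^ (n + 1)) : b ∈ TT p n :=
  (mem_TT p).2 ⟨0, by rw [map_zero, sub_zero]; exact hb⟩

theorem TT_anti (n : ℕ) : TT (B := B) p (n + 1) ≤ TT p n := by
  intro b hb
  obtain ⟨w, hw⟩ := (mem_TT p).1 hb
  refine (mem_TT p).2 ⟨WittVector.frobenius w, ?_⟩
  rw [WittVector.ghostComponent_frobenius]
  exact Ideal.pow_le_pow_right (by omega) hw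

theorem TT_mul (hpm : (p : B) ∈ maximalIdeal B) (n : ℕ) {b : B} (hb : b ∈ TT p n) :
    p * b ∈ TT p (n + 1) := by
  obtain ⟨w, hw⟩ := (mem_TT p).1 hb
  refine (mem_TT p).2 ⟨WittVector.verschiebung w, ?_⟩
  rw [WittVector.ghostComponent_verschiebung, ← mul_sub, pow_succ']
  exact Ideal.mul_mem_mul hpm hw

theorem TT_res (hpm : (p : B) ∈ maximalIdeal B) (n : ℕ) {b : B} (hb : b ∈ TT p n) :
    ∃ c : B, b - c ^ (p ^ n) ∈ maximalIdeal B := by
  obtain ⟨w, hw⟩ := (mem_TT p).1 hb
  have h0 : b - WittVector.ghostComponent n w ∈ maximalIdeal B :=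
    Ideal.pow_le_self (Nat.succ_ne_zero n) hw
  refine ⟨w.coeff 0, ?_⟩
  have h1 : WittVector.ghostComponent n w - w.coeff 0 ^ (p ^ n) ∈ maximalIdeal B := by
    cases n with
    | zero =>
      rw [WittVector.ghostComponent_apply, aeval_wittPolynomial, Finset.sum_range_one, pow_zero,
        one_mul, sub_self]
      exact zero_mem _
    | succ n =>
      rw [ghost_succ, add_sub_cancel_left]
      exact Ideal.mul_mem_right _ _ hpm
  have h2 := add_mem h0 h1
  rwa [sub_add_sub_cancel] at h2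

theorem TT_div (hpm : (p : B) ∈ maximalIdeal B) (n : ℕ) {b : B} (hb : b ∈ TT p (n + 1))
    (hb2 : b ∈ maximalIdeal B) : ∃ a ∈ TT p n, b - p * a ∈ maximalIdeal B ^ (n + 2) := by
  obtain ⟨w, hw⟩ := (mem_TT p).1 hb
  rw [ghost_succ] at hw
  have hw1 : b - (w.coeff 0 ^ p ^ (n + 1) + p * WittVector.ghostComponent n
      (WittVector.mk p fun i => w.coeff (i + 1))) ∈ maximalIdeal B :=
    Ideal.pow_le_self (Nat.succ_ne_zero (n + 1)) hw
  have hw0 : w.coeff 0 ^ p ^ (n + 1) ∈ maximalIdeal B := by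
    have h1 := sub_mem hb2 hw1
    rw [sub_sub_cancel] at h1
    have h2 := sub_mem h1 (Ideal.mul_mem_right (WittVector.ghostComponent n
      (WittVector.mk p fun i => w.coeff (i + 1))) _ hpm)
    rwa [add_sub_cancel_right] at h2
  have hw2 : w.coeff 0 ∈ maximalIdeal B :=
    (inferInstance : (maximalIdeal B).IsPrime).mem_of_pow_mem _ hw0
  refine ⟨WittVector.ghostComponent n (WittVector.mk p fun i => w.coeff (i + 1)),
    (mem_TT p).2 ⟨_, by rw [sub_self]; exact zero_mem _⟩, ?_⟩
  have h3 : w.coeff 0 ^ p ^ (n + 1) ∈ maximalIdeal B ^ (n + 2) :=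
    Ideal.pow_le_pow_right (Nat.lt_pow_self hp.1.one_lt) (Ideal.pow_mem_pow hw2 _)
  have h4 := add_mem hw h3
  convert h4 using 1
  ring

section

variable (X : Set (ResidueField B)) (x : ResidueField B → B)

/-- the tower -/
noncomputable def VV (n : ℕ) : Subring B := (Algebra.adjoin (TT (B := B) p n) (x '' X)).toSubring

theorem mem_VV {n : ℕ} {v : B} : v ∈ VV p X x n ↔
    v ∈ Algebra.adjoin (TT (B := B) p n) (x '' X) := Iff.rfl

theorem TT_le_VV (n : ℕ) {b : B} (hb : b ∈ TT p n) : b ∈ VV p X x n :=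
  Subalgebra.algebraMap_mem (Algebra.adjoin (TT (B := B) p n) (x '' X)) ⟨b, hb⟩

theorem x_mem_VV (n : ℕ) {y : ResidueField B} (hy : y ∈ X) : x y ∈ VV p X x n :=
  Algebra.subset_adjoin ⟨y, hy, rfl⟩

theorem VV_anti (n : ℕ) : VV p X x (n + 1) ≤ VV p X x n := by
  intro v hv
  rw [mem_VV] at hv
  induction hv using Algebra.adjoin_induction with
  | mem y hy => obtain ⟨i, hi, rfl⟩ := hy; exact x_mem_VV p X x n hi
  | algebraMap r => exact TT_le_VV p X x n (TT_anti p n r.2)
  | add a b _ _ ha hb => exact add_mem ha hb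
  | mul a b _ _ ha hb => exact mul_mem ha hb

theorem VV_rep (n : ℕ) {v : B} (hv : v ∈ VV p X x n) :
    v ∈ Submodule.span (TT (B := B) p n) (mn x '' MS X (p ^ n)) := by
  rw [mem_VV, ← Subalgebra.mem_toSubmodule, Algebra.adjoin_eq_span] at hv
  refine Submodule.span_le.2 ?_ hv
  intro z hz
  obtain ⟨m, hm, rfl⟩ := exists_mn_of_mem_closure x X hz
  rw [mn_md_dv x (p ^ n) m, mul_comm]
  exact Submodule.smul_mem _ (⟨mn x (dv (p ^ n) m) ^ (p ^ n), TT_pow_mem p n _⟩ : TT (B := B) p n)
    (Submodule.subset_span ⟨_, md_mem (pow_pos hp.1.pos n) hm, rfl⟩)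

theorem mn_mem_VV (n : ℕ) {m : ResidueField B →₀ ℕ} (hm : (m.support : Set _) ⊆ X) :
    mn x m ∈ VV p X x n :=
  prod_mem fun _ hi => pow_mem (x_mem_VV p X x n (hm hi)) _

theorem VV_res [CharP (ResidueField B) p] (hx : ∀ y, residue B (x y) = y)
    (hX : ∀ y : ResidueField B, y ∈
      Submodule.span (KP p : Subfield (ResidueField B)) (mn id '' MS X p))
    (n : ℕ) (y : ResidueField B) : ∃ v ∈ VV p X x n, residue B v = y := by
  have key : ∀ j ≤ n, ∀ y : ResidueField B,
      y ^ (p ^ (n - j)) ∈ (VV p X x n).map (residue B) := by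
    intro j
    induction j with
    | zero =>
      intro _ y
      obtain ⟨b, rfl⟩ := residue_surjective y
      rw [Nat.sub_zero, ← map_pow]
      exact ⟨_, TT_le_VV p X x n (TT_pow_mem p n b), rfl⟩
    | succ j ih =>
      intro hj y
      have hj' : n - j = (n - (j + 1)) + 1 := by omega
      have ih' := ih (by omega)
      rw [hj'] at ih'
      generalize n - (j + 1) = i at ih' ⊢
      induction hX y using Submodule.span_induction with
      | mem z hz =>
        obtain ⟨m, hm, rfl⟩ := hz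
        refine pow_mem ?_ _
        refine ⟨mn x m, mn_mem_VV p X x n hm.1, ?_⟩
        rw [map_mn]
        congr 1
        funext y
        exact hx y
      | zero => rw [zero_pow (pow_ne_zero _ hp.1.ne_zero)]; exact zero_mem _
      | add a b _ _ ha hb => rw [add_pow_char_pow]; exact add_mem ha hb
      | smul c a _ ha =>
        obtain ⟨c, d, rfl⟩ := c
        change ((frobenius (ResidueField B) p d) * a) ^ p ^ i ∈ _
        rw [mul_pow, frobenius_def, ← pow_mul, ← pow_succ']
        exact mul_mem (ih' d) ha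
  have h1 := key n le_rfl y
  rw [Nat.sub_self, pow_zero, pow_one] at h1
  obtain ⟨v, hv, h2⟩ := h1
  exact ⟨v, hv, h2⟩

theorem VV_div [CharP (ResidueField B) p] (hpm : (p : B) ∈ maximalIdeal B)
    (hx : ∀ y, residue B (x y) = y) (hX : Ind p X) (n : ℕ) {v : B} (hv : v ∈ VV p X x (n + 1))
    (hv2 : v ∈ maximalIdeal B) : ∃ a ∈ VV p X x n, v - p * a ∈ maximalIdeal B ^ (n + 2) := by
  classical
  obtain ⟨l, hl, rfl⟩ := (Finsupp.mem_span_image_iff_linearCombination _).1 (VV_rep p X x (n + 1) hv)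
  rw [Finsupp.mem_supported] at hl
  choose c hc using fun m => TT_res p hpm (n + 1) (l m).2
  have hlc : Finsupp.linearCombination (TT (B := B) p (n + 1)) (mn x) l =
      ∑ m ∈ l.support, (l m : B) * mn x m := by
    rw [Finsupp.linearCombination_apply, Finsupp.sum]
    rfl
  rw [hlc] at hv2 ⊢
  have hsum : ∑ m ∈ l.support, (residue B (c m)) ^ (p ^ (n + 1)) *
      mn (id : ResidueField B → ResidueField B) m = 0 := by
    have h1 : residue B (∑ m ∈ l.support, (l m : B) * mn x m) = 0 :=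
      (residue_eq_zero_iff _).2 hv2
    rw [map_sum] at h1
    rw [← h1]
    refine Finset.sum_congr rfl fun m _ => ?_
    rw [map_mul, map_mn]
    congr 1
    · rw [← map_pow, eq_comm, ← sub_eq_zero, ← map_sub, residue_eq_zero_iff]
      exact hc m
    · congr 1
      funext y
      exact (hx y).symm
  have h0 := ind_pow p hX (n + 1) l.support (fun m => residue B (c m)) (fun m hm => hl hm) hsum
  have h2 : ∀ m ∈ l.support, (l m : B) ∈ maximalIdeal B := by
    intro m hm
    have h3 : c m ∈ maximalIdeal B := (residue_eq_zero_iff _).1 (h0 m hm)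
    have h4 := add_mem (hc m) (Ideal.pow_mem_of_mem _ h3 _ (pow_pos hp.1.pos (n + 1)))
    rwa [sub_add_cancel] at h4
  have h5 : ∀ m, ∃ a ∈ TT (B := B) p n, m ∈ l.support →
      (l m : B) - p * a ∈ maximalIdeal B ^ (n + 2) := by
    intro m
    by_cases hm : m ∈ l.support
    · obtain ⟨a, ha, h6⟩ := TT_div p hpm n (l m).2 (h2 m hm)
      exact ⟨a, ha, fun _ => h6⟩
    · exact ⟨0, zero_mem _, fun h => absurd h hm⟩
  choose a ha h6 using h5
  refine ⟨∑ m ∈ l.support, a m * mn x m, sum_mem fun m hm =>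
    mul_mem (TT_le_VV p X x n (ha m)) (mn_mem_VV p X x n (hl hm).1), ?_⟩
  rw [Finset.mul_sum, ← Finset.sum_sub_distrib]
  refine sum_mem fun m hm => ?_
  rw [← mul_assoc, ← sub_mul]
  exact Ideal.mul_mem_right _ _ (h6 m hm)

theorem VV_mul (hpm : (p : B) ∈ maximalIdeal B) (n : ℕ) {v : B} (hv : v ∈ VV p X x n) :
    p * v ∈ VV p X x (n + 1) := by
  obtain ⟨l, hl, rfl⟩ := (Finsupp.mem_span_image_iff_linearCombination _).1 (VV_rep p X x n hv)
  rw [Finsupp.mem_supported] at hl
  rw [Finsupp.linearCombination_apply, Finsupp.sum, Finset.mul_sum]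
  refine sum_mem fun m hm => ?_
  change (p : B) * ((l m : B) * mn x m) ∈ _
  rw [← mul_assoc]
  exact mul_mem (TT_le_VV p X x (n + 1) (TT_mul p hpm n (l m).2)) (mn_mem_VV p X x (n + 1) (hl hm).1)

theorem VV_lift [CharP (ResidueField B) p] (hpm : (p : B) ∈ maximalIdeal B)
    (hx : ∀ y, residue B (x y) = y) (hX : Ind p X)
    (hX2 : ∀ y : ResidueField B, y ∈
      Submodule.span (KP p : Subfield (ResidueField B)) (mn id '' MS X p))
    (n : ℕ) : ∀ v ∈ VV p X x n, ∃ u ∈ VV p X x (n + 1), v - u ∈ maximalIdeal B ^ (n + 1) := by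
  induction n with
  | zero =>
    intro v _
    obtain ⟨u, hu, h⟩ := VV_res p X x hx hX2 1 (residue B v)
    refine ⟨u, hu, ?_⟩
    rw [zero_add, pow_one, ← residue_eq_zero_iff, map_sub, h, sub_self]
  | succ n ih =>
    intro v hv
    obtain ⟨u, hu, h⟩ := VV_res p X x hx hX2 (n + 2) (residue B v)
    have h1 : v - u ∈ maximalIdeal B := by
      rw [← residue_eq_zero_iff, map_sub, h, sub_self]
    obtain ⟨a, ha, h2⟩ := VV_div p X x hpm hx hX n (sub_mem hv (VV_anti p X x (n + 1) hu)) h1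
    obtain ⟨a', ha', h3⟩ := ih a ha
    refine ⟨u + p * a', add_mem hu (VV_mul p X x hpm (n + 1) ha'), ?_⟩
    have h4 : (p : B) * (a - a') ∈ maximalIdeal B ^ (n + 2) := by
      rw [pow_succ']
      exact Ideal.mul_mem_mul hpm h3
    have h5 := add_mem h2 h4
    convert h5 using 1
    ring

end

theorem exists_tower [CharP (ResidueField B) p] (hpm : (p : B) ∈ maximalIdeal B) :
    ∃ S : ℕ → Subring B, Tower p S := by
  obtain ⟨X, hX, hX1⟩ := exists_pbasis (k := ResidueField B) p
  have hX2 := span_top p hX1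
  choose x hx using residue_surjective (R := B)
  exact ⟨VV p X x, {
    anti := VV_anti p X x
    pow := fun n b hb => TT_le_VV p X x n (TT_of_mem p n hb)
    res := VV_res p X x hx hX2 0
    lift := VV_lift p X x hpm hx hX hX2
    div := fun n v hv hv2 => VV_div p X x hpm hx hX n hv hv2 }⟩

end Vale.Agent.P190.H128
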