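import Vale.Agent.P190.H128.E10
import Vale.Agent.P190.H128.E13
import Mathlib.RingTheory.Filtration

/-! Cohen subrings in mixed characteristic, arbitrary residue field. -/

set_option autoImplicit false

namespace Vale.Agent.P190.H128

open Vale.Agent.P190 Vale.Agent.P190.D IsLocalRing RingTheory.Sequence

theorem mem_of_forall_sup_pow {B : Type} [CommRing B] [IsLocalRing B] [IsNoetherianRing B]
    (I : Ideal B) (b : B) (h : ∀ n, ∃ e ∈ maximalIdeal B ^ n, b - e ∈ I) : b ∈ I := by
  have h1 : Ideal.Quotient.mk I b ∈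
      (⨅ i : ℕ, (maximalIdeal B) ^ i • (⊤ : Submodule B (B ⧸ I))) := by
    rw [Submodule.mem_iInf]
    intro m
    obtain ⟨e, he, h2⟩ := h m
    have h5 : Ideal.Quotient.mk I b = e • (1 : B ⧸ I) := by
      rw [Algebra.smul_def, mul_one]
      exact Ideal.Quotient.eq.2 h2
    rw [h5]
    exact Submodule.smul_mem_smul he trivial
  rw [Ideal.iInf_pow_smul_eq_bot_of_isLocalRing _ (Ideal.IsPrime.ne_top
    (inferInstance : (maximalIdeal B).IsPrime)), Submodule.mem_bot] at h1
  exact Ideal.Quotient.eq_zero_iff_mem.1 h1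

theorem artin_rees {B : Type} [CommRing B] [IsLocalRing B] [IsNoetherianRing B] [IsDomain B]
    (q : B) (hq : q ≠ 0) : ∃ c : ℕ, ∀ n, ∀ b : B, q * b ∈ maximalIdeal B ^ (n + c) →
      b ∈ maximalIdeal B ^ n := by
  obtain ⟨c, hc⟩ := Ideal.exists_pow_inf_eq_pow_smul (maximalIdeal B)
    (Ideal.span {q} : Submodule B B)
  refine ⟨c, fun n b hb => ?_⟩
  have h1 := hc (n + c) (Nat.le_add_left c n)
  rw [Nat.add_sub_cancel] at h1
  have h2 : q * b ∈ (maximalIdeal B ^ (n + c) • (⊤ : Submodule B B)) ⊓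
      (Ideal.span {q} : Submodule B B) := by
    refine ⟨?_, Ideal.mul_mem_right _ _ (Ideal.mem_span_singleton_self q)⟩
    rw [smul_eq_mul, Ideal.mul_top]
    exact hb
  rw [h1] at h2
  have h3 : q * b ∈ maximalIdeal B ^ n * Ideal.span {q} := by
    have h5 := Submodule.smul_mono (le_refl (maximalIdeal B ^ n))
      (inf_le_right (a := maximalIdeal B ^ c • (⊤ : Submodule B B))
        (b := (Ideal.span {q} : Submodule B B))) h2
    exact h5
  rw [mul_comm, Ideal.mem_span_singleton_mul] at h3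
  obtain ⟨d, hd, h4⟩ := h3
  rwa [← mul_left_cancel₀ hq h4]

section

variable {B : Type} [CommRing B] [IsLocalRing B] [IsNoetherianRing B] [IsDomain B]
  (hB : IsAdicComplete (maximalIdeal B) B) {p : ℕ} [hp : Fact p.Prime] [CharZero B]
  (hpm : (p : B) ∈ maximalIdeal B) {S : ℕ → Subring B} (hS : Tower p S)

include hS

omit [IsNoetherianRing B] [IsDomain B] [CharZero B] hp in
theorem tower_le (m n : ℕ) (h : m ≤ n) : S n ≤ S m := by
  induction h with
  | refl => exact le_rfl
  | step _ ih => exact (hS.anti _).trans ih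

omit [IsNoetherianRing B] [IsDomain B] [CharZero B] hp in
include hB in
theorem lim_res (y : ResidueField B) : ∃ v ∈ ⨅ n, S n, residue B v = y := by
  obtain ⟨v0, hv0, h0⟩ := hS.res y
  choose g hg1 hg2 using hS.lift
  let f : (n : ℕ) → S n := fun n => Nat.rec (motive := fun n => S n) ⟨v0, hv0⟩
    (fun n v => ⟨g n (v : B) v.2, hg1 n (v : B) v.2⟩) n
  have hf : ∀ n, (f n : B) - f (n + 1) ∈ maximalIdeal B ^ (n + 1) := by
    intro n
    have h1 : ((f (n + 1) : S (n + 1)) : B) = g n (f n : B) (f n).2 := rfl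
    rw [h1]
    exact hg2 n (f n : B) (f n).2
  have hf2 : ∀ n j, (f n : B) - f (n + j) ∈ maximalIdeal B ^ (n + 1) := by
    intro n j
    induction j with
    | zero => rw [add_zero, sub_self]; exact zero_mem _
    | succ j ih =>
      have h1 := add_mem ih (Ideal.pow_le_pow_right (by omega) (hf (n + j)))
      rwa [sub_add_sub_cancel] at h1
  obtain ⟨L, hL⟩ := hB.prec' (fun n => (f n : B)) (by
    intro m n hmn
    rw [SModEq.sub_mem, smul_eq_mul, Ideal.mul_top]
    obtain ⟨j, rfl⟩ := Nat.exists_eq_add_of_le hmn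
    exact Ideal.pow_le_pow_right (Nat.le_succ m) (hf2 m j))
  have hL2 : ∀ n, (f n : B) - L ∈ maximalIdeal B ^ (n + 1) := by
    intro n
    have h1 := hL (n + 1)
    rw [SModEq.sub_mem, smul_eq_mul, Ideal.mul_top] at h1
    have h2 := add_mem (hf n) h1
    rwa [sub_add_sub_cancel] at h2
  refine ⟨L, ?_, ?_⟩
  · rw [Subring.mem_iInf]
    intro n
    have h1 := sub_mem (f n).2 (hS.pow n _ (hL2 n))
    rwa [sub_sub_cancel] at h1
  · rw [← h0, eq_comm, ← sub_eq_zero, ← map_sub, residue_eq_zero_iff]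
    have h1 := hL2 0
    rwa [zero_add, pow_one] at h1


theorem lim_div {v : B} (hv : v ∈ ⨅ n, S n) (hv2 : v ∈ maximalIdeal B) :
    ∃ a ∈ ⨅ n, S n, v = p * a := by
  have hp0 : (p : B) ≠ 0 := by exact_mod_cast hp.1.ne_zero
  rw [Subring.mem_iInf] at hv
  have h1 : ∀ n, ∃ a ∈ S n, v - p * a ∈ maximalIdeal B ^ (n + 2) := fun n =>
    hS.div n v (hv (n + 1)) hv2
  choose a ha h2 using h1
  have h3 : v ∈ Ideal.span {(p : B)} := by
    apply mem_of_forall_sup_pow
    intro n
    refine ⟨v - p * a n, Ideal.pow_le_pow_right (by omega) (h2 n), ?_⟩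
    rw [sub_sub_cancel]
    exact Ideal.mul_mem_right _ _ (Ideal.mem_span_singleton_self _)
  obtain ⟨b, rfl⟩ := Ideal.mem_span_singleton.1 h3
  refine ⟨b, ?_, rfl⟩
  rw [Subring.mem_iInf]
  intro j
  obtain ⟨c, hc⟩ := artin_rees (p : B) hp0
  have h4 := h2 (j + c)
  rw [← mul_sub] at h4
  have h5 : b - a (j + c) ∈ maximalIdeal B ^ (j + 1) :=
    hc (j + 1) _ (Ideal.pow_le_pow_right (by omega) h4)
  have h6 := add_mem (hS.pow j _ h5) (tower_le hS j (j + c) (by omega) (ha (j + c)))
  rwa [sub_add_cancel] at h6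

omit [IsNoetherianRing B] [IsDomain B] [CharZero B] hp in
include hB in
theorem lim_inv {u : B} (hu : u ∈ ⨅ n, S n) (hu2 : IsUnit u) : ∃ w ∈ ⨅ n, S n, u * w = 1 := by
  obtain ⟨w0, hw0, h0⟩ := lim_res hB hS (residue B u)⁻¹
  have hz : 1 - u * w0 ∈ ⨅ n, S n := sub_mem (one_mem _) (mul_mem hu hw0)
  have hz2 : 1 - u * w0 ∈ maximalIdeal B := by
    rw [← residue_eq_zero_iff, map_sub, map_mul, map_one, h0,
      mul_inv_cancel₀ (hu2.map (residue B)).ne_zero, sub_self]
  obtain ⟨z, hze⟩ : ∃ z, z = 1 - u * w0 := ⟨_, rfl⟩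
  rw [← hze] at hz hz2
  have hun : IsUnit (1 - z) := by
    by_contra h
    have h1 := add_mem ((mem_maximalIdeal _).2 h) hz2
    rw [sub_add_cancel] at h1
    exact (Ideal.ne_top_iff_one _).1 (Ideal.IsPrime.ne_top
      (inferInstance : (maximalIdeal B).IsPrime)) h1
  obtain ⟨c, hc⟩ := hun.exists_right_inv
  have hcV : c ∈ ⨅ n, S n := by
    rw [Subring.mem_iInf]
    intro n
    have h1 : c = (∑ i ∈ Finset.range (n + 1), z ^ i) + z ^ (n + 1) * c := by
      have h2 := mul_neg_geom_sum z (n + 1)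
      calc c = (1 - z ^ (n + 1) + z ^ (n + 1)) * c := by ring
        _ = (1 - z) * c * (∑ i ∈ Finset.range (n + 1), z ^ i) + z ^ (n + 1) * c := by
            rw [← h2]; ring
        _ = _ := by rw [hc, one_mul]
    rw [h1]
    rw [Subring.mem_iInf] at hz
    exact add_mem (sum_mem fun i _ => pow_mem (hz n) i)
      (hS.pow n _ (Ideal.mul_mem_right _ _ (Ideal.pow_mem_pow hz2 _)))
  refine ⟨w0 * c, mul_mem hw0 hcV, ?_⟩
  rw [← mul_assoc]
  have h3 : u * w0 = 1 - z := by rw [hze]; ring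
  rw [h3, hc]

include hpm in
theorem lim_pdiv (n : ℕ) : ∀ b : B, (p : B) ^ n * b ∈ ⨅ n, S n → b ∈ ⨅ n, S n := by
  have hp0 : (p : B) ≠ 0 := by exact_mod_cast hp.1.ne_zero
  induction n with
  | zero => intro b hb; rwa [pow_zero, one_mul] at hb
  | succ n ih =>
    intro b hb
    have h1 : (p : B) ^ (n + 1) * b ∈ maximalIdeal B := by
      rw [pow_succ', mul_assoc]
      exact Ideal.mul_mem_right _ _ hpm
    obtain ⟨a, ha, h2⟩ := lim_div hS hb h1
    rw [pow_succ', mul_assoc] at h2
    rw [← mul_left_cancel₀ hp0 h2] at ha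
    exact ih b ha

end

/-- Cohen subrings: mixed characteristic, arbitrary residue field -/
theorem exists_cohen_subring (p : ℕ) [hp : Fact p.Prime] (B : Type) [CommRing B] [IsDomain B]
    [IsLocalRing B] [IsNoetherianRing B] [CharZero B] [CharP (ResidueField B) p]
    (hB : IsAdicComplete (maximalIdeal B) B) :
    ∃ (V : Type) (_ : CommRing V) (_ : IsDomain V) (_ : IsDiscreteValuationRing V)
      (_ : CharZero V) (_ : IsAdicComplete (maximalIdeal V) V) (g : V →+* B),
      IsPar V [(p : V)] ∧ IsLocalHom g ∧ Function.Surjective ((residue B).comp g) := by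
  classical
  have hpm : (p : B) ∈ maximalIdeal B := by
    rw [← residue_eq_zero_iff, map_natCast, CharP.cast_eq_zero]
  have hp0 : (p : B) ≠ 0 := by exact_mod_cast hp.1.ne_zero
  obtain ⟨S, hS⟩ := exists_tower (B := B) p hpm
  obtain ⟨V, hV⟩ : ∃ V : Subring B, V = ⨅ n, S n := ⟨_, rfl⟩
  have hunit : ∀ x : V, IsUnit (x : B) → IsUnit x := by
    intro x hx
    obtain ⟨w, hw, h⟩ := lim_inv hB hS (hV ▸ x.2) hx
    rw [← hV] at hw
    exact IsUnit.of_mul_eq_one (⟨w, hw⟩ : V) (Subtype.ext h)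
  have hunit2 : ∀ x : V, x ∈ nonunits V ↔ (x : B) ∈ maximalIdeal B := by
    intro x
    rw [mem_maximalIdeal]
    exact ⟨fun h h2 => h (hunit x h2), fun h h2 => h (h2.map V.subtype)⟩
  have hloc : IsLocalRing V := by
    refine IsLocalRing.of_nonunits_add fun a b ha hb => ?_
    rw [hunit2] at ha hb ⊢
    exact add_mem ha hb
  have hmax : ∀ x : V, x ∈ maximalIdeal V ↔ (x : B) ∈ maximalIdeal B := fun x => by
    rw [mem_maximalIdeal]; exact hunit2 x
  have hdiv : ∀ x : V, x ∈ maximalIdeal V → ∃ a : V, x = p * a := by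
    intro x hx
    obtain ⟨a, ha, h⟩ := lim_div hS (hV ▸ x.2) ((hmax x).1 hx)
    rw [← hV] at ha
    exact ⟨⟨a, ha⟩, Subtype.ext (by rw [h]; simp)⟩
  have hpV : (p : V) ∈ maximalIdeal V := by
    rw [hmax]
    simpa using hpm
  have hpV0 : (p : V) ≠ 0 := by
    intro h
    apply hp0
    have := congrArg Subtype.val h
    simpa using this
  have hspan : maximalIdeal V = Ideal.span {(p : V)} := by
    apply le_antisymm
    · intro x hx
      obtain ⟨a, rfl⟩ := hdiv x hx
      exact Ideal.mul_mem_right _ _ (Ideal.mem_span_singleton_self _)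
    · rw [Ideal.span_singleton_le_iff_mem]; exact hpV
  have hle : Ideal.span {(p : B)} ≤ maximalIdeal B := (Ideal.span_singleton_le_iff_mem _).2 hpm
  have hpow : ∀ (n : ℕ) (x : V), x ∈ (Ideal.span {(p : V)}) ^ n ↔
      (x : B) ∈ (Ideal.span {(p : B)}) ^ n := by
    intro n x
    rw [Ideal.span_singleton_pow, Ideal.span_singleton_pow, Ideal.mem_span_singleton,
      Ideal.mem_span_singleton]
    constructor
    · rintro ⟨a, rfl⟩
      exact ⟨a, by simp⟩
    · rintro ⟨b, hb⟩
      have h1 : (p : B) ^ n * b ∈ ⨅ n, S n := by rw [← hb, ← hV]; exact x.2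
      have h2 := lim_pdiv hpm hS n b h1
      rw [← hV] at h2
      exact ⟨⟨b, h2⟩, Subtype.ext (by rw [hb]; simp)⟩
  have hpc : IsAdicComplete (Ideal.span {(p : B)}) B := isAdicComplete_of_le_max hB _ hle
  have hcomp : IsAdicComplete (maximalIdeal V) V := by
    rw [hspan]
    refine { haus' := ?_, prec' := ?_ }
    · intro x hx
      apply Subtype.ext
      apply hpc.haus' (x : B)
      intro n
      have h1 := hx n
      rw [SModEq.sub_mem, smul_eq_mul, Ideal.mul_top, sub_zero] at h1 ⊢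
      exact (hpow n x).1 h1
    · intro f hf
      obtain ⟨L, hL⟩ := hpc.prec' (fun n => (f n : B)) (by
        intro m n hmn
        have h1 := hf hmn
        rw [SModEq.sub_mem, smul_eq_mul, Ideal.mul_top] at h1 ⊢
        exact (hpow m _).1 h1)
      have hL2 : ∀ n, (f n : B) - L ∈ Ideal.span {(p : B)} ^ n := by
        intro n
        have h1 := hL n
        rwa [SModEq.sub_mem, smul_eq_mul, Ideal.mul_top] at h1
      have hLV : L ∈ V := by
        rw [hV, Subring.mem_iInf]
        intro n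
        have h1 : (f (n + 1) : B) ∈ S n := Subring.mem_iInf.1 (hV.le (f (n + 1)).2) n
        have h3 := sub_mem h1 (hS.pow n _ (Ideal.pow_right_mono hle (n + 1) (hL2 (n + 1))))
        rwa [sub_sub_cancel] at h3
      refine ⟨⟨L, hLV⟩, fun n => ?_⟩
      rw [SModEq.sub_mem, smul_eq_mul, Ideal.mul_top]
      exact (hpow n _).2 (hL2 n)
  have hirr : Irreducible (p : V) := by
    refine ⟨(mem_maximalIdeal _).1 hpV, ?_⟩
    intro a b hab
    by_contra h
    rw [not_or] at h
    obtain ⟨a', rfl⟩ := hdiv a ((mem_maximalIdeal _).2 h.1)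
    obtain ⟨b', rfl⟩ := hdiv b ((mem_maximalIdeal _).2 h.2)
    have h1 : (p : V) * 1 = p * (p * (a' * b')) := by
      rw [mul_one]
      calc (p : V) = p * a' * (p * b') := hab
        _ = _ := by ring
    have h2 := mul_left_cancel₀ hpV0 h1
    exact (mem_maximalIdeal _).1 hpV (IsUnit.of_mul_eq_one _ h2.symm)
  have hdvr : IsDiscreteValuationRing V := by
    apply IsDiscreteValuationRing.ofHasUnitMulPowIrreducibleFactorization
    refine ⟨(p : V), hirr, fun {x} hx => ?_⟩
    have h1 : ∃ n, x ∉ Ideal.span {(p : V)} ^ n := by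
      by_contra h
      push Not at h
      apply hx
      have := hcomp
      rw [hspan] at this
      apply this.haus' x
      intro n
      rw [SModEq.sub_mem, smul_eq_mul, Ideal.mul_top, sub_zero]
      exact h n
    have h2 := Nat.find_spec h1
    have h3 : Nat.find h1 ≠ 0 := by
      intro h
      rw [h, pow_zero, Ideal.one_eq_top] at h2
      exact h2 trivial
    obtain ⟨n, hn⟩ := Nat.exists_eq_succ_of_ne_zero h3
    rw [hn] at h2
    have h4 : x ∈ Ideal.span {(p : V)} ^ n := by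
      by_contra h
      have := Nat.find_min' h1 h
      omega
    rw [Ideal.span_singleton_pow, Ideal.mem_span_singleton] at h4
    obtain ⟨y, rfl⟩ := h4
    refine ⟨n, ?_⟩
    have hy : IsUnit y := by
      by_contra h
      obtain ⟨a, rfl⟩ := hdiv y ((mem_maximalIdeal _).2 h)
      apply h2
      rw [Ideal.span_singleton_pow, Ideal.mem_span_singleton]
      exact ⟨a, by rw [← mul_assoc, ← pow_succ]⟩
    obtain ⟨u, rfl⟩ := hy
    exact ⟨u, rfl⟩
  have hcz : CharZero V := by
    refine charZero_of_inj_zero fun n hn => ?_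
    have := congrArg Subtype.val hn
    have h1 : (n : B) = 0 := by simpa using this
    exact_mod_cast h1
  refine ⟨V, inferInstance, inferInstance, hdvr, hcz, hcomp, V.subtype, ⟨?_, ?_⟩, ⟨?_⟩, ?_⟩
  · rw [isWeaklyRegular_cons_iff]
    exact ⟨fun a b hab => mul_left_cancel₀ hpV0 hab, IsWeaklyRegular.nil _ _⟩
  · rw [Ideal.ofList_singleton, hspan]
  · exact fun x hx => hunit x hx
  · intro y
    obtain ⟨v, hv, h⟩ := lim_res hB hS y
    rw [← hV] at hv
    exact ⟨⟨v, hv⟩, h⟩

/-- Cohen's theorem in mixed characteristic -/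
theorem exists_cohen_mixed_all (p : ℕ) [hp : Fact p.Prime] (B : Type) [CommRing B] [IsDomain B]
    [IsLocalRing B] [IsNoetherianRing B] [CharZero B] [CharP (ResidueField B) p]
    (hB : IsAdicComplete (maximalIdeal B) B) :
    ∃ (V : Type) (_ : CommRing V) (_ : IsDomain V) (_ : IsDiscreteValuationRing V)
      (_ : CharZero V) (_ : IsAdicComplete (maximalIdeal V) V) (n : ℕ)
      (φ : MvPowerSeries (Fin n) V →+* B),
      φ.Finite ∧ Function.Injective φ ∧ ringKrullDim B = (n + 1 : ℕ) := by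
  obtain ⟨V, _, _, _, hcz, hc, g, hpar, hgl, hgs⟩ := exists_cohen_subring p B hB
  have hpB : (p : B) ≠ 0 := by exact_mod_cast hp.1.ne_zero
  have hmap : (maximalIdeal V).map g = Ideal.span {(p : B)} := by
    rw [← hpar.gen, Ideal.ofList_singleton, Ideal.map_span, Set.image_singleton, map_natCast]
  have h1 := ringKrullDim_quotient_succ_le_of_nonZeroDivisor (R := B) (r := (p : B))
    (mem_nonZeroDivisors_of_ne_zero hpB)
  obtain ⟨n, φ, -, h2, h3, h4⟩ := exists_cohen hc hpar hB g hgl hgs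
    (by rw [hmap]; exact_mod_cast h1)
  refine ⟨V, _, _, inferInstance, hcz, hc, n, φ, h2, h3, ?_⟩
  rw [h4, List.length_singleton, add_comm]

end Vale.Agent.P190.H128
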