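import Vale.Agent.P190.H128.E11
import Vale.Agent.P190.H128.E14

/-! Every complete local domain of mixed characteristic and dimension at least four has a finite
extension without small Cohen-Macaulay modules. -/

set_option autoImplicit false

namespace Vale.Agent.P190.H128

open Vale.Agent.P190 Vale.Agent.P190.D IsLocalRing RingTheory.Sequence Vale.Agent.P190.H455

universe v

theorem main_mixed_all (p : ℕ) (hp : p.Prime) (B : Type) [CommRing B] [IsDomain B]
    [IsLocalRing B] [IsNoetherianRing B] [CharZero B] [CharP (ResidueField B) p]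
    (hB : IsAdicComplete (maximalIdeal B) B) (d : ℕ) (hd : ringKrullDim B = d) (h4 : 4 ≤ d) :
    ∃ (R : Type) (_ : CommRing R) (_ : IsLocalRing R) (_ : Algebra B R),
      Module.Finite B R ∧ Function.Injective (algebraMap B R) ∧ IsCounterexample.{v} R d := by
  have : Fact p.Prime := ⟨hp⟩
  obtain ⟨V, _, _, _, hcz, hc, n, φ, h1, h2, h3⟩ := exists_cohen_mixed_all p B hB
  rw [hd] at h3
  have h5 : d = n + 1 := by exact_mod_cast h3
  subst h5
  let _ : Algebra (MvPowerSeries (Fin n) V) B := φ.toAlgebra
  have : Module.Finite (MvPowerSeries (Fin n) V) B := h1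
  exact main_dvr.{v} V n (by omega) B h2

/-- every complete local domain of characteristic zero and dimension at least four -/
theorem main_all (B : Type) [CommRing B] [IsDomain B]
    [IsLocalRing B] [IsNoetherianRing B] [CharZero B]
    (hB : IsAdicComplete (maximalIdeal B) B) (d : ℕ) (hd : ringKrullDim B = d)
    (h : 4 ≤ d ∨ 3 ≤ d ∧ CharZero (ResidueField B)) :
    ∃ (R : Type) (_ : CommRing R) (_ : IsLocalRing R) (_ : Algebra B R),
      Module.Finite B R ∧ Function.Injective (algebraMap B R) ∧ IsCounterexample.{v} R d := by
  obtain ⟨q, hq⟩ := CharP.exists (ResidueField B)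
  rcases CharP.char_is_prime_or_zero (ResidueField B) q with hp | rfl
  · have h4 : 4 ≤ d := by
      rcases h with h | ⟨-, h⟩
      · exact h
      · exact absurd (CharP.cast_eq_zero (ResidueField B) q) (by exact_mod_cast hp.ne_zero)
    exact main_mixed_all.{v} q hp B hB d hd h4
  · have : CharZero (ResidueField B) := CharP.charP_to_charZero _
    exact main_equal.{v} B hB d hd (by omega)

end Vale.Agent.P190.H128
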