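import Vale.Agent.P190.H128.E14

/-! Cohen rings mapping to arbitrary complete local rings of residue characteristic `p` in which
`p` is not nilpotent. -/

set_option autoImplicit false

namespace Vale.Agent.P190.H128

open Vale.Agent.P190 Vale.Agent.P190.D IsLocalRing RingTheory.Sequence

section

variable {B : Type} [CommRing B] [IsLocalRing B] (hB : IsAdicComplete (maximalIdeal B) B)
  {p : ℕ} [hp : Fact p.Prime] (hpm : (p : B) ∈ maximalIdeal B) {S : ℕ → Subring B}
  (hS : Tower p S)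

include hB hS

omit hp in
theorem lim_approx (m : ℕ) (a : B) (ha : a ∈ S m) :
    ∃ a' ∈ ⨅ n, S n, a - a' ∈ maximalIdeal B ^ (m + 1) := by
  choose g hg1 hg2 using hS.lift
  let f : (n : ℕ) → S (m + n) := fun n => Nat.rec (motive := fun n => S (m + n)) ⟨a, ha⟩
    (fun n v => ⟨g (m + n) (v : B) v.2, hg1 (m + n) (v : B) v.2⟩) n
  have hf : ∀ n, (f n : B) - f (n + 1) ∈ maximalIdeal B ^ (m + n + 1) := by
    intro n
    have h1 : ((f (n + 1) : S (m + (n + 1))) : B) = g (m + n) (f n : B) (f n).2 := rfl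
    rw [h1]
    exact hg2 (m + n) (f n : B) (f n).2
  have hf2 : ∀ n j, (f n : B) - f (n + j) ∈ maximalIdeal B ^ (m + n + 1) := by
    intro n j
    induction j with
    | zero => rw [add_zero, sub_self]; exact zero_mem _
    | succ j ih =>
      have h1 := add_mem ih (Ideal.pow_le_pow_right (by omega) (hf (n + j)))
      rwa [sub_add_sub_cancel] at h1
  obtain ⟨L, hL⟩ := hB.prec' (fun n => (f n : B)) (by
    intro i n hmn
    rw [SModEq.sub_mem, smul_eq_mul, Ideal.mul_top]
    obtain ⟨j, rfl⟩ := Nat.exists_eq_add_of_le hmn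
    exact Ideal.pow_le_pow_right (by omega) (hf2 i j))
  have hL2 : ∀ n, (f n : B) - L ∈ maximalIdeal B ^ (m + n + 1) := by
    intro n
    have h1 := hL (m + n + 1)
    rw [SModEq.sub_mem, smul_eq_mul, Ideal.mul_top] at h1
    have h2 := hf2 n (m + 1)
    rw [show n + (m + 1) = m + n + 1 by omega] at h2
    have h3 := add_mem h2 h1
    rwa [sub_add_sub_cancel] at h3
  refine ⟨L, ?_, hL2 0⟩
  rw [Subring.mem_iInf]
  intro n
  have h1 := sub_mem (tower_le hS n (m + n) (by omega) (f n).2)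
    (hS.pow n _ (Ideal.pow_le_pow_right (by omega) (hL2 n)))
  rwa [sub_sub_cancel] at h1

include hpm in
omit hp in
theorem lim_divw {v : B} (hv : v ∈ ⨅ n, S n) (hv2 : v ∈ maximalIdeal B) (n : ℕ) :
    ∃ a ∈ ⨅ n, S n, v - p * a ∈ maximalIdeal B ^ n := by
  rw [Subring.mem_iInf] at hv
  obtain ⟨a, ha, h1⟩ := hS.div n v (hv (n + 1)) hv2
  obtain ⟨a', ha', h2⟩ := lim_approx hB hS n a ha
  refine ⟨a', ha', ?_⟩
  have h3 : (p : B) * (a - a') ∈ maximalIdeal B ^ (n + 2) := by
    rw [pow_succ']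
    exact Ideal.mul_mem_mul hpm h2
  have h4 := add_mem h1 h3
  have h5 : v - p * a + p * (a - a') = v - p * a' := by ring
  rw [h5] at h4
  exact Ideal.pow_le_pow_right (by omega) h4

include hpm in
omit hp in
theorem lim_dich {b : B} (hb : b ∈ ⨅ n, S n) (n j : ℕ) :
    (∃ c ∈ ⨅ n, S n, b - p ^ j * c ∈ maximalIdeal B ^ n) ∨
    (∃ j' < j, ∃ u ∈ ⨅ n, S n, IsUnit u ∧ b - p ^ j' * u ∈ maximalIdeal B ^ n) := by
  induction j with
  | zero => exact Or.inl ⟨b, hb, by rw [pow_zero, one_mul, sub_self]; exact zero_mem _⟩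
  | succ j ih =>
    rcases ih with ⟨c, hc, h1⟩ | ⟨j', hj', u, hu, hu2, h1⟩
    · by_cases hcu : IsUnit c
      · exact Or.inr ⟨j, Nat.lt_succ_self j, c, hc, hcu, h1⟩
      · obtain ⟨a, ha, h2⟩ := lim_divw hB hpm hS hc ((mem_maximalIdeal _).2 hcu) n
        refine Or.inl ⟨a, ha, ?_⟩
        have h3 := add_mem h1 (Ideal.mul_mem_left _ ((p : B) ^ j) h2)
        have h5 : b - p ^ j * c + p ^ j * (c - p * a) = b - p ^ (j + 1) * a := by ring
        rwa [h5] at h3
    · exact Or.inr ⟨j', by omega, u, hu, hu2, h1⟩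

include hpm in
omit hp in
theorem lim_small {b : B} (hb : b ∈ ⨅ n, S n) (n i : ℕ) (h : p * b ∈ maximalIdeal B ^ n)
    (hi : (p : B) ^ i ∉ maximalIdeal B ^ n) : b ∈ maximalIdeal B ^ (min i n) := by
  rcases lim_dich hB hpm hS hb n i with ⟨c, hc, h1⟩ | ⟨j, hj, u, hu, hu2, h1⟩
  · have h2 : (p : B) ^ i * c ∈ maximalIdeal B ^ (min i n) :=
      Ideal.mul_mem_right _ _ (Ideal.pow_le_pow_right (min_le_left i n) (Ideal.pow_mem_pow hpm i))
    have h3 := add_mem (Ideal.pow_le_pow_right (min_le_right i n) h1) h2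
    rwa [sub_add_cancel] at h3
  · exfalso
    apply hi
    have h2 := sub_mem h (Ideal.mul_mem_left _ (p : B) h1)
    have h3 : (p : B) * b - p * (b - p ^ j * u) = p ^ (j + 1) * u := by ring
    rw [h3] at h2
    obtain ⟨w, rfl⟩ := hu2
    have h4 := Ideal.mul_mem_right ((w⁻¹ : Bˣ) : B) _ h2
    rw [mul_assoc, Units.mul_inv, mul_one] at h4
    obtain ⟨l, rfl⟩ := Nat.exists_eq_add_of_le (show j + 1 ≤ i by omega)
    rw [pow_add]
    exact Ideal.mul_mem_right _ _ h4

end

section

variable {B : Type} [CommRing B] [IsLocalRing B] (hB : IsAdicComplete (maximalIdeal B) B)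
  {p : ℕ} [hp : Fact p.Prime] (hpm : (p : B) ∈ maximalIdeal B)
  (hnil : ∀ i, (p : B) ^ i ≠ 0) {S : ℕ → Subring B} (hS : Tower p S)

include hB hnil

omit hp in
theorem exists_notMem (i : ℕ) : ∃ n, i ≤ n ∧ (p : B) ^ i ∉ maximalIdeal B ^ n := by
  by_contra hcon
  push Not at hcon
  apply hnil i
  apply hB.haus'
  intro n
  rw [SModEq.sub_mem, smul_eq_mul, Ideal.mul_top, sub_zero]
  exact Ideal.pow_le_pow_right (le_max_right i n) (hcon (max i n) (le_max_left i n))

include hS hpm

omit hp in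
theorem lim_div2 {v : B} (hv : v ∈ ⨅ n, S n) (hv2 : v ∈ maximalIdeal B) :
    ∃ a ∈ ⨅ n, S n, v = p * a := by
  choose ν0 hν1 hν2 using exists_notMem (p := p) hB hnil
  choose a ha h1 using lim_divw hB hpm hS hv hv2
  let ν : ℕ → ℕ := fun i => ∑ l ∈ Finset.range (i + 1), ν0 l
  have hνle : ∀ i, ν0 i ≤ ν i := fun i =>
    Finset.single_le_sum (fun _ _ => Nat.zero_le _) (Finset.self_mem_range_succ i)
  have hνmono : ∀ {i j}, i ≤ j → ν i ≤ ν j := fun {i j} hij =>
    Finset.sum_le_sum_of_subset (Finset.range_mono (by omega))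
  have hν3 : ∀ i, (p : B) ^ i ∉ maximalIdeal B ^ ν i := fun i h =>
    hν2 i (Ideal.pow_le_pow_right (hνle i) h)
  have hν4 : ∀ i, i ≤ ν i := fun i => (hν1 i).trans (hνle i)
  have hc : ∀ {i j}, i ≤ j → a (ν i) - a (ν j) ∈ maximalIdeal B ^ i := by
    intro i j hij
    have h2 := sub_mem (Ideal.pow_le_pow_right (hνmono hij) (h1 (ν j))) (h1 (ν i))
    have h3 : v - p * a (ν j) - (v - p * a (ν i)) = p * (a (ν i) - a (ν j)) := by ring
    rw [h3] at h2
    have h4 := lim_small hB hpm hS (sub_mem (ha (ν i)) (ha (ν j))) (ν i) i h2 (hν3 i)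
    rwa [min_eq_left (hν4 i)] at h4
  obtain ⟨L, hL⟩ := hB.prec' (fun i => a (ν i)) (by
    intro m n hmn
    rw [SModEq.sub_mem, smul_eq_mul, Ideal.mul_top]
    exact hc hmn)
  have hL2 : ∀ n, a (ν n) - L ∈ maximalIdeal B ^ n := by
    intro n
    have h1 := hL n
    rwa [SModEq.sub_mem, smul_eq_mul, Ideal.mul_top] at h1
  refine ⟨L, ?_, ?_⟩
  · rw [Subring.mem_iInf]
    intro n
    have h2 := Subring.mem_iInf.1 (ha (ν (n + 1))) n
    have h3 := sub_mem h2 (hS.pow n _ (hL2 (n + 1)))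
    rwa [sub_sub_cancel] at h3
  · rw [← sub_eq_zero]
    apply hB.haus'
    intro n
    rw [SModEq.sub_mem, smul_eq_mul, Ideal.mul_top, sub_zero]
    have h2 := add_mem (Ideal.pow_le_pow_right (hν4 n) (h1 (ν n)))
      (Ideal.mul_mem_left _ (p : B) (hL2 n))
    have h3 : v - p * a (ν n) + p * (a (ν n) - L) = v - p * L := by ring
    rwa [h3] at h2

omit hp in
theorem lim_inj {b : B} (hb : b ∈ ⨅ n, S n) (h : (p : B) * b = 0) : b = 0 := by
  apply hB.haus'
  intro i
  rw [SModEq.sub_mem, smul_eq_mul, Ideal.mul_top, sub_zero]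
  obtain ⟨n, hn, hn2⟩ := exists_notMem (p := p) hB hnil i
  have h1 := lim_small hB hpm hS hb n i (by rw [h]; exact zero_mem _) hn2
  rwa [min_eq_left hn] at h1

omit hp in
theorem lim_closed (n : ℕ) : ∀ x ∈ ⨅ n, S n,
    (∀ j, ∃ c ∈ ⨅ n, S n, x - p ^ n * c ∈ maximalIdeal B ^ j) → ∃ c ∈ ⨅ n, S n, x = p ^ n * c := by
  induction n with
  | zero => exact fun x hx _ => ⟨x, hx, by rw [pow_zero, one_mul]⟩
  | succ n ih =>
    intro x hx h
    have hxm : x ∈ maximalIdeal B := by
      obtain ⟨c, -, h1⟩ := h 1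
      rw [pow_one] at h1
      have h2 := add_mem h1 (Ideal.mul_mem_right ((p : B) ^ n * c) _ hpm)
      have h3 : x - p ^ (n + 1) * c + p * (p ^ n * c) = x := by ring
      rwa [h3] at h2
    obtain ⟨x', hx', rfl⟩ := lim_div2 hB hpm hnil hS hx hxm
    obtain ⟨c, hc, rfl⟩ := ih x' hx' (by
      intro j
      obtain ⟨m, hm, hm2⟩ := exists_notMem (p := p) hB hnil j
      obtain ⟨c, hc, h1⟩ := h m
      refine ⟨c, hc, ?_⟩
      have hcp : (p : B) ^ n * c ∈ ⨅ n, S n :=
        mul_mem (pow_mem (natCast_mem _ p) n) hc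
      have h2 := lim_small hB hpm hS (sub_mem hx' hcp) m j (by
        have h3 : (p : B) * (x' - p ^ n * c) = p * x' - p ^ (n + 1) * c := by ring
        rwa [h3]) hm2
      rwa [min_eq_left hm] at h2)
    exact ⟨c, hc, by ring⟩

end

/-- Cohen: a complete local ring of residue characteristic `p` in which `p` is not nilpotent is an
algebra over a complete discrete valuation ring with uniformizer `p` and the same residue
field. -/
theorem exists_cohen_map (p : ℕ) [hp : Fact p.Prime] (B : Type) [CommRing B]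
    [IsLocalRing B] [CharP (ResidueField B) p]
    (hB : IsAdicComplete (maximalIdeal B) B) (hnil : ∀ i, (p : B) ^ i ≠ 0) :
    ∃ (V : Type) (_ : CommRing V) (_ : IsDomain V) (_ : IsDiscreteValuationRing V)
      (_ : CharZero V) (_ : IsAdicComplete (maximalIdeal V) V) (g : V →+* B),
      IsPar V [(p : V)] ∧ IsLocalHom g ∧ Function.Surjective ((residue B).comp g) := by
  classical
  have hpm : (p : B) ∈ maximalIdeal B := by
    rw [← residue_eq_zero_iff, map_natCast, CharP.cast_eq_zero]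
  obtain ⟨S, hS⟩ := exists_tower (B := B) p hpm
  obtain ⟨V, hV⟩ : ∃ V : Subring B, V = ⨅ n, S n := ⟨_, rfl⟩
  have hunit : ∀ x : V, IsUnit (x : B) → IsUnit x := by
    intro x hx
    obtain ⟨w, hw, h⟩ := lim_inv hB hS (hV ▸ x.2) hx
    rw [← hV] at hw
    exact IsUnit.of_mul_eq_one (⟨w, hw⟩ : V) (Subtype.ext h)
  have hunit2 : ∀ x : V, x ∈ nonunits V ↔ (x : B) ∈ maximalIdeal B := by
    intro x
    rw [mem_maximalIdeal]
    exact ⟨fun h h2 => h (hunit x h2), fun h h2 => h (h2.map V.subtype)⟩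
  have hloc : IsLocalRing V := by
    refine IsLocalRing.of_nonunits_add fun a b ha hb => ?_
    rw [hunit2] at ha hb ⊢
    exact add_mem ha hb
  have hmax : ∀ x : V, x ∈ maximalIdeal V ↔ (x : B) ∈ maximalIdeal B := fun x => by
    rw [mem_maximalIdeal]; exact hunit2 x
  have hdiv : ∀ x : V, x ∈ maximalIdeal V → ∃ a : V, x = p * a := by
    intro x hx
    obtain ⟨a, ha, h⟩ := lim_div2 hB hpm hnil hS (hV ▸ x.2) ((hmax x).1 hx)
    rw [← hV] at ha
    exact ⟨⟨a, ha⟩, Subtype.ext (by rw [h]; simp)⟩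
  have hpV : (p : V) ∈ maximalIdeal V := by
    rw [hmax]
    simpa using hpm
  have hinj : ∀ a : V, (p : V) * a = 0 → a = 0 := by
    intro a ha
    apply Subtype.ext
    apply lim_inj hB hpm hnil hS (hV ▸ a.2)
    have := congrArg Subtype.val ha
    simpa using this
  have hspan : maximalIdeal V = Ideal.span {(p : V)} := by
    apply le_antisymm
    · intro x hx
      obtain ⟨a, rfl⟩ := hdiv x hx
      exact Ideal.mul_mem_right _ _ (Ideal.mem_span_singleton_self _)
    · rw [Ideal.span_singleton_le_iff_mem]; exact hpV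
  have hpowB : ∀ (n : ℕ) (x : V), x ∈ (Ideal.span {(p : V)}) ^ n →
      (x : B) ∈ maximalIdeal B ^ n := by
    intro n x hx
    rw [Ideal.span_singleton_pow, Ideal.mem_span_singleton] at hx
    obtain ⟨a, rfl⟩ := hx
    have h1 : (((p : V) ^ n * a : V) : B) = (p : B) ^ n * a := by simp
    rw [h1]
    exact Ideal.mul_mem_right _ _ (Ideal.pow_mem_pow hpm n)
  have hhaus : ∀ x : V, (∀ n, x ∈ (Ideal.span {(p : V)}) ^ n) → x = 0 := by
    intro x hx
    apply Subtype.ext
    apply hB.haus'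
    intro n
    rw [SModEq.sub_mem, smul_eq_mul, Ideal.mul_top, sub_zero]
    exact hpowB n x (hx n)
  have hcomp : IsAdicComplete (maximalIdeal V) V := by
    rw [hspan]
    refine { haus' := ?_, prec' := ?_ }
    · intro x hx
      apply hhaus
      intro n
      have h1 := hx n
      rwa [SModEq.sub_mem, smul_eq_mul, Ideal.mul_top, sub_zero] at h1
    · intro f hf
      have hf' : ∀ {m n}, m ≤ n → f m - f n ∈ Ideal.span {(p : V)} ^ m := by
        intro m n hmn
        have h1 := hf hmn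
        rwa [SModEq.sub_mem, smul_eq_mul, Ideal.mul_top] at h1
      obtain ⟨L, hL⟩ := hB.prec' (fun n => (f n : B)) (by
        intro m n hmn
        rw [SModEq.sub_mem, smul_eq_mul, Ideal.mul_top]
        exact hpowB m _ (hf' hmn))
      have hL2 : ∀ n, (f n : B) - L ∈ maximalIdeal B ^ n := by
        intro n
        have h1 := hL n
        rwa [SModEq.sub_mem, smul_eq_mul, Ideal.mul_top] at h1
      have hLV : L ∈ V := by
        rw [hV, Subring.mem_iInf]
        intro n
        have h1 : (f (n + 1) : B) ∈ S n := Subring.mem_iInf.1 (hV.le (f (n + 1)).2) n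
        have h3 := sub_mem h1 (hS.pow n _ (hL2 (n + 1)))
        rwa [sub_sub_cancel] at h3
      refine ⟨⟨L, hLV⟩, fun n => ?_⟩
      rw [SModEq.sub_mem, smul_eq_mul, Ideal.mul_top, Ideal.span_singleton_pow,
        Ideal.mem_span_singleton]
      obtain ⟨c, hc, h1⟩ := lim_closed hB hpm hnil hS n ((f n : B) - L)
        (hV ▸ sub_mem (f n).2 hLV) (by
        intro j
        have h2 := hf' (Nat.le_add_right n j)
        rw [Ideal.span_singleton_pow, Ideal.mem_span_singleton] at h2
        obtain ⟨c, hc⟩ := h2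
        refine ⟨c, hV.le c.2, ?_⟩
        have h3 : (f n : B) - f (n + j) = p ^ n * c := by
          have := congrArg Subtype.val hc
          simpa using this
        rw [← h3]
        have h4 : (f n : B) - L - (f n - f (n + j)) = f (n + j) - L := by ring
        rw [h4]
        exact Ideal.pow_le_pow_right (by omega) (hL2 (n + j)))
      rw [← hV] at hc
      exact ⟨⟨c, hc⟩, Subtype.ext (by simpa using h1)⟩
  have hfac : ∀ x : V, x ≠ 0 → ∃ (n : ℕ) (u : Vˣ), x = (p : V) ^ n * u := by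
    intro x hx
    have h1 : ∃ n, x ∉ Ideal.span {(p : V)} ^ n := by
      by_contra h
      push Not at h
      exact hx (hhaus x h)
    have h2 := Nat.find_spec h1
    have h3 : Nat.find h1 ≠ 0 := by
      intro h
      rw [h, pow_zero, Ideal.one_eq_top] at h2
      exact h2 trivial
    obtain ⟨n, hn⟩ := Nat.exists_eq_succ_of_ne_zero h3
    rw [hn] at h2
    have h4 : x ∈ Ideal.span {(p : V)} ^ n := by
      by_contra h
      have := Nat.find_min' h1 h
      omega
    rw [Ideal.span_singleton_pow, Ideal.mem_span_singleton] at h4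
    obtain ⟨y, rfl⟩ := h4
    have hy : IsUnit y := by
      by_contra h
      obtain ⟨a, rfl⟩ := hdiv y ((mem_maximalIdeal _).2 h)
      apply h2
      rw [Ideal.span_singleton_pow, Ideal.mem_span_singleton]
      exact ⟨a, by rw [← mul_assoc, ← pow_succ]⟩
    obtain ⟨u, rfl⟩ := hy
    exact ⟨n, u, rfl⟩
  have hpn : ∀ n, (p : V) ^ n ≠ 0 := by
    intro n h
    apply hnil n
    have := congrArg Subtype.val h
    simpa using this
  have hpV0 : (p : V) ≠ 0 := by
    have := hpn 1
    rwa [pow_one] at this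
  have hnz : NoZeroDivisors V := by
    constructor
    intro a b hab
    by_contra hcon
    rw [not_or] at hcon
    obtain ⟨n, u, rfl⟩ := hfac a hcon.1
    obtain ⟨m, w, rfl⟩ := hfac b hcon.2
    apply hpn (n + m)
    have h1 : (p : V) ^ (n + m) * ((u * w : Vˣ) : V) = 0 := by
      rw [← hab]
      push_cast
      ring
    rwa [Units.mul_left_eq_zero] at h1
  have hdom : IsDomain V := NoZeroDivisors.to_isDomain V
  have hirr : Irreducible (p : V) := by
    refine ⟨(mem_maximalIdeal _).1 hpV, ?_⟩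
    intro a b hab
    by_contra h
    rw [not_or] at h
    obtain ⟨a', rfl⟩ := hdiv a ((mem_maximalIdeal _).2 h.1)
    obtain ⟨b', rfl⟩ := hdiv b ((mem_maximalIdeal _).2 h.2)
    have h1 : (p : V) * 1 = p * (p * (a' * b')) := by
      rw [mul_one]
      calc (p : V) = p * a' * (p * b') := hab
        _ = _ := by ring
    have h2 := mul_left_cancel₀ hpV0 h1
    exact (mem_maximalIdeal _).1 hpV (IsUnit.of_mul_eq_one _ h2.symm)
  have hdvr : IsDiscreteValuationRing V := by
    apply IsDiscreteValuationRing.ofHasUnitMulPowIrreducibleFactorization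
    refine ⟨(p : V), hirr, fun {x} hx => ?_⟩
    obtain ⟨n, u, rfl⟩ := hfac x hx
    exact ⟨n, u, rfl⟩
  have hcz : CharZero V := by
    refine charZero_of_inj_zero fun n hn => ?_
    by_contra hn0
    obtain ⟨e, m, h1, h2⟩ := Nat.exists_eq_pow_mul_and_not_dvd hn0 p hp.1.ne_one
    rw [h2] at hn
    push_cast at hn
    have h3 : (m : V) = 0 := (mul_eq_zero.1 hn).resolve_left (hpn e)
    have h4 : (m : B) = 0 := by
      have := congrArg Subtype.val h3
      simpa using this
    have h5 : (m : ResidueField B) = 0 := by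
      have := congrArg (residue B) h4
      rwa [map_natCast, map_zero] at this
    exact h1 ((CharP.cast_eq_zero_iff (ResidueField B) p m).1 h5)
  refine ⟨V, inferInstance, hdom, hdvr, hcz, hcomp, V.subtype, ⟨?_, ?_⟩, ⟨?_⟩, ?_⟩
  · rw [isWeaklyRegular_cons_iff]
    exact ⟨fun a b hab => mul_left_cancel₀ hpV0 hab, IsWeaklyRegular.nil _ _⟩
  · rw [Ideal.ofList_singleton, hspan]
  · exact fun x hx => hunit x hx
  · intro y
    obtain ⟨v, hv, h⟩ := lim_res hB hS y
    rw [← hV] at hv
    exact ⟨⟨v, hv⟩, h⟩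

end Vale.Agent.P190.H128
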