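import Vale.Agent.P190.H128.E15
import Vale.Agent.P190.H128.Defs
import Vale.Agent.P190.H128.E18
import Vale.Agent.P190.H455.Main
import Mathlib.RingTheory.AdicCompletion.LocalRing
import Mathlib.RingTheory.AdicCompletion.AsTensorProduct
import Mathlib.RingTheory.Regular.Flat

/-! The universal obstruction: no local ring over `ℚ` receiving the equations has a small
Cohen-Macaulay module. -/

set_option autoImplicit false

namespace Vale.Agent.P190.H128

open Vale.Agent.P190 Vale.Agent.P190.D IsLocalRing RingTheory.Sequence Vale.Agent.P190.H455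
open scoped TensorProduct

universe v

/-- generation modulo powers of the maximal ideal -/
theorem exists_gens' {V B : Type} [CommRing V] [CommRing B] [IsLocalRing B]
    (hfg : (maximalIdeal B).FG) (g : V →+* B) (hg : Function.Surjective ((residue B).comp g)) (N : ℕ) :
    ∃ T : Finset B, ∀ b : B, ∃ c : B → V, b - ∑ t ∈ T, g (c t) * t ∈ maximalIdeal B ^ N := by
  classical
  induction N with
  | zero => exact ⟨∅, fun b => ⟨0, by simp⟩⟩
  | succ N ih =>
    obtain ⟨T, hT⟩ := ih
    obtain ⟨s, hs⟩ := (hfg.pow : (maximalIdeal B ^ N).FG)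
    refine ⟨T ∪ s, fun b => ?_⟩
    obtain ⟨c, hc⟩ := hT b
    rw [← hs] at hc
    obtain ⟨f, hf, hf2⟩ := Submodule.mem_span_finset.1 hc
    have h1 : ∀ y : B, ∃ v : V, f y - g v ∈ maximalIdeal B := by
      intro y
      obtain ⟨v, hv⟩ := hg (residue B (f y))
      refine ⟨v, ?_⟩
      rw [← residue_eq_zero_iff, map_sub, sub_eq_zero]
      exact hv.symm
    choose v hv using h1
    refine ⟨fun t => (if t ∈ T then c t else 0) + (if t ∈ s then v t else 0), ?_⟩
    have h2 : ∑ t ∈ T ∪ s, g ((if t ∈ T then c t else 0) + (if t ∈ s then v t else 0)) * t =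
        ∑ t ∈ T, g (c t) * t + ∑ t ∈ s, g (v t) * t := by
      simp only [map_add, add_mul, Finset.sum_add_distrib]
      congr 1
      · rw [← Finset.sum_subset (Finset.subset_union_left (s₁ := T) (s₂ := s))]
        · exact Finset.sum_congr rfl fun t ht => by rw [if_pos ht]
        · intro t _ ht; rw [if_neg ht, map_zero, zero_mul]
      · rw [← Finset.sum_subset (Finset.subset_union_right (s₁ := T) (s₂ := s))]
        · exact Finset.sum_congr rfl fun t ht => by rw [if_pos ht]
        · intro t _ ht; rw [if_neg ht, map_zero, zero_mul]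
    rw [h2, ← sub_sub, ← hf2, ← Finset.sum_sub_distrib]
    refine Ideal.sum_mem _ fun t ht => ?_
    have h3 : f t • t - g (v t) * t = (f t - g (v t)) * t := by rw [smul_eq_mul]; ring
    rw [h3, pow_succ']
    refine Ideal.mul_mem_mul (hv t) ?_
    rw [← hs]
    exact Submodule.subset_span ht

/-- the finiteness part of Cohen's theorem -/
theorem exists_finite' {V B : Type} [CommRing V] [IsLocalRing V] [IsNoetherianRing V]
    (hV : IsAdicComplete (maximalIdeal V) V) [CommRing B] [IsLocalRing B]
    (hfg : (maximalIdeal B).FG)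
    (hB : IsAdicComplete (maximalIdeal B) B) (g : V →+* B) (hgl : IsLocalHom g)
    (hg : Function.Surjective ((residue B).comp g)) {n : ℕ} (x : Fin n → B)
    (hx : ∀ i, x i ∈ maximalIdeal B) (N : ℕ)
    (hN : maximalIdeal B ^ N ≤ (maximalIdeal V).map g ⊔ Ideal.span (Set.range x)) :
    ∃ φ : MvPowerSeries (Fin n) V →+* B, (∀ a, φ (MvPowerSeries.C a) = g a) ∧
      (∀ i, φ (MvPowerSeries.X i) = x i) ∧ φ.Finite := by
  classical
  obtain ⟨φ, hC, hX⟩ := exists_eval (maximalIdeal B) hB g x hx
  refine ⟨φ, hC, hX, ?_⟩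
  let _ : Algebra (MvPowerSeries (Fin n) V) B := φ.toAlgebra
  have hal : ∀ a, algebraMap (MvPowerSeries (Fin n) V) B a = φ a := fun a => rfl
  change Module.Finite (MvPowerSeries (Fin n) V) B
  obtain ⟨T, hT⟩ := exists_gens' hfg g hg N
  let A := MvPowerSeries (Fin n) V
  have hA : IsAdicComplete (maximalIdeal A) A := isAdicCompleteV hV
  have hAT : IsAdicComplete (maximalIdeal A) (T → A) := isAdicComplete_of_finite _ hA
  -- the image of the maximal ideal
  have hle1 : (maximalIdeal A).map (algebraMap A B) ≤ maximalIdeal B := by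
    rw [Ideal.map_le_iff_le_comap]
    intro f hf
    rw [Ideal.mem_comap, hal]
    have h1 := (mem_max_iff f).1 hf
    have h2 : f - MvPowerSeries.C (MvPowerSeries.constantCoeff f) ∈ Ideal.ofList (vars n V) := by
      rw [ofList_vars, map_sub, MvPowerSeries.constantCoeff_C, sub_self]
    have h3 : Ideal.ofList (vars n V) ≤ (maximalIdeal B).comap φ := by
      unfold Ideal.ofList
      rw [Ideal.span_le]
      intro y hy
      obtain ⟨i, -, rfl⟩ := List.mem_map.1 hy
      rw [SetLike.mem_coe, Ideal.mem_comap, hX]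
      exact hx i
    have h4 : φ f = φ (f - MvPowerSeries.C (MvPowerSeries.constantCoeff f)) +
        g (MvPowerSeries.constantCoeff f) := by
      rw [← hC, ← map_add, sub_add_cancel]
    rw [h4]
    refine Ideal.add_mem _ (h3 h2) ?_
    rw [← Ideal.mem_comap, IsLocalRing.maximalIdeal_comap g]
    exact h1
  have hle2 : maximalIdeal B ^ N ≤ (maximalIdeal A).map (algebraMap A B) := by
    refine hN.trans (sup_le ?_ ?_)
    · rw [Ideal.map_le_iff_le_comap]
      intro a ha
      rw [Ideal.mem_comap, ← hC, ← hal]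
      apply Ideal.mem_map_of_mem
      rw [mem_max_iff, MvPowerSeries.constantCoeff_C]
      exact ha
    · rw [Ideal.span_le]
      rintro _ ⟨i, rfl⟩
      rw [← hX, ← hal]
      apply Ideal.mem_map_of_mem
      rw [mem_max_iff, MvPowerSeries.constantCoeff_X]
      exact Ideal.zero_mem _
  have hH : IsHausdorff (maximalIdeal A) B := by
    rw [← IsHausdorff.map_algebraMap_iff (R := A) (S := B)]
    exact ⟨fun x hx => hB.haus' x fun n =>
      (hx n).mono (Submodule.smul_mono_left (Ideal.pow_right_mono hle1 n))⟩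
  let f : (T → A) →ₗ[A] B := Fintype.linearCombination A (fun t : T => (t : B))
  have hsurj : Function.Surjective f := by
    have h0 : IsPrecomplete (maximalIdeal A) (T → A) := hAT.toIsPrecomplete
    apply surjective_of_mkQ_comp_surjective (I := maximalIdeal A)
    intro q
    obtain ⟨b, rfl⟩ := Submodule.mkQ_surjective _ q
    obtain ⟨c, hc⟩ := hT b
    refine ⟨fun t => MvPowerSeries.C (c t), ?_⟩
    rw [LinearMap.comp_apply, ← sub_eq_zero, ← map_sub, Submodule.mkQ_apply,
      Submodule.Quotient.mk_eq_zero]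
    have h1 : f (fun t => MvPowerSeries.C (c t)) = ∑ t ∈ T, g (c t) * t := by
      simp only [f]
      rw [Fintype.linearCombination_apply, ← Finset.sum_coe_sort T (fun t => g (c t) * t)]
      refine Finset.sum_congr rfl fun t _ => ?_
      rw [Algebra.smul_def, hal, hC]
    rw [h1, Ideal.smul_top_eq_map, Submodule.restrictScalars_mem]
    have h2 := hle2 hc
    rw [← neg_sub]
    exact neg_mem h2
  exact Module.Finite.of_surjective f hsurj


theorem univ_complete (B : Type) [CommRing B] [IsLocalRing B] [Algebra ℚ B]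
    (hfg : (maximalIdeal B).FG) (hB : IsAdicComplete (maximalIdeal B) B) (n : ℕ) (x : Fin 3 → B)
    (z : Fin n → B) (N : ℕ) (hx : ∀ i, x i ∈ maximalIdeal B) (hz : ∀ i, z i ∈ maximalIdeal B)
    (hN : maximalIdeal B ^ N ≤ Ideal.span (Set.range x) ⊔ Ideal.span (Set.range z))
    (c : r1S → Fin 3 → B) (s : Fin 17 → B) (G : (r1S → Bool) → B) (hrel : Rel x c s G)
    (M : Type v) [AddCommGroup M] [Module B M] [Module.Finite B M] (rs : List B)
    (hrs : ∀ r ∈ rs, r ∈ maximalIdeal B) (hreg : IsRegular M rs) : rs.length < 3 + n := by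
  obtain ⟨K, iK, hK0, f, hf⟩ := Vale.Agent.P190.H231.exists_coefficientField B hB
  have hloc : IsLocalHom f := inferInstance
  have hmap : (maximalIdeal K).map f = ⊥ := by
    rw [IsLocalRing.isField_iff_maximalIdeal_eq.1 (Field.toIsField K), Ideal.map_bot]
  obtain ⟨φ, hC, hX, hfin⟩ := exists_finite' (isAdicComplete_field K) hfg hB f hloc hf.surjective
    (Fin.append x z) (fun i => by
      refine Fin.addCases (fun i => ?_) (fun i => ?_) i
      · rw [Fin.append_left]; exact hx i
      · rw [Fin.append_right]; exact hz i) N (by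
      rw [hmap, bot_sup_eq]
      refine hN.trans (sup_le ?_ ?_)
      · rw [Ideal.span_le]
        rintro _ ⟨i, rfl⟩
        exact Ideal.subset_span ⟨Fin.castAdd n i, Fin.append_left _ _ _⟩
      · rw [Ideal.span_le]
        rintro _ ⟨i, rfl⟩
        exact Ideal.subset_span ⟨Fin.natAdd 3 i, Fin.append_right _ _ _⟩)
  have hA := (goodBase_field K).mvPowerSeries (3 + n)
  have := hA.loc
  have := hA.noeth
  obtain ⟨xs, hxs, hpar⟩ := hA.par
  let ε : Fin 3 ↪ Fin (3 + n) := Fin.castLEEmb (Nat.le_add_right 3 n)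
  let π : MvPowerSeries (Fin (3 + n)) K →+* MvPowerSeries (Fin 3) K :=
    (MvPowerSeries.killCompl (R := K) ε).toRingHom
  have hπ : ∀ i, π (MvPowerSeries.X (ε i)) = MvPowerSeries.X i := by
    intro i
    change MvPowerSeries.killCompl (R := K) ε (MvPowerSeries.X (ε i)) = _
    rw [MvPowerSeries.killCompl_X]
  let _ : Algebra (MvPowerSeries (Fin (3 + n)) K) B := φ.toAlgebra
  have : Module.Finite (MvPowerSeries (Fin (3 + n)) K) B := hfin
  have hb : ∀ i, algebraMap (MvPowerSeries (Fin (3 + n)) K) B (MvPowerSeries.X (ε i)) = x i := by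
    intro i
    change φ (MvPowerSeries.X (ε i)) = x i
    rw [hX]
    exact Fin.append_left x z i
  have h1 := depth_lt (MvPowerSeries (Fin (3 + n)) K) hpar K π (fun i => MvPowerSeries.X (ε i)) hπ
    B c s G (by
      have h2 : (fun i => algebraMap (MvPowerSeries (Fin (3 + n)) K) B
        (MvPowerSeries.X (ε i))) = x := funext hb
      rw [h2]
      exact hrel) B M rs hrs hreg
  omega

/-- A Noetherian local ring over `ℚ` with solutions of the equations whose variables are part of
a system of parameters has no small Cohen-Macaulay module. -/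
theorem univ_params (S : Type) [CommRing S] [IsLocalRing S] [IsNoetherianRing S] [Algebra ℚ S]
    (n : ℕ) (x : Fin 3 → S) (z : Fin n → S) (N : ℕ) (hx : ∀ i, x i ∈ maximalIdeal S)
    (hz : ∀ i, z i ∈ maximalIdeal S)
    (hN : maximalIdeal S ^ N ≤ Ideal.span (Set.range x) ⊔ Ideal.span (Set.range z))
    (hd : ((3 + n : ℕ) : WithBot ℕ∞) ≤ ringKrullDim S)
    (c : r1S → Fin 3 → S) (s : Fin 17 → S) (G : (r1S → Bool) → S) (hrel : Rel x c s G) :
    NoSmallCM.{v} S := by
  intro M _ _ _ rs hrs hreg
  let S' : Type := AdicCompletion (maximalIdeal S) S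
  let ι : S →+* S' := algebraMap S S'
  have hmax : maximalIdeal S' = (maximalIdeal S).map ι :=
    AdicCompletion.maximalIdeal_eq_map
  have hfg : (maximalIdeal S').FG := by
    rw [hmax]
    exact Ideal.FG.map ((maximalIdeal S).fg_of_isNoetherianRing) ι
  have hcomp : IsAdicComplete (maximalIdeal S') S' := inferInstance
  have hflat : Module.Flat S S' := AdicCompletion.flat_of_isNoetherian (maximalIdeal S)
  have hlh : IsLocalHom (algebraMap S S') := inferInstance
  have hff : Module.FaithfullyFlat S S' := Module.FaithfullyFlat.of_flat_of_isLocalHom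
  let _ : Algebra ℚ S' := (ι.comp (algebraMap ℚ S)).toAlgebra
  have hreg2 : IsRegular (S' ⊗[S] M) (rs.map (algebraMap S S')) :=
    IsRegular.of_faithfullyFlat_of_isBaseChange (TensorProduct.isBaseChange S M S') hreg
  have hιm : ∀ y ∈ maximalIdeal S, ι y ∈ maximalIdeal S' := fun y hy => by
    rw [hmax]; exact Ideal.mem_map_of_mem _ hy
  have h1 := univ_complete S' hfg hcomp n (fun i => ι (x i)) (fun i => ι (z i)) N
    (fun i => hιm _ (hx i)) (fun i => hιm _ (hz i)) (by
      rw [hmax, ← Ideal.map_pow]
      refine (Ideal.map_mono hN).trans ?_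
      rw [Ideal.map_sup, Ideal.map_span, Ideal.map_span, ← Set.range_comp, ← Set.range_comp]
      rfl) _ _ _ (hrel.map ι) (S' ⊗[S] M) (rs.map (algebraMap S S')) (by
      intro r hr
      obtain ⟨r0, hr0, rfl⟩ := List.mem_map.1 hr
      exact hιm _ (hrs r0 hr0)) hreg2
  rw [List.length_map] at h1
  refine lt_of_lt_of_le ?_ hd
  exact_mod_cast h1

end Vale.Agent.P190.H128
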