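import Vale.Agent.P190.H128.E16
import Mathlib.RingTheory.Ideal.HasGoingUp
import Mathlib.RingTheory.IntegralClosure.IntegralRestrict
import Mathlib.RingTheory.Polynomial.UniqueFactorization
import Mathlib.RingTheory.KrullDimension.Zero

/-! The universal ring, finite extensions of arbitrary Noetherian local rings over `ℚ`. -/

set_option autoImplicit false

namespace Vale.Agent.P190.H128

open Vale.Agent.P190 Vale.Agent.P190.D IsLocalRing RingTheory.Sequence Vale.Agent.P190.H455
open scoped TensorProduct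

universe v

section trace

attribute [local instance] FractionRing.liftAlgebra FractionRing.isScalarTower_liftAlgebra

theorem exists_retraction (A R : Type) [CommRing A] [IsDomain A] [IsIntegrallyClosed A]
    [CommRing R] [IsDomain R] [IsIntegrallyClosed R] [Algebra A R] [Module.Finite A R]
    [Module.IsTorsionFree A R] [CharZero A] :
    ∃ (τ : R →ₗ[A] A) (m : ℕ), m ≠ 0 ∧ τ 1 = m := by
  have : IsIntegralClosure R A (FractionRing R) :=
    IsIntegralClosure.of_isIntegrallyClosed _ _ _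
  have : Algebra.IsAlgebraic (FractionRing A) (FractionRing R) :=
    isAlgebraic_of_isFractionRing A R ..
  have : IsLocalization (Algebra.algebraMapSubmonoid R (nonZeroDivisors A)) (FractionRing R) :=
    IsIntegralClosure.isLocalization _ (FractionRing A) _ _
  have : FiniteDimensional (FractionRing A) (FractionRing R) :=
    .of_isLocalization A R (nonZeroDivisors A)
  refine ⟨Algebra.intTrace A R, Module.finrank (FractionRing A) (FractionRing R),
    Module.finrank_pos.ne', ?_⟩
  apply IsFractionRing.injective A (FractionRing A)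
  rw [Algebra.algebraMap_intTrace_fractionRing, map_one, map_natCast, ← map_one
    (algebraMap (FractionRing A) (FractionRing R)), Algebra.trace_algebraMap, nsmul_eq_mul, mul_one]

end trace

theorem exists_R0 : ∃ (R₀ : Type) (_ : CommRing R₀) (_ : IsDomain R₀)
    (_ : Algebra (MvPolynomial (Fin 3) ℤ) R₀), Module.Finite (MvPolynomial (Fin 3) ℤ) R₀ ∧
    IsIntegrallyClosed R₀ ∧ Function.Injective (algebraMap (MvPolynomial (Fin 3) ℤ) R₀) ∧
    ∃ (c : r1S → Fin 3 → R₀) (s : Fin 17 → R₀) (G : (r1S → Bool) → R₀),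
      Rel (fun i => algebraMap (MvPolynomial (Fin 3) ℤ) R₀ (MvPolynomial.X i)) c s G := by
  obtain ⟨S, s1, s2, s3, hfinS, hinjS, c, s, G, hrel⟩ := exists_S
  obtain ⟨R, i1, i2, i3, ψ, -, hfin, hnorm, hinjR, -, hψ⟩ :=
    exists_dom (A := Z3) (B := Z3) (S := S) (E := Z3) (RingHom.id Z3)
      (fun _ _ h => h) hinjS (fun _ _ h => h)
  refine ⟨R, i1, i2, i3, hfin, hnorm, hinjR, fun t j => ψ (c t j), fun a => ψ (s a),
    fun ε => ψ (G ε), ?_⟩
  have h1 := hrel.map ψ
  simp only [hψ, RingHom.id_apply] at h1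
  exact h1

theorem sup_pow_le {T : Type} [CommRing T] (J K : Ideal T) (M : ℕ) :
    (J ⊔ K) ^ M ≤ J ^ M ⊔ K := by
  have h1 : ((J ⊔ K) ^ M).map (Ideal.Quotient.mk K) = (J ^ M).map (Ideal.Quotient.mk K) := by
    rw [Ideal.map_pow, Ideal.map_sup, Ideal.map_quotient_self, sup_bot_eq, Ideal.map_pow]
  have h2 : ((J ⊔ K) ^ M) ≤ ((J ^ M).map (Ideal.Quotient.mk K)).comap (Ideal.Quotient.mk K) := by
    rw [← h1]
    exact Ideal.le_comap_map
  rwa [Ideal.comap_map_of_surjective' _ Ideal.Quotient.mk_surjective, Ideal.mk_ker] at h2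

/-- the core of the relative statement -/
theorem kills_core (S : Type) [CommRing S] [IsLocalRing S] [IsNoetherianRing S]
    (n : ℕ) (hn : ringKrullDim S = (3 + n : ℕ)) (x : Fin 3 → S) (z : Fin n → S) (N : ℕ)
    (hx : ∀ i, x i ∈ maximalIdeal S) (hz : ∀ i, z i ∈ maximalIdeal S)
    (hN : maximalIdeal S ^ N ≤ Ideal.span (Set.range x) ⊔ Ideal.span (Set.range z))
    (T : Type) [CommRing T] [IsLocalRing T] [IsNoetherianRing T] [Algebra ℚ T] (h : S →+* T)
    (hloc : IsLocalHom h)
    (hd : ringKrullDim (T ⧸ (maximalIdeal S).map h) + ringKrullDim S ≤ ringKrullDim T)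
    (c : r1S → Fin 3 → T) (s : Fin 17 → T) (G : (r1S → Bool) → T)
    (hrel : Rel (fun i => h (x i)) c s G) : NoSmallCM.{v} T := by
  have hhm : ∀ y ∈ maximalIdeal S, h y ∈ maximalIdeal T := fun y hy => by
    rw [mem_maximalIdeal] at hy ⊢
    exact fun h2 => hy (hloc.map_nonunit y h2)
  have hJ : (maximalIdeal S).map h ≤ maximalIdeal T := by
    rw [Ideal.map_le_iff_le_comap]
    exact hhm
  obtain ⟨m, w, N', hw, hm, hN'⟩ := exists_params _ hJ
  rw [hm, hn] at hd
  refine univ_params T (n + m) (fun i => h (x i)) (Fin.append (fun i => h (z i)) w) (N' * N)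
    (fun i => hhm _ (hx i)) (fun i => ?_) ?_ ?_ c s G hrel
  · refine Fin.addCases (fun i => ?_) (fun i => ?_) i
    · rw [Fin.append_left]; exact hhm _ (hz i)
    · rw [Fin.append_right]; exact hw i
  · rw [pow_mul]
    refine (Ideal.pow_right_mono hN' N).trans ((sup_pow_le _ _ _).trans ?_)
    rw [← Ideal.map_pow]
    refine sup_le ((Ideal.map_mono hN).trans ?_) ?_
    · rw [Ideal.map_sup, Ideal.map_span, Ideal.map_span, ← Set.range_comp, ← Set.range_comp]
      refine sup_le_sup le_rfl ?_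
      rw [Ideal.span_le]
      rintro _ ⟨i, rfl⟩
      exact Ideal.subset_span ⟨Fin.castAdd m i, Fin.append_left _ _ _⟩
    · refine le_trans ?_ le_sup_right
      rw [Ideal.span_le]
      rintro _ ⟨i, rfl⟩
      exact Ideal.subset_span ⟨Fin.natAdd n i, Fin.append_right _ _ _⟩
  · refine le_trans (le_of_eq ?_) hd
    push_cast
    ring

/-- a system of parameters split in `3 + n` -/
theorem exists_split (S : Type) [CommRing S] [IsLocalRing S] [IsNoetherianRing S]
    (h3 : 3 ≤ ringKrullDim S) : ∃ (n : ℕ) (_ : ringKrullDim S = (3 + n : ℕ)) (x : Fin 3 → S)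
      (z : Fin n → S) (N : ℕ), (∀ i, x i ∈ maximalIdeal S) ∧ (∀ i, z i ∈ maximalIdeal S) ∧
      maximalIdeal S ^ N ≤ Ideal.span (Set.range x) ⊔ Ideal.span (Set.range z) := by
  obtain ⟨n, z, N, hz, hn, hN⟩ := exists_params (⊥ : Ideal S) bot_le
  rw [ringKrullDim_eq_of_ringEquiv (RingEquiv.quotientBot S)] at hn
  rw [hn] at h3
  have h3' : 3 ≤ n := by exact_mod_cast h3
  obtain ⟨m, rfl⟩ := Nat.exists_eq_add_of_le h3'
  refine ⟨m, hn, fun i => z (Fin.castAdd m i), fun i => z (Fin.natAdd 3 i), N,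
    fun i => hz _, fun i => hz _, ?_⟩
  rw [bot_sup_eq] at hN
  refine hN.trans ?_
  rw [Ideal.span_le]
  rintro _ ⟨i, rfl⟩
  refine Fin.addCases (fun i => ?_) (fun i => ?_) i
  · exact Ideal.mem_sup_left (Ideal.subset_span ⟨i, rfl⟩)
  · exact Ideal.mem_sup_right (Ideal.subset_span ⟨i, rfl⟩)

/-- every Noetherian local ring over `ℚ` of dimension at least three has a finite pure extension
that kills -/
theorem exists_cover (S : Type) [CommRing S] [IsLocalRing S] [IsNoetherianRing S] [Algebra ℚ S]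
    (h3 : 3 ≤ ringKrullDim S) :
    ∃ (S' : Type) (_ : CommRing S') (_ : Algebra S S'), Module.Finite S S' ∧
      (∃ ρ : S' →ₗ[S] S, ρ 1 = 1) ∧ Obstructs.{v} S S' := by
  obtain ⟨n, hn, x, z, N, hx, hz, hN⟩ := exists_split S h3
  obtain ⟨R₀, r1, r2, r3, hfin, hnorm, hinj, c, s, G, hrel⟩ := exists_R0
  let Z : Type := MvPolynomial (Fin 3) ℤ
  let _ : CommRing Z := inferInstanceAs (CommRing (MvPolynomial (Fin 3) ℤ))
  let θ : Z →+* S := MvPolynomial.eval₂Hom (Int.castRingHom S) x
  have hθ : ∀ i, θ (MvPolynomial.X i) = x i := fun i => MvPolynomial.eval₂Hom_X' _ _ _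
  let _ : Algebra Z S := θ.toAlgebra
  have ht1 : Module.IsTorsionFree Z R₀ := Module.isTorsionFree_iff_algebraMap_injective.2 hinj
  have hic : IsIntegrallyClosed Z := inferInstanceAs (IsIntegrallyClosed (MvPolynomial (Fin 3) ℤ))
  have hdZ : IsDomain Z := inferInstanceAs (IsDomain (MvPolynomial (Fin 3) ℤ))
  have hcz : CharZero Z := inferInstanceAs (CharZero (MvPolynomial (Fin 3) ℤ))
  obtain ⟨τ, m, hm, hτ⟩ := exists_retraction Z R₀
  refine ⟨S ⊗[Z] R₀, inferInstance, inferInstance, inferInstance, ?_, ?_⟩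
  · let ρ0 : S ⊗[Z] R₀ →ₗ[S] S :=
      (TensorProduct.AlgebraTensorModule.rid Z S S).toLinearMap.comp (τ.baseChange S)
    have h1 : ρ0 1 = (m : S) := by
      change (TensorProduct.AlgebraTensorModule.rid Z S S) ((1 : S) ⊗ₜ[Z] τ 1) = _
      rw [hτ, TensorProduct.AlgebraTensorModule.rid_tmul, Algebra.smul_def, mul_one, map_natCast]
    have hu : IsUnit (m : S) := by
      have h2 : IsUnit (m : ℚ) := (Nat.cast_ne_zero.2 hm).isUnit
      have h3 := h2.map (algebraMap ℚ S)
      rwa [map_natCast] at h3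
    obtain ⟨u, hu⟩ := hu
    refine ⟨((u⁻¹ : Sˣ) : S) • ρ0, ?_⟩
    rw [LinearMap.smul_apply, h1, ← hu, smul_eq_mul, Units.inv_mul]
  · intro T _ _ _ g hg hd
    let h : S →+* T := g.comp (algebraMap S (S ⊗[Z] R₀))
    let f : R₀ →+* T := g.comp
      (Algebra.TensorProduct.includeRight : R₀ →ₐ[Z] S ⊗[Z] R₀).toRingHom
    have hfh : ∀ a : Z, f (algebraMap Z R₀ a) = h (θ a) := by
      intro a
      change g ((Algebra.TensorProduct.includeRight : R₀ →ₐ[Z] S ⊗[Z] R₀) (algebraMap Z R₀ a)) = _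
      rw [AlgHom.commutes]
      rfl
    let _ : Algebra ℚ T := (h.comp (algebraMap ℚ S)).toAlgebra
    have h1 := hrel.map f
    have h2 : (fun i => f (algebraMap (MvPolynomial (Fin 3) ℤ) R₀ (MvPolynomial.X i))) =
        fun i => h (x i) := by
      funext i
      rw [← hθ]
      exact hfh _
    rw [h2] at h1
    exact kills_core S n hn x z N hx hz hN T h hg hd _ _ _ h1

/-- domains -/
theorem exists_cover_domain (S : Type) [CommRing S] [IsDomain S] [IsLocalRing S]
    [IsNoetherianRing S] [Algebra ℚ S] (h3 : 3 ≤ ringKrullDim S) :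
    ∃ (S' : Type) (_ : CommRing S') (_ : IsDomain S') (_ : Algebra S S'), Module.Finite S S' ∧
      Function.Injective (algebraMap S S') ∧ Obstructs.{v} S S' := by
  obtain ⟨S', s1, s2, hfin, ⟨ρ, hρ⟩, hk⟩ := exists_cover.{v} S h3
  have hinj : Function.Injective (algebraMap S S') := by
    intro a b hab
    have h1 := congrArg ρ hab
    rw [Algebra.algebraMap_eq_smul_one, Algebra.algebraMap_eq_smul_one, map_smul, map_smul, hρ,
      smul_eq_mul, mul_one, smul_eq_mul, mul_one] at h1
    exact h1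
  have hint : Algebra.IsIntegral S S' := Algebra.IsIntegral.of_finite S S'
  obtain ⟨Q, -, hQ, hQ2⟩ := Ideal.exists_ideal_over_prime_of_isIntegral (S := S') (⊥ : Ideal S)
    (⊥ : Ideal S') (by
      intro a ha
      rw [Ideal.mem_comap, Ideal.mem_bot] at ha
      rw [Ideal.mem_bot]
      exact hinj (ha.trans (map_zero _).symm))
  refine ⟨S' ⧸ Q, inferInstance, Ideal.Quotient.isDomain Q, inferInstance, ?_, ?_, ?_⟩
  · exact Module.Finite.of_surjective (Ideal.Quotient.mkₐ S Q).toLinearMap
      Ideal.Quotient.mk_surjective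
  · rw [injective_iff_map_eq_zero]
    intro a ha
    have h1 : algebraMap S S' a ∈ Q := Ideal.Quotient.eq_zero_iff_mem.1 ha
    have h2 : a ∈ Q.comap (algebraMap S S') := h1
    rw [hQ2] at h2
    exact h2
  · intro T _ _ _ g hg hd
    exact hk T (g.comp (Ideal.Quotient.mk Q)) hg hd

/-- a maximal ideal of full height -/
theorem exists_max (S S' : Type) [CommRing S] [IsLocalRing S] [IsNoetherianRing S] [CommRing S']
    [Algebra S S'] [Module.Finite S S'] (hinj : Function.Injective (algebraMap S S')) :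
    ∃ (n : Ideal S') (_ : n.IsMaximal),
      ringKrullDim (Localization.AtPrime n) = ringKrullDim S := by
  have hint : Algebra.IsIntegral S S' := Algebra.IsIntegral.of_finite S S'
  have hle : ringKrullDim S' ≤ ringKrullDim S := dim_le_of_integral
  have hge : ringKrullDim S ≤ ringKrullDim S' := by
    refine iSup_le fun l => ?_
    obtain ⟨P, -, hP, hP2⟩ := Ideal.exists_ideal_over_prime_of_isIntegral (S := S')
      l.head.asIdeal (⊥ : Ideal S') (by
        intro a ha
        rw [Ideal.mem_comap, Ideal.mem_bot] at ha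
        rw [hinj (ha.trans (map_zero _).symm)]
        exact zero_mem _)
    have hlo : P.LiesOver l.head.asIdeal := ⟨hP2.symm⟩
    obtain ⟨L, hL, -⟩ := Ideal.exists_ltSeries_of_hasGoingUp l P
    rw [← hL]
    exact le_iSup (fun l : LTSeries (PrimeSpectrum S') => ((l.length : ℕ) : WithBot ℕ∞)) L
  have heq := le_antisymm hle hge
  have hnt : Nontrivial S' := hinj.nontrivial
  have hfd : FiniteRingKrullDim S' := by
    rw [finiteRingKrullDim_iff_ne_bot_and_top, heq]
    exact ⟨ringKrullDim_ne_bot, ringKrullDim_ne_top⟩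
  obtain ⟨n, hn, hn2⟩ := Ideal.exists_isMaximal_height (R := S')
  refine ⟨n, hn, ?_⟩
  rw [IsLocalization.AtPrime.ringKrullDim_eq_height n (Localization.AtPrime n), hn2, heq]

end Vale.Agent.P190.H128
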