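import Vale.Agent.P190.H128.E17

/-! The universal obstruction, mixed characteristic. -/

set_option autoImplicit false

namespace Vale.Agent.P190.H128

open Vale.Agent.P190 Vale.Agent.P190.D IsLocalRing RingTheory.Sequence Vale.Agent.P190.H455
open scoped TensorProduct

universe v

theorem univ_complete_mixed (p : ℕ) [hp : Fact p.Prime] (B : Type) [CommRing B] [IsLocalRing B]
    [CharP (ResidueField B) p] (hnil : ∀ i, (p : B) ^ i ≠ 0)
    (hfg : (maximalIdeal B).FG) (hB : IsAdicComplete (maximalIdeal B) B) (n : ℕ) (x : Fin 3 → B)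
    (z : Fin n → B) (N : ℕ) (hx : ∀ i, x i ∈ maximalIdeal B) (hz : ∀ i, z i ∈ maximalIdeal B)
    (hN : maximalIdeal B ^ N ≤
      Ideal.span {(p : B)} ⊔ (Ideal.span (Set.range x) ⊔ Ideal.span (Set.range z)))
    (c : r1S → Fin 3 → B) (s : Fin 17 → B) (G : (r1S → Bool) → B) (hrel : Rel x c s G)
    (M : Type v) [AddCommGroup M] [Module B M] [Module.Finite B M] (rs : List B)
    (hrs : ∀ r ∈ rs, r ∈ maximalIdeal B) (hreg : IsRegular M rs) : rs.length < 4 + n := by
  obtain ⟨V, _, _, _, hcz, hVc, g, hparV, hgl, hgs⟩ := exists_cohen_map p B hB hnil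
  have hmap : (maximalIdeal V).map g = Ideal.span {(p : B)} := by
    rw [← hparV.gen, Ideal.ofList_singleton, Ideal.map_span, Set.image_singleton, map_natCast]
  obtain ⟨φ, hC, hX, hfin⟩ := exists_finite' hVc hfg hB g hgl hgs
    (Fin.append x z) (fun i => by
      refine Fin.addCases (fun i => ?_) (fun i => ?_) i
      · rw [Fin.append_left]; exact hx i
      · rw [Fin.append_right]; exact hz i) N (by
      rw [hmap]
      refine hN.trans (sup_le_sup le_rfl (sup_le ?_ ?_))
      · rw [Ideal.span_le]
        rintro _ ⟨i, rfl⟩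
        exact Ideal.subset_span ⟨Fin.castAdd n i, Fin.append_left _ _ _⟩
      · rw [Ideal.span_le]
        rintro _ ⟨i, rfl⟩
        exact Ideal.subset_span ⟨Fin.natAdd 3 i, Fin.append_right _ _ _⟩)
  have hA := (goodBase_dvr V hVc).mvPowerSeries (3 + n)
  have := hA.loc
  have := hA.noeth
  obtain ⟨xs, hxs, hpar⟩ := hA.par
  let F : Type := FractionRing V
  have hF : CharZero F := charZero_of_injective_algebraMap (IsFractionRing.injective V F)
  let ε : Fin 3 ↪ Fin (3 + n) := Fin.castLEEmb (Nat.le_add_right 3 n)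
  let π : MvPowerSeries (Fin (3 + n)) V →+* MvPowerSeries (Fin 3) F :=
    (MvPowerSeries.map (σ := Fin 3) (algebraMap V F)).comp
      (MvPowerSeries.killCompl (R := V) ε).toRingHom
  have hπ : ∀ i, π (MvPowerSeries.X (ε i)) = MvPowerSeries.X i := by
    intro i
    change MvPowerSeries.map (σ := Fin 3) (algebraMap V F)
      (MvPowerSeries.killCompl (R := V) ε (MvPowerSeries.X (ε i))) = _
    rw [MvPowerSeries.killCompl_X, MvPowerSeries.map_X]
  let _ : Algebra (MvPowerSeries (Fin (3 + n)) V) B := φ.toAlgebra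
  have : Module.Finite (MvPowerSeries (Fin (3 + n)) V) B := hfin
  have hb : ∀ i, algebraMap (MvPowerSeries (Fin (3 + n)) V) B (MvPowerSeries.X (ε i)) = x i := by
    intro i
    change φ (MvPowerSeries.X (ε i)) = x i
    rw [hX]
    exact Fin.append_left x z i
  have h1 := depth_lt (MvPowerSeries (Fin (3 + n)) V) hpar F π (fun i => MvPowerSeries.X (ε i)) hπ
    B c s G (by
      have h2 : (fun i => algebraMap (MvPowerSeries (Fin (3 + n)) V) B
        (MvPowerSeries.X (ε i))) = x := funext hb
      rw [h2]
      exact hrel) B M rs hrs hreg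
  omega

theorem dim_le_card (S : Type) [CommRing S] [IsLocalRing S] [IsNoetherianRing S] (k : ℕ)
    (w : Fin k → S) (N : ℕ) (hw : ∀ i, w i ∈ maximalIdeal S)
    (hN : maximalIdeal S ^ N ≤ Ideal.span (Set.range w)) : ringKrullDim S ≤ k := by
  classical
  let W : Finset S := Finset.univ.image w
  have hW : (W : Set S) = Set.range w := by simp [W]
  have h1 : ringKrullDim S ≤ ringKrullDim (S ⧸ Ideal.span (W : Set S)) + W.card := by
    apply ringKrullDim_le_ringKrullDim_quotient_add_card
    rw [IsLocalRing.ringJacobson_eq_maximalIdeal, hW]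
    rintro _ ⟨i, rfl⟩
    exact hw i
  have h2 : ringKrullDim (S ⧸ Ideal.span (W : Set S)) ≤ 0 := by
    have h3 : Ring.KrullDimLE 0 (S ⧸ Ideal.span (W : Set S)) := by
      rw [Ring.krullDimLE_zero_iff]
      intro P hP
      have hQ : P.comap (Ideal.Quotient.mk (Ideal.span (W : Set S))) = maximalIdeal S := by
        have hQp : (P.comap (Ideal.Quotient.mk (Ideal.span (W : Set S)))).IsPrime :=
          Ideal.comap_isPrime _ _
        apply le_antisymm (IsLocalRing.le_maximalIdeal hQp.ne_top)
        rw [← hQp.pow_le_iff (n := N + 1) (Nat.succ_ne_zero N)]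
        refine (Ideal.pow_le_pow_right (Nat.le_succ N)).trans (hN.trans ?_)
        rw [← hW]
        intro a ha
        rw [Ideal.mem_comap, Ideal.Quotient.eq_zero_iff_mem.2 ha]
        exact zero_mem _
      have hmx : (P.comap (Ideal.Quotient.mk (Ideal.span (W : Set S)))).IsMaximal := by
        rw [hQ]; infer_instance
      have h4 := Ideal.map_eq_top_or_isMaximal_of_surjective
        (Ideal.Quotient.mk (Ideal.span (W : Set S))) Ideal.Quotient.mk_surjective hmx
      rw [Ideal.map_comap_of_surjective _ Ideal.Quotient.mk_surjective] at h4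
      exact h4.resolve_left hP.ne_top
    exact_mod_cast (Ring.krullDimLE_iff.1 h3)
  have h3 : W.card ≤ k := Finset.card_image_le.trans (by simp)
  calc ringKrullDim S ≤ ringKrullDim (S ⧸ Ideal.span (W : Set S)) + W.card := h1
    _ ≤ 0 + (k : WithBot ℕ∞) := by
        gcongr
    _ = k := zero_add _

theorem univ_params_mixed (p : ℕ) [hp : Fact p.Prime] (S : Type) [CommRing S] [IsLocalRing S]
    [IsNoetherianRing S] (hpS : (p : S) ∈ maximalIdeal S)
    (n : ℕ) (x : Fin 3 → S) (z : Fin n → S) (N : ℕ) (hx : ∀ i, x i ∈ maximalIdeal S)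
    (hz : ∀ i, z i ∈ maximalIdeal S)
    (hN : maximalIdeal S ^ N ≤
      Ideal.span {(p : S)} ⊔ (Ideal.span (Set.range x) ⊔ Ideal.span (Set.range z)))
    (hd : ((4 + n : ℕ) : WithBot ℕ∞) ≤ ringKrullDim S)
    (c : r1S → Fin 3 → S) (s : Fin 17 → S) (G : (r1S → Bool) → S) (hrel : Rel x c s G) :
    NoSmallCM.{v} S := by
  intro M _ _ _ rs hrs hreg
  -- `p` is not nilpotent
  have hnil0 : ∀ i, (p : S) ^ i ≠ 0 := by
    intro i hi
    have h1 : maximalIdeal S ^ (N * i) ≤ Ideal.span (Set.range (Fin.append x z)) := by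
      rw [pow_mul]
      refine (Ideal.pow_right_mono hN i).trans ((sup_pow_le _ _ _).trans ?_)
      rw [Ideal.span_singleton_pow, hi, Ideal.span_singleton_eq_bot.2 rfl, bot_sup_eq]
      refine sup_le ?_ ?_
      · rw [Ideal.span_le]
        rintro _ ⟨i, rfl⟩
        exact Ideal.subset_span ⟨Fin.castAdd n i, Fin.append_left _ _ _⟩
      · rw [Ideal.span_le]
        rintro _ ⟨i, rfl⟩
        exact Ideal.subset_span ⟨Fin.natAdd 3 i, Fin.append_right _ _ _⟩
    have h2 := dim_le_card S (3 + n) (Fin.append x z) (N * i) (fun i => by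
      refine Fin.addCases (fun i => ?_) (fun i => ?_) i
      · rw [Fin.append_left]; exact hx i
      · rw [Fin.append_right]; exact hz i) h1
    have h3 : (4 + n : ℕ) ≤ (3 + n : ℕ) := by exact_mod_cast hd.trans h2
    omega
  let S' : Type := AdicCompletion (maximalIdeal S) S
  let ι : S →+* S' := algebraMap S S'
  have hmax : maximalIdeal S' = (maximalIdeal S).map ι :=
    AdicCompletion.maximalIdeal_eq_map
  have hfg : (maximalIdeal S').FG := by
    rw [hmax]
    exact Ideal.FG.map ((maximalIdeal S).fg_of_isNoetherianRing) ι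
  have hcomp : IsAdicComplete (maximalIdeal S') S' := inferInstance
  have hflat : Module.Flat S S' := AdicCompletion.flat_of_isNoetherian (maximalIdeal S)
  have hlh : IsLocalHom (algebraMap S S') := inferInstance
  have hff : Module.FaithfullyFlat S S' := Module.FaithfullyFlat.of_flat_of_isLocalHom
  have hιinj : Function.Injective ι := FaithfulSMul.algebraMap_injective S S'
  have hιm : ∀ y ∈ maximalIdeal S, ι y ∈ maximalIdeal S' := fun y hy => by
    rw [hmax]; exact Ideal.mem_map_of_mem _ hy
  have hpS' : (p : S') ∈ maximalIdeal S' := by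
    have := hιm _ hpS
    rwa [map_natCast] at this
  have hchar : CharP (ResidueField S') p := by
    rw [CharP.charP_iff_prime_eq_zero hp.1, ← map_natCast (residue S'), residue_eq_zero_iff]
    exact hpS'
  have hnil : ∀ i, (p : S') ^ i ≠ 0 := by
    intro i hi
    apply hnil0 i
    apply hιinj
    rw [map_pow, map_natCast, map_zero]
    exact hi
  have hreg2 : IsRegular (S' ⊗[S] M) (rs.map (algebraMap S S')) :=
    IsRegular.of_faithfullyFlat_of_isBaseChange (TensorProduct.isBaseChange S M S') hreg
  have h1 := univ_complete_mixed p S' hnil hfg hcomp n (fun i => ι (x i)) (fun i => ι (z i)) N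
    (fun i => hιm _ (hx i)) (fun i => hιm _ (hz i)) (by
      rw [hmax, ← Ideal.map_pow]
      refine (Ideal.map_mono hN).trans ?_
      rw [Ideal.map_sup, Ideal.map_sup, Ideal.map_span, Ideal.map_span, Ideal.map_span,
        ← Set.range_comp, ← Set.range_comp, Set.image_singleton, map_natCast]
      rfl) _ _ _ (hrel.map ι) (S' ⊗[S] M) (rs.map (algebraMap S S')) (by
      intro r hr
      obtain ⟨r0, hr0, rfl⟩ := List.mem_map.1 hr
      exact hιm _ (hrs r0 hr0)) hreg2
  rw [List.length_map] at h1
  refine lt_of_lt_of_le ?_ hd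
  exact_mod_cast h1

/-- a ring with residue field of characteristic zero is a `ℚ`-algebra -/
theorem exists_rat (S : Type) [CommRing S] [IsLocalRing S] [CharZero (ResidueField S)] :
    Nonempty (Algebra ℚ S) := by
  have hu : ∀ n : ℕ, n ≠ 0 → IsUnit ((n : ℤ) : S) := by
    intro n hn
    rw [Int.cast_natCast]
    by_contra h
    have h1 : residue S (n : S) = 0 := (residue_eq_zero_iff _).2 ((mem_maximalIdeal _).2 h)
    rw [map_natCast] at h1
    exact hn (by exact_mod_cast h1)
  have hu2 : ∀ y : nonZeroDivisors ℤ, IsUnit (Int.castRingHom S y) := by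
    rintro ⟨y, hy⟩
    have hy0 : y ≠ 0 := nonZeroDivisors.ne_zero hy
    have h1 := hu y.natAbs (by omega)
    change IsUnit ((y : ℤ) : S)
    rcases Int.natAbs_eq y with h2 | h2
    · rw [h2]; exact h1
    · rw [h2, Int.cast_neg]; exact h1.neg
  let q : ℚ →+* S := IsLocalization.lift (M := nonZeroDivisors ℤ) hu2
  exact ⟨q.toAlgebra⟩

/-- THE UNIVERSAL OBSTRUCTION. -/
theorem univ_local (S : Type) [CommRing S] [IsLocalRing S] [IsNoetherianRing S]
    (x : Fin 3 → S) (hx : IsParam S x) (c : r1S → Fin 3 → S) (s : Fin 17 → S)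
    (G : (r1S → Bool) → S) (hrel : Rel x c s G) : NoSmallCM.{v} S := by
  obtain ⟨hxm, ⟨h0, hd⟩ | ⟨p, hp, hpS, hd⟩⟩ := hx
  · obtain ⟨iQ⟩ := exists_rat S
    have hI : Ideal.span (Set.range x) ≤ maximalIdeal S := by
      rw [Ideal.span_le]
      rintro _ ⟨i, rfl⟩
      exact hxm i
    obtain ⟨n, z, N, hz, hn, hN⟩ := exists_params _ hI
    rw [hn] at hd
    refine univ_params S n x z N hxm hz hN ?_ c s G hrel
    refine le_trans (le_of_eq ?_) hd
    push_cast
    ring
  · have : Fact p.Prime := ⟨hp⟩
    have hI : Ideal.span (insert (p : S) (Set.range x)) ≤ maximalIdeal S := by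
      rw [Ideal.span_le]
      rintro _ (rfl | ⟨i, rfl⟩)
      · exact hpS
      · exact hxm i
    obtain ⟨n, z, N, hz, hn, hN⟩ := exists_params _ hI
    rw [hn] at hd
    refine univ_params_mixed p S hpS n x z N hxm hz ?_ ?_ c s G hrel
    · rw [Ideal.span_insert, sup_assoc] at hN
      exact hN
    · refine le_trans (le_of_eq ?_) hd
      push_cast
      ring

/-- the core of the relative statement, mixed characteristic -/
theorem kills_core_mixed (p : ℕ) [hp : Fact p.Prime] (S : Type) [CommRing S] [IsLocalRing S]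
    [IsNoetherianRing S] (hpS : (p : S) ∈ maximalIdeal S)
    (n : ℕ) (hn : ringKrullDim S = (4 + n : ℕ)) (x : Fin 3 → S) (z : Fin n → S) (N : ℕ)
    (hx : ∀ i, x i ∈ maximalIdeal S) (hz : ∀ i, z i ∈ maximalIdeal S)
    (hN : maximalIdeal S ^ N ≤
      Ideal.span {(p : S)} ⊔ (Ideal.span (Set.range x) ⊔ Ideal.span (Set.range z)))
    (T : Type) [CommRing T] [IsLocalRing T] [IsNoetherianRing T] (h : S →+* T)
    (hloc : IsLocalHom h)
    (hd : ringKrullDim (T ⧸ (maximalIdeal S).map h) + ringKrullDim S ≤ ringKrullDim T)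
    (c : r1S → Fin 3 → T) (s : Fin 17 → T) (G : (r1S → Bool) → T)
    (hrel : Rel (fun i => h (x i)) c s G) : NoSmallCM.{v} T := by
  have hhm : ∀ y ∈ maximalIdeal S, h y ∈ maximalIdeal T := fun y hy => by
    rw [mem_maximalIdeal] at hy ⊢
    exact fun h2 => hy (hloc.map_nonunit y h2)
  have hJ : (maximalIdeal S).map h ≤ maximalIdeal T := by
    rw [Ideal.map_le_iff_le_comap]
    exact hhm
  obtain ⟨m, w, N', hw, hm, hN'⟩ := exists_params _ hJ
  rw [hm, hn] at hd
  have hpT : (p : T) ∈ maximalIdeal T := by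
    have := hhm _ hpS
    rwa [map_natCast] at this
  refine univ_params_mixed p T hpT (n + m) (fun i => h (x i)) (Fin.append (fun i => h (z i)) w)
    (N' * N) (fun i => hhm _ (hx i)) (fun i => ?_) ?_ ?_ c s G hrel
  · refine Fin.addCases (fun i => ?_) (fun i => ?_) i
    · rw [Fin.append_left]; exact hhm _ (hz i)
    · rw [Fin.append_right]; exact hw i
  · rw [pow_mul]
    refine (Ideal.pow_right_mono hN' N).trans ((sup_pow_le _ _ _).trans ?_)
    rw [← Ideal.map_pow]
    refine sup_le ((Ideal.map_mono hN).trans ?_) ?_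
    · rw [Ideal.map_sup, Ideal.map_sup, Ideal.map_span, Ideal.map_span, Ideal.map_span,
        ← Set.range_comp, ← Set.range_comp, Set.image_singleton, map_natCast]
      refine sup_le_sup le_rfl (sup_le_sup le_rfl ?_)
      rw [Ideal.span_le]
      rintro _ ⟨i, rfl⟩
      exact Ideal.subset_span ⟨Fin.castAdd m i, Fin.append_left _ _ _⟩
    · refine le_trans ?_ (le_sup_of_le_right le_sup_right)
      rw [Ideal.span_le]
      rintro _ ⟨i, rfl⟩
      exact Ideal.subset_span ⟨Fin.natAdd n i, Fin.append_right _ _ _⟩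
  · refine le_trans (le_of_eq ?_) hd
    push_cast
    ring

/-- base change of a finite extension domain to a domain, inside an algebraic closure -/
theorem exists_domain_over (Z R₀ S : Type) [CommRing Z] [CommRing R₀] [IsDomain R₀] [Algebra Z R₀]
    [Module.Finite Z R₀] (hinj : Function.Injective (algebraMap Z R₀)) [CommRing S] [IsDomain S]
    (θ : Z →+* S) :
    ∃ (S' : Type) (_ : CommRing S') (_ : IsDomain S') (_ : Algebra S S') (f : R₀ →+* S'),
      Module.Finite S S' ∧ Function.Injective (algebraMap S S') ∧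
      ∀ a, f (algebraMap Z R₀ a) = algebraMap S S' (θ a) := by
  classical
  let F : Type := FractionRing S
  let Ω : Type := AlgebraicClosure F
  let _ : Field Ω := inferInstanceAs (Field (AlgebraicClosure F))
  let _ : Algebra F Ω := inferInstanceAs (Algebra F (AlgebraicClosure F))
  let _ : Algebra S Ω := inferInstanceAs (Algebra S (AlgebraicClosure F))
  have hst : IsScalarTower S F Ω := inferInstanceAs (IsScalarTower S F (AlgebraicClosure F))
  have hac : IsAlgClosed Ω := inferInstanceAs (IsAlgClosed (AlgebraicClosure F))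
  have hSΩ : Function.Injective (algebraMap S Ω) := by
    rw [IsScalarTower.algebraMap_eq S F Ω]
    exact (algebraMap F Ω).injective.comp (IsFractionRing.injective S F)
  let α : Z →+* Ω := (algebraMap S Ω).comp θ
  have hPp : (RingHom.ker α).IsPrime := RingHom.ker_isPrime α
  have hint : Algebra.IsIntegral Z R₀ := Algebra.IsIntegral.of_finite Z R₀
  obtain ⟨Q, -, hQ, hQ2⟩ := Ideal.exists_ideal_over_prime_of_isIntegral (S := R₀)
    (RingHom.ker α) (⊥ : Ideal R₀) (by
      intro a ha
      rw [Ideal.mem_comap, Ideal.mem_bot] at ha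
      rw [hinj (ha.trans (map_zero _).symm)]
      exact zero_mem _)
  -- the homomorphism on the quotient by `Q`
  have hker : ∀ a, algebraMap Z R₀ a ∈ Q ↔ α a = 0 := by
    intro a
    rw [← Ideal.mem_comap, hQ2, RingHom.mem_ker]
  let A : Type := Z ⧸ RingHom.ker α
  let D : Type := R₀ ⧸ Q
  have hD : IsDomain D := Ideal.Quotient.isDomain Q
  have hA : IsDomain A := Ideal.Quotient.isDomain (RingHom.ker α)
  let j : A →+* D := Ideal.Quotient.lift (RingHom.ker α) ((Ideal.Quotient.mk Q).comp
    (algebraMap Z R₀)) (fun a ha => Ideal.Quotient.eq_zero_iff_mem.2 ((hker a).2 ha))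
  let _ : Algebra A D := j.toAlgebra
  let αA : A →+* Ω := Ideal.Quotient.lift (RingHom.ker α) α (fun a ha => ha)
  let _ : Algebra A Ω := αA.toAlgebra
  have hjinj : Function.Injective (algebraMap A D) := by
    rw [injective_iff_map_eq_zero]
    intro a ha
    obtain ⟨a, rfl⟩ := Ideal.Quotient.mk_surjective a
    have h1 : algebraMap Z R₀ a ∈ Q := Ideal.Quotient.eq_zero_iff_mem.1 ha
    exact Ideal.Quotient.eq_zero_iff_mem.2 ((hker a).1 h1)
  have hαinj : Function.Injective (algebraMap A Ω) := by
    rw [injective_iff_map_eq_zero]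
    intro a ha
    obtain ⟨a, rfl⟩ := Ideal.Quotient.mk_surjective a
    exact Ideal.Quotient.eq_zero_iff_mem.2 ha
  have ht1 : Module.IsTorsionFree A D := Module.isTorsionFree_iff_algebraMap_injective.2 hjinj
  have ht2 : Module.IsTorsionFree A Ω := Module.isTorsionFree_iff_algebraMap_injective.2 hαinj
  have hintD : Algebra.IsIntegral A D := by
    constructor
    intro y
    obtain ⟨y, rfl⟩ := Ideal.Quotient.mk_surjective y
    obtain ⟨q, hq, hq2⟩ := hint.isIntegral y
    refine ⟨q.map (Ideal.Quotient.mk (RingHom.ker α)), hq.map _, ?_⟩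
    rw [Polynomial.eval₂_map]
    have h1 : (algebraMap A D).comp (Ideal.Quotient.mk (RingHom.ker α)) =
        (Ideal.Quotient.mk Q).comp (algebraMap Z R₀) := by
      ext a
      rfl
    rw [h1]
    have h2 := congrArg (Ideal.Quotient.mk Q) hq2
    rw [Polynomial.hom_eval₂, map_zero] at h2
    exact h2
  have halg : Algebra.IsAlgebraic A D := inferInstance
  let β0 : D →ₐ[A] Ω := IsAlgClosed.lift
  let β : R₀ →+* Ω := (β0 : D →+* Ω).comp (Ideal.Quotient.mk Q)
  have hβ : ∀ a, β (algebraMap Z R₀ a) = α a := by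
    intro a
    change β0 (algebraMap A D (Ideal.Quotient.mk _ a)) = α a
    rw [AlgHom.commutes]
    rfl
  let _ : Algebra Z S := θ.toAlgebra
  let _ : Algebra Z Ω := α.toAlgebra
  have hst2 : IsScalarTower Z S Ω := IsScalarTower.of_algebraMap_eq fun _ => rfl
  let βa : R₀ →ₐ[Z] Ω := { β with commutes' := hβ }
  let Φ : S ⊗[Z] R₀ →ₐ[S] Ω := Algebra.TensorProduct.lift (Algebra.ofId S Ω) βa
    fun _ _ => Commute.all _ _
  let S' : Type := Φ.range
  let _ : CommRing S' := inferInstanceAs (CommRing Φ.range)
  let _ : Algebra S S' := inferInstanceAs (Algebra S Φ.range)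
  have hdom : IsDomain S' := inferInstanceAs (IsDomain Φ.range)
  let f : R₀ →+* S' := (Φ.rangeRestrict : S ⊗[Z] R₀ →+* Φ.range).comp
    (Algebra.TensorProduct.includeRight : R₀ →ₐ[Z] S ⊗[Z] R₀).toRingHom
  have hcoe : ∀ a : S, ((algebraMap S S' a : S') : Ω) = algebraMap S Ω a := fun a => rfl
  refine ⟨S', inferInstance, hdom, inferInstance, f, ?_, ?_, ?_⟩
  · exact Module.Finite.of_surjective (f := Φ.rangeRestrict.toLinearMap)
      Φ.rangeRestrict_surjective
  · intro a b hab
    apply hSΩ
    rw [← hcoe, ← hcoe, hab]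
  · intro a
    apply Subtype.ext
    change Φ ((1 : S) ⊗ₜ[Z] algebraMap Z R₀ a) = _
    rw [Algebra.TensorProduct.lift_tmul, map_one, one_mul]
    exact hβ a

theorem exists_eval_cover (S : Type) [CommRing S] [IsDomain S] (x : Fin 3 → S) :
    ∃ (S' : Type) (_ : CommRing S') (_ : IsDomain S') (_ : Algebra S S'),
      Module.Finite S S' ∧ Function.Injective (algebraMap S S') ∧
      ∃ (c : r1S → Fin 3 → S') (s : Fin 17 → S') (G : (r1S → Bool) → S'),
        Rel (fun i => algebraMap S S' (x i)) c s G := by
  obtain ⟨R₀, r1, r2, r3, hfin, hnorm, hinj, c, s, G, hrel⟩ := exists_R0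
  obtain ⟨S', s1, s2, s3, f, h1, h2, h3⟩ := exists_domain_over (MvPolynomial (Fin 3) ℤ) R₀ S hinj
    (MvPolynomial.eval₂Hom (Int.castRingHom S) x)
  refine ⟨S', s1, s2, s3, h1, h2, fun t j => f (c t j), fun a => f (s a), fun ε => f (G ε), ?_⟩
  have h4 := hrel.map f
  simp only [h3] at h4
  have h5 : (fun i => algebraMap S S' (MvPolynomial.eval₂Hom (Int.castRingHom S) x
      (MvPolynomial.X i))) = fun i => algebraMap S S' (x i) := by
    funext i
    rw [MvPolynomial.eval₂Hom_X']
  rw [h5] at h4
  exact h4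

/-- local domains of mixed characteristic -/
theorem exists_cover_mixed (p : ℕ) [hp : Fact p.Prime] (S : Type) [CommRing S] [IsDomain S]
    [IsLocalRing S] [IsNoetherianRing S] [CharZero S] (hpS : (p : S) ∈ maximalIdeal S)
    (h4 : 4 ≤ ringKrullDim S) :
    ∃ (S' : Type) (_ : CommRing S') (_ : IsDomain S') (_ : Algebra S S'), Module.Finite S S' ∧
      Function.Injective (algebraMap S S') ∧ Obstructs.{v} S S' := by
  classical
  have hI : Ideal.span {(p : S)} ≤ maximalIdeal S := by
    rw [Ideal.span_singleton_le_iff_mem]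
    exact hpS
  obtain ⟨n', z', N, hz', hn', hN⟩ := exists_params _ hI
  have hpS0 : (p : S) ≠ 0 := by exact_mod_cast hp.1.ne_zero
  have hle := ringKrullDim_quotient_succ_le_of_nonZeroDivisor (R := S) (r := (p : S))
    (mem_nonZeroDivisors_of_ne_zero hpS0)
  rw [hn'] at hle
  have hge : ringKrullDim S ≤ (n' + 1 : ℕ) := by
    refine dim_le_card S (n' + 1) (Fin.cons (p : S) z') N (fun i => ?_) ?_
    · refine Fin.cases ?_ (fun i => ?_) i
      · exact hpS
      · exact hz' i
    · rw [Fin.range_cons, Ideal.span_insert]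
      exact hN
  have hdim : ringKrullDim S = (n' + 1 : ℕ) := le_antisymm hge (by exact_mod_cast hle)
  rw [hdim] at h4
  have h4' : 4 ≤ n' + 1 := by exact_mod_cast h4
  obtain ⟨n, rfl⟩ := Nat.exists_eq_add_of_le (show 3 ≤ n' by omega)
  let x : Fin 3 → S := fun i => z' (Fin.castAdd n i)
  let z : Fin n → S := fun i => z' (Fin.natAdd 3 i)
  have hx : ∀ i, x i ∈ maximalIdeal S := fun i => hz' _
  have hz : ∀ i, z i ∈ maximalIdeal S := fun i => hz' _
  have hN2 : maximalIdeal S ^ N ≤
      Ideal.span {(p : S)} ⊔ (Ideal.span (Set.range x) ⊔ Ideal.span (Set.range z)) := by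
    refine hN.trans (sup_le_sup le_rfl ?_)
    rw [Ideal.span_le]
    rintro _ ⟨i, rfl⟩
    refine Fin.addCases (fun i => ?_) (fun i => ?_) i
    · exact Ideal.mem_sup_left (Ideal.subset_span ⟨i, rfl⟩)
    · exact Ideal.mem_sup_right (Ideal.subset_span ⟨i, rfl⟩)
  have hdim2 : ringKrullDim S = (4 + n : ℕ) := by
    rw [hdim, show 3 + n + 1 = 4 + n by omega]
  obtain ⟨S', s1, s2, s3, h1, h2, c, s, G, hrel⟩ := exists_eval_cover S x
  refine ⟨S', s1, s2, s3, h1, h2, ?_⟩
  intro T _ _ _ g hg hd
  exact kills_core_mixed p S hpS n hdim2 x z N hx hz hN2 T (g.comp (algebraMap S S')) hg hd _ _ _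
    (hrel.map g)

/-- every Noetherian local domain of characteristic zero, dimension at least four (at least three
if the residue field has characteristic zero) -/
theorem exists_cover_all (S : Type) [CommRing S] [IsDomain S]
    [IsLocalRing S] [IsNoetherianRing S] [CharZero S]
    (h : 4 ≤ ringKrullDim S ∨ 3 ≤ ringKrullDim S ∧ CharZero (ResidueField S)) :
    ∃ (S' : Type) (_ : CommRing S') (_ : IsDomain S') (_ : Algebra S S'), Module.Finite S S' ∧
      Function.Injective (algebraMap S S') ∧ Obstructs.{v} S S' := by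
  obtain ⟨q, hq⟩ := CharP.exists (ResidueField S)
  rcases CharP.char_is_prime_or_zero (ResidueField S) q with hp | rfl
  · have h4 : 4 ≤ ringKrullDim S := by
      rcases h with h | ⟨-, h⟩
      · exact h
      · exact absurd (CharP.cast_eq_zero (ResidueField S) q) (by exact_mod_cast hp.ne_zero)
    have : Fact q.Prime := ⟨hp⟩
    refine exists_cover_mixed.{v} q S ?_ h4
    rw [← residue_eq_zero_iff, map_natCast, CharP.cast_eq_zero]
  · have : CharZero (ResidueField S) := CharP.charP_to_charZero _
    obtain ⟨iQ⟩ := exists_rat S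
    refine exists_cover_domain.{v} S ?_
    rcases h with h | ⟨h, -⟩
    · exact le_trans (by norm_num) h
    · exact h

/-- localisations at maximal ideals -/
theorem noSmall_localization (S S' : Type) [CommRing S] [IsLocalRing S] [IsNoetherianRing S]
    [CommRing S'] [Algebra S S'] [Module.Finite S S'] (hk : Obstructs.{v} S S')
    (n : Ideal S') [hn : n.IsMaximal]
    (hd : ringKrullDim (Localization.AtPrime n) = ringKrullDim S) :
    NoSmallCM.{v} (Localization.AtPrime n) := by
  have hint : Algebra.IsIntegral S S' := Algebra.IsIntegral.of_finite S S'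
  have hNS : IsNoetherianRing S' := IsNoetherianRing.of_finite S S'
  have hNT : IsNoetherianRing (Localization.AtPrime n) :=
    IsLocalization.isNoetherianRing n.primeCompl _ hNS
  have hcomap : ∀ q : Ideal S', q.IsMaximal → q.comap (algebraMap S S') = maximalIdeal S := by
    intro q hq
    exact IsLocalRing.eq_maximalIdeal (Ideal.isMaximal_comap_of_isIntegral_of_isMaximal q)
  let T : Type := Localization.AtPrime n
  let g : S' →+* T := algebraMap S' T
  have hcm : Ideal.comap g (maximalIdeal T) = n := IsLocalization.AtPrime.under_maximalIdeal T n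
  have hgm : ∀ y ∈ maximalIdeal S, g (algebraMap S S' y) ∈ maximalIdeal T := by
    intro y hy
    rw [← hcomap n hn] at hy
    rw [← Ideal.mem_comap, hcm]
    exact hy
  have hloc : IsLocalHom (g.comp (algebraMap S S')) := by
    constructor
    intro a ha
    by_contra h
    exact (mem_maximalIdeal _).1 (hgm a ((mem_maximalIdeal _).2 h)) ha
  refine hk T g hloc ?_
  have h0 : ringKrullDim (T ⧸ (maximalIdeal S).map (g.comp (algebraMap S S'))) ≤ 0 := by
    have h3 : Ring.KrullDimLE 0 (T ⧸ (maximalIdeal S).map (g.comp (algebraMap S S'))) := by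
      rw [Ring.krullDimLE_zero_iff]
      intro P hP
      let q : Ideal T := P.comap (Ideal.Quotient.mk _)
      have hqp : q.IsPrime := Ideal.comap_isPrime _ _
      have hSq : maximalIdeal S ≤ (q.comap g).comap (algebraMap S S') := by
        intro y hy
        have h7 : Ideal.Quotient.mk ((maximalIdeal S).map (g.comp (algebraMap S S')))
            (g (algebraMap S S' y)) = 0 :=
          Ideal.Quotient.eq_zero_iff_mem.2 (Ideal.mem_map_of_mem (g.comp (algebraMap S S')) hy)
        change Ideal.Quotient.mk ((maximalIdeal S).map (g.comp (algebraMap S S')))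
            (g (algebraMap S S' y)) ∈ P
        rw [h7]
        exact zero_mem _
      have hqc : (q.comap g).IsPrime := Ideal.comap_isPrime _ _
      have hqS : (q.comap g).comap (algebraMap S S') = maximalIdeal S := by
        have hp1 : ((q.comap g).comap (algebraMap S S')).IsPrime := Ideal.comap_isPrime _ _
        exact le_antisymm (IsLocalRing.le_maximalIdeal hp1.ne_top) hSq
      have hqmax : (q.comap g).IsMaximal := by
        apply Ideal.isMaximal_of_isIntegral_of_isMaximal_comap (R := S)
        rw [hqS]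
        infer_instance
      have hqn : q.comap g = n := by
        refine hqmax.eq_of_le hn.ne_top ?_
        have h5 : q ≤ maximalIdeal T := IsLocalRing.le_maximalIdeal hqp.ne_top
        have h6 := Ideal.comap_mono (f := g) h5
        rwa [hcm] at h6
      have hqM : q = maximalIdeal T := by
        apply le_antisymm (IsLocalRing.le_maximalIdeal hqp.ne_top)
        have h8 : n.map g = maximalIdeal T := IsLocalization.AtPrime.map_eq_maximalIdeal n T
        rw [← h8]
        exact (Ideal.map_mono hqn.ge).trans Ideal.map_comap_le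
      have hmx : q.IsMaximal := by rw [hqM]; infer_instance
      have h4 := Ideal.map_eq_top_or_isMaximal_of_surjective
        (Ideal.Quotient.mk ((maximalIdeal S).map (g.comp (algebraMap S S'))))
        Ideal.Quotient.mk_surjective hmx
      rw [Ideal.map_comap_of_surjective _ Ideal.Quotient.mk_surjective] at h4
      exact h4.resolve_left hP.ne_top
    exact_mod_cast (Ring.krullDimLE_iff.1 h3)
  calc ringKrullDim (T ⧸ (maximalIdeal S).map (g.comp (algebraMap S S'))) + ringKrullDim S
      ≤ 0 + ringKrullDim S := by gcongr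
    _ = ringKrullDim T := by rw [zero_add]; exact hd.symm

end Vale.Agent.P190.H128
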