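import Vale.Agent.P190.Bdl.B5

/-! Power series rings over complete regular local rings. -/

set_option autoImplicit false

namespace Vale.Agent.P190.H128

open Vale.Agent.P190 Vale.Agent.P190.D MvPowerSeries IsLocalRing RingTheory.Sequence

section

variable {σ V : Type} [CommRing V] [Fintype σ]

/-- power series whose coefficient in degree `m` lies in `I ^ (n - |m|)`. -/
def JI (σ : Type) (I : Ideal V) (n : ℕ) : Ideal (MvPowerSeries σ V) where
  carrier := {f | ∀ m : σ →₀ ℕ, coeff m f ∈ I ^ (n - m.degree)}
  zero_mem' := fun m => by rw [map_zero]; exact Ideal.zero_mem _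
  add_mem' := fun {a b} ha hb m => by rw [map_add]; exact Ideal.add_mem _ (ha m) (hb m)
  smul_mem' := fun c f hf m => by
    classical
    rw [smul_eq_mul, coeff_mul]
    refine Ideal.sum_mem _ fun ab hab => ?_
    rw [Finset.HasAntidiagonal.mem_antidiagonal] at hab
    have hb : ab.2.degree ≤ m.degree := by
      rw [← hab, map_add]; exact Nat.le_add_left _ _
    exact Ideal.mul_mem_left _ _ (Ideal.pow_le_pow_right (by omega) (hf ab.2))

omit [Fintype σ] in
theorem mem_JI {I : Ideal V} {n : ℕ} {f : MvPowerSeries σ V} :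
    f ∈ JI σ I n ↔ ∀ m : σ →₀ ℕ, coeff m f ∈ I ^ (n - m.degree) := Iff.rfl

omit [Fintype σ] in
theorem JI_mul (I : Ideal V) (a b : ℕ) : JI σ I a * JI σ I b ≤ JI σ I (a + b) := by
  classical
  rw [Ideal.mul_le]
  intro f hf g hg m
  rw [coeff_mul]
  refine Ideal.sum_mem _ fun uv huv => ?_
  rw [Finset.HasAntidiagonal.mem_antidiagonal] at huv
  have hd : uv.1.degree + uv.2.degree = m.degree := by rw [← map_add, huv]
  have h1 := Ideal.mul_mem_mul (hf uv.1) (hg uv.2)
  rw [← pow_add] at h1
  exact Ideal.pow_le_pow_right (by omega) h1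

theorem exists_decompV (f : MvPowerSeries σ V) (hf : constantCoeff f = 0) :
    ∃ g : σ → MvPowerSeries σ V, f = ∑ s, X s * g s ∧
      ∀ (I : Ideal V) (n : ℕ), f ∈ JI σ I (n + 1) → ∀ s, g s ∈ JI σ I n := by
  classical
  have hc : ∀ m : σ →₀ ℕ, ∃ s : Option σ, (m ≠ 0 → ∃ t, s = some t ∧ m t ≠ 0) := by
    intro m
    by_cases h : m = 0
    · exact ⟨none, fun h' => absurd h h'⟩
    · obtain ⟨t, ht⟩ := Finsupp.ne_iff.mp h
      exact ⟨some t, fun _ => ⟨t, rfl, by simpa only [ne_eq, Finsupp.coe_zero, Pi.zero_apply] using ht⟩⟩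
  choose c hc using hc
  let g : σ → MvPowerSeries σ V := fun s m =>
    if c (m + Finsupp.single s 1) = some s then coeff (m + Finsupp.single s 1) f else 0
  have hg : ∀ s m, coeff m (g s) =
      if c (m + Finsupp.single s 1) = some s then coeff (m + Finsupp.single s 1) f else 0 :=
    fun s m => rfl
  refine ⟨g, ?_, ?_⟩
  · ext m
    rw [map_sum]
    have h1 : ∀ s, coeff m (X s * g s) = if c m = some s ∧ m s ≠ 0 then coeff m f else 0 := by
      intro s
      rw [show (X s : MvPowerSeries σ V) = monomial (Finsupp.single s 1) 1 from rfl,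
        coeff_monomial_mul]
      by_cases h : m s = 0
      · have h2 : ¬ Finsupp.single s 1 ≤ m := by
          intro h3
          have := h3 s
          rw [Finsupp.single_eq_same, h] at this
          omega
        rw [if_neg h2, if_neg (fun h3 => h3.2 h)]
      · have h2 : Finsupp.single s 1 ≤ m := by
          rw [Finsupp.single_le_iff]
          omega
        rw [if_pos h2, one_mul, hg, tsub_add_cancel_of_le h2]
        simp only [ne_eq, h, not_false_eq_true, and_true]
    simp only [h1]
    by_cases hm : m = 0
    · subst hm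
      have : coeff 0 f = 0 := hf
      simp only [this, Finsupp.coe_zero, Pi.zero_apply, ne_eq, not_true_eq_false, and_false, ↓reduceIte, Finset.sum_const_zero]
    · obtain ⟨t, ht1, ht2⟩ := hc m hm
      rw [Finset.sum_eq_single t]
      · rw [if_pos ⟨ht1, ht2⟩]
      · intro s _ hs
        rw [if_neg]
        rintro ⟨h3, -⟩
        rw [ht1] at h3
        exact hs (Option.some.inj h3).symm
      · intro h; exact absurd (Finset.mem_univ t) h
  · intro I n hn s m
    rw [hg]
    split_ifs
    · have h2 := hn (m + Finsupp.single s 1)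
      rw [map_add, Finsupp.degree_single] at h2
      have h3 : n + 1 - (m.degree + 1) = n - m.degree := by omega
      rwa [h3] at h2
    · exact Ideal.zero_mem _

variable [IsLocalRing V]

omit [Fintype σ] in
theorem mem_max_iff (f : MvPowerSeries σ V) :
    f ∈ maximalIdeal (MvPowerSeries σ V) ↔ constantCoeff f ∈ maximalIdeal V := by
  rw [IsLocalRing.mem_maximalIdeal, mem_nonunits_iff, MvPowerSeries.isUnit_iff_constantCoeff,
    IsLocalRing.mem_maximalIdeal, mem_nonunits_iff]

omit [Fintype σ] in
theorem max_le_JI : maximalIdeal (MvPowerSeries σ V) ≤ JI σ (maximalIdeal V) 1 := by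
  intro f hf m
  rw [mem_max_iff] at hf
  by_cases h : m = 0
  · subst h
    simpa using hf
  · have : 1 - m.degree = 0 := by
      have : m.degree ≠ 0 := fun h' => h ((Finsupp.degree_eq_zero_iff m).1 h')
      omega
    rw [this, pow_zero, Ideal.one_eq_top]
    exact Submodule.mem_top

omit [Fintype σ] in
theorem pow_le_JI (n : ℕ) :
    maximalIdeal (MvPowerSeries σ V) ^ n ≤ JI σ (maximalIdeal V) n := by
  induction n with
  | zero =>
    intro f _ m
    rw [Nat.zero_sub, pow_zero, Ideal.one_eq_top]
    exact Submodule.mem_top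
  | succ n ih =>
    rw [pow_succ]
    exact (Ideal.mul_mono ih max_le_JI).trans (JI_mul _ n 1)

omit [Fintype σ] in
theorem C_mem_pow {a : V} {n : ℕ} (h : a ∈ maximalIdeal V ^ n) :
    (C a : MvPowerSeries σ V) ∈ maximalIdeal (MvPowerSeries σ V) ^ n := by
  have h1 : (maximalIdeal V).map (C : V →+* MvPowerSeries σ V) ≤
      maximalIdeal (MvPowerSeries σ V) := by
    rw [Ideal.map_le_iff_le_comap]
    intro x hx
    rw [Ideal.mem_comap, mem_max_iff, constantCoeff_C]
    exact hx
  have h2 : (maximalIdeal V ^ n).map (C : V →+* MvPowerSeries σ V) ≤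
      maximalIdeal (MvPowerSeries σ V) ^ n := by
    rw [Ideal.map_pow]
    exact Ideal.pow_right_mono h1 n
  exact h2 (Ideal.mem_map_of_mem _ h)

theorem JI_le_pow (n : ℕ) :
    JI σ (maximalIdeal V) n ≤ maximalIdeal (MvPowerSeries σ V) ^ n := by
  induction n with
  | zero => rw [pow_zero, Ideal.one_eq_top]; exact le_top
  | succ n ih =>
    intro f hf
    have h0 : constantCoeff (f - C (constantCoeff f)) = 0 := by
      rw [map_sub, constantCoeff_C, sub_self]
    have h1 : constantCoeff f ∈ maximalIdeal V ^ (n + 1) := by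
      have := hf 0
      rw [map_zero, Nat.sub_zero] at this
      exact this
    have h2 : f - C (constantCoeff f) ∈ JI σ (maximalIdeal V) (n + 1) := by
      refine Ideal.sub_mem _ hf (pow_le_JI _ (C_mem_pow h1))
    obtain ⟨g, hg1, hg2⟩ := exists_decompV _ h0
    have h3 : f = C (constantCoeff f) + ∑ s, X s * g s := by rw [← hg1]; ring
    rw [h3]
    refine Ideal.add_mem _ (C_mem_pow h1) (Ideal.sum_mem _ fun s _ => ?_)
    rw [pow_succ']
    refine Ideal.mul_mem_mul ?_ (ih (hg2 _ n h2 s))
    rw [mem_max_iff, constantCoeff_X]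
    exact Ideal.zero_mem _

theorem isAdicCompleteV [IsNoetherianRing V] (hV : IsAdicComplete (maximalIdeal V) V) :
    IsAdicComplete (maximalIdeal (MvPowerSeries σ V)) (MvPowerSeries σ V) := by
  have hN : IsNoetherianRing (MvPowerSeries σ V) := inferInstance
  refine { prec' := ?_ }
  intro f hf
  have h1 : ∀ {m n : ℕ}, m ≤ n → f m - f n ∈ JI σ (maximalIdeal V) m := by
    intro m n hmn
    have := SModEq.sub_mem.mp (hf hmn)
    rw [smul_eq_mul, Ideal.mul_top] at this
    exact pow_le_JI m this
  have h2 : ∀ m : σ →₀ ℕ, ∃ L : V, ∀ n,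
      coeff m (f (n + m.degree)) ≡ L [SMOD (maximalIdeal V ^ n • ⊤ : Submodule V V)] := by
    intro m
    refine hV.prec' (fun n => coeff m (f (n + m.degree))) ?_
    intro a b hab
    rw [SModEq.sub_mem, smul_eq_mul, Ideal.mul_top, ← map_sub]
    have h3 := h1 (m := a + m.degree) (n := b + m.degree) (by omega) m
    rwa [Nat.add_sub_cancel] at h3
  choose L hL using h2
  let Lf : MvPowerSeries σ V := fun m => L m
  have hLc : ∀ m, coeff m Lf = L m := fun m => rfl
  refine ⟨Lf, fun n => ?_⟩
  rw [SModEq.sub_mem, smul_eq_mul, Ideal.mul_top]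
  apply JI_le_pow
  intro m
  rw [map_sub, hLc]
  by_cases hmn : m.degree ≤ n
  · have h3 := hL m (n - m.degree)
    rw [Nat.sub_add_cancel hmn, SModEq.sub_mem, smul_eq_mul, Ideal.mul_top] at h3
    exact h3
  · have : n - m.degree = 0 := by omega
    rw [this, pow_zero, Ideal.one_eq_top]
    exact Submodule.mem_top

end

section

variable {σ V : Type} [CommRing V]

/-- Distinct variables form a weakly regular sequence. -/
theorem isWeaklyRegular_XV (l : List σ) (hl : l.Nodup) :
    IsWeaklyRegular (MvPowerSeries σ V) (l.map (fun j => (X j : MvPowerSeries σ V))) := by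
  classical
  refine ⟨?_⟩
  intro i hi
  rw [List.length_map] at hi
  rw [List.getElem_map, ← List.map_take]
  have e : Ideal.ofList ((l.take i).map (fun j => (X j : MvPowerSeries σ V))) =
      cIdeal V (l.take i).toFinset (fun _ => 1) := by
    rw [cIdeal_eq_span]
    unfold Ideal.ofList
    congr 1
    ext y
    simp only [List.mem_map, Set.mem_ofPred_eq, List.coe_toFinset, Set.mem_image, pow_one]
  rw [isSMulRegular_quotient_iff_mem_of_smul_mem]
  intro f hf
  rw [e] at hf ⊢
  rw [smul_eq_mul, Ideal.mul_top] at hf ⊢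
  rw [smul_eq_mul] at hf
  apply cIdeal_regular (i := l[i]) _ 1 (by rwa [pow_one])
  rw [List.mem_toFinset]
  intro hmem
  rw [List.mem_take_iff_getElem] at hmem
  obtain ⟨j, hj, hji⟩ := hmem
  have := (List.Nodup.getElem_inj_iff hl).mp hji
  omega

/-- the list of the variables -/
noncomputable def vars (d : ℕ) (V : Type) [CommRing V] : List (MvPowerSeries (Fin d) V) :=
  ((Finset.univ : Finset (Fin d)).toList).map (fun s => (X s : MvPowerSeries (Fin d) V))

theorem vars_length (d : ℕ) : (vars d V).length = d := by
  rw [vars, List.length_map, Finset.length_toList, Finset.card_univ, Fintype.card_fin]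

theorem ofList_vars (d : ℕ) (f : MvPowerSeries (Fin d) V) :
    f ∈ Ideal.ofList (vars d V) ↔ constantCoeff f = 0 := by
  classical
  have e : Ideal.ofList (vars d V) = cIdeal V (Finset.univ : Finset (Fin d)) (fun _ => 1) := by
    rw [cIdeal_eq_span]
    unfold Ideal.ofList
    congr 1
    ext y
    simp only [vars, List.mem_map, Finset.mem_toList, Finset.mem_univ, true_and,
      Set.mem_ofPred_eq, Finset.coe_univ, Set.image_univ, pow_one, Set.mem_range]
  rw [e, mem_cIdeal]
  constructor
  · intro h
    exact h 0 (by simp)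
  · intro h m hm
    have : m = 0 := by
      ext j
      have := hm j (Finset.mem_univ j)
      simpa only [Finsupp.coe_zero, Pi.zero_apply, Order.lt_one_iff] using this
    rw [this]
    exact h

/-- the parameters of the power series ring -/
noncomputable def pars (d : ℕ) (ys : List V) : List (MvPowerSeries (Fin d) V) :=
  vars d V ++ ys.map (algebraMap V (MvPowerSeries (Fin d) V))

theorem pars_length (d : ℕ) (ys : List V) : (pars d ys).length = ys.length + d := by
  rw [pars, List.length_append, vars_length, List.length_map, add_comm]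

theorem algMap_eq_C (d : ℕ) (a : V) :
    algebraMap V (MvPowerSeries (Fin d) V) a = C a := rfl

theorem isParV [IsLocalRing V] (d : ℕ) {ys : List V} (h : IsPar V ys) :
    IsPar (MvPowerSeries (Fin d) V) (pars d ys) where
  reg := by
    rw [pars, isWeaklyRegular_append_iff]
    refine ⟨isWeaklyRegular_XV _ (Finset.nodup_toList _), ?_⟩
    rw [isWeaklyRegular_map_algebraMap_iff]
    let q : MvPowerSeries (Fin d) V →ₗ[V] V :=
      { toFun := fun f => constantCoeff f
        map_add' := fun f g => map_add _ f g
        map_smul' := fun a f => by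
          rw [Algebra.smul_def, map_mul, algMap_eq_C, constantCoeff_C]; rfl }
    have hq : Function.Surjective q := fun a =>
      ⟨C a, show constantCoeff (C a : MvPowerSeries (Fin d) V) = a from constantCoeff_C a⟩
    have hk : (Ideal.ofList (vars d V) • (⊤ : Submodule (MvPowerSeries (Fin d) V)
        (MvPowerSeries (Fin d) V))).restrictScalars V = LinearMap.ker q := by
      ext f
      rw [Submodule.restrictScalars_mem, smul_eq_mul, Ideal.mul_top, ofList_vars,
        LinearMap.mem_ker]
      rfl
    let e1 : (MvPowerSeries (Fin d) V ⧸ (Ideal.ofList (vars d V) •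
        (⊤ : Submodule (MvPowerSeries (Fin d) V) (MvPowerSeries (Fin d) V)))) ≃ₗ[V]
        (MvPowerSeries (Fin d) V ⧸ LinearMap.ker q) :=
      (Submodule.Quotient.restrictScalarsEquiv V _).symm.trans (Submodule.quotEquivOfEq _ _ hk)
    have e2 := q.quotKerEquivOfSurjective hq
    exact ((e1.trans e2).isWeaklyRegular_congr ys).2 h.reg
  gen := by
    rw [pars, Ideal.ofList_append]
    apply le_antisymm
    · refine sup_le ?_ ?_
      · intro f hf
        rw [ofList_vars] at hf
        rw [mem_max_iff, hf]
        exact Ideal.zero_mem _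
      · unfold Ideal.ofList
        rw [Ideal.span_le]
        intro f hf
        obtain ⟨y, hy, rfl⟩ := List.mem_map.1 hf
        change _ ∈ maximalIdeal _
        rw [mem_max_iff, algMap_eq_C, constantCoeff_C, ← h.gen]
        exact Ideal.subset_span hy
    · intro f hf
      rw [mem_max_iff] at hf
      have h3 : f = (f - C (constantCoeff f)) + C (constantCoeff f) := by ring
      rw [h3]
      refine Submodule.add_mem_sup ?_ ?_
      · rw [ofList_vars, map_sub, constantCoeff_C, sub_self]
      · rw [← Ideal.map_ofList]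
        have h4 : constantCoeff f ∈ Ideal.ofList ys := by rw [h.gen]; exact hf
        exact Ideal.mem_map_of_mem (algebraMap V (MvPowerSeries (Fin d) V)) h4

theorem archDivV (σ : Type) [Finite σ] [IsDomain V] [IsNoetherianRing V] (h : ArchDiv V) :
    ArchDiv (MvPowerSeries σ V) := by
  have key : ∀ n : ℕ, ArchDiv (MvPowerSeries (Fin n) V) := by
    intro n
    induction n with
    | zero => exact archDiv_of_ringEquiv (MvPowerSeries.isEmptyEquiv (Fin 0) V).toRingEquiv.symm h
    | succ n ih =>
      have : IsDomain (MvPowerSeries (Fin n) V) := NoZeroDivisors.to_isDomain _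
      exact archDiv_of_ringEquiv (MvPowerSeries.finSuccEquiv V n).toRingEquiv.symm
        (archDiv_powerSeries ih)
  cases nonempty_fintype σ
  exact archDiv_of_ringEquiv (MvPowerSeries.renameEquiv V (Fintype.equivFin σ)).toRingEquiv.symm
    (key (Fintype.card σ))

/-- a Noetherian integrally closed domain is completely integrally closed -/
theorem archDiv_of_isIntegrallyClosed [IsDomain V] [IsNoetherianRing V] [IsIntegrallyClosed V] :
    ArchDiv V := by
  intro a b c hc h
  by_cases hb : b = 0
  · have := h 1
    rw [pow_one, pow_one, hb, zero_dvd_iff, mul_eq_zero] at this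
    rw [hb, this.resolve_left hc]
  let K := FractionRing V
  have hbK : algebraMap V K b ≠ 0 := by
    rwa [ne_eq, FaithfulSMul.algebraMap_eq_zero_iff]
  have hcK : algebraMap V K c ≠ 0 := by
    rwa [ne_eq, FaithfulSMul.algebraMap_eq_zero_iff]
  let x : K := algebraMap V K a / algebraMap V K b
  have hx : IsIntegral V x := by
    let N : Submodule V K := Submodule.span V {(algebraMap V K c)⁻¹}
    have hpow : ∀ n : ℕ, x ^ n ∈ N := by
      intro n
      obtain ⟨y, hy⟩ := h n
      rw [Submodule.mem_span_singleton]
      refine ⟨y, ?_⟩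
      have h1 := congrArg (algebraMap V K) hy
      rw [map_mul, map_mul, map_pow, map_pow] at h1
      rw [Algebra.smul_def, div_pow, eq_div_iff (pow_ne_zero _ hbK), mul_right_comm, mul_comm _
        (algebraMap V K b ^ n), ← h1, mul_right_comm, mul_inv_cancel₀ hcK, one_mul]
    have hle : Subalgebra.toSubmodule (Algebra.adjoin V {x}) ≤ N := by
      intro z hz
      rw [Subalgebra.mem_toSubmodule, Algebra.adjoin_singleton_eq_range_aeval] at hz
      obtain ⟨p, rfl⟩ := hz
      change Polynomial.aeval x p ∈ N
      rw [Polynomial.aeval_eq_sum_range]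
      exact Submodule.sum_mem _ fun i _ => Submodule.smul_mem _ _ (hpow i)
    have hN : IsNoetherian V N := isNoetherian_of_fg_of_noetherian N
      ⟨{(algebraMap V K c)⁻¹}, by simp [N]⟩
    have hfg : (Subalgebra.toSubmodule (Algebra.adjoin V {x})).FG :=
      isNoetherian_submodule.1 hN _ hle
    exact IsIntegral.of_mem_of_fg _ hfg x (Algebra.subset_adjoin (Set.mem_singleton x))
  obtain ⟨y, hy⟩ := IsIntegrallyClosed.isIntegral_iff.1 hx
  refine ⟨y, ?_⟩
  apply FaithfulSMul.algebraMap_injective V K
  rw [map_mul, hy]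
  change _ = _ * (algebraMap V K a / algebraMap V K b)
  rw [mul_comm, div_mul_cancel₀ _ hbK]

end

/-- Everything about the power series ring over a complete regular local ring. -/
theorem regBase (V : Type) [CommRing V] [IsDomain V] [IsLocalRing V] [IsNoetherianRing V]
    [CharZero V] (hA : ArchDiv V) (hV : IsAdicComplete (maximalIdeal V) V) {ys : List V}
    (h : IsPar V ys) (n : ℕ) :
    IsDomain (MvPowerSeries (Fin n) V) ∧ IsNoetherianRing (MvPowerSeries (Fin n) V) ∧
    CharZero (MvPowerSeries (Fin n) V) ∧ ArchDiv (MvPowerSeries (Fin n) V) ∧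
    IsIntegrallyClosed (MvPowerSeries (Fin n) V) ∧
    IsAdicComplete (maximalIdeal (MvPowerSeries (Fin n) V)) (MvPowerSeries (Fin n) V) ∧
    IsPar (MvPowerSeries (Fin n) V) (pars n ys) ∧ (pars n ys).length = ys.length + n ∧
    ringKrullDim V = (ys.length : ℕ) ∧
    ringKrullDim (MvPowerSeries (Fin n) V) = ringKrullDim V + (n : ℕ) := by
  have h0 : IsDomain (MvPowerSeries (Fin n) V) := NoZeroDivisors.to_isDomain _
  have h1 : ArchDiv (MvPowerSeries (Fin n) V) := archDivV (Fin n) hA
  have h2 : IsPar (MvPowerSeries (Fin n) V) (pars n ys) := isParV n h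
  have h3 : ringKrullDim V = (ys.length : ℕ) := n1_ringKrullDim_B h
  have h4 : ringKrullDim (MvPowerSeries (Fin n) V) = ((pars n ys).length : ℕ) :=
    n1_ringKrullDim_B h2
  refine ⟨h0, inferInstance, ?_, h1, isIntegrallyClosed_of_archDiv _ h1, isAdicCompleteV hV, h2,
    pars_length n ys, h3, ?_⟩
  · exact charZero_of_injective_algebraMap (R := V) (A := MvPowerSeries (Fin n) V)
      (by
        intro a b hab
        rw [algMap_eq_C, algMap_eq_C] at hab
        have := congrArg constantCoeff hab
        rwa [constantCoeff_C, constantCoeff_C] at this)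
  · rw [h4, h3, pars_length]
    push_cast
    rfl

end Vale.Agent.P190.H128
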