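import Vale.Agent.P190.H128.E19

/-! Complete domains: the obstructing extension can be taken normal. -/

set_option autoImplicit false

namespace Vale.Agent.P190.H128

open Vale.Agent.P190 Vale.Agent.P190.D IsLocalRing RingTheory.Sequence Vale.Agent.P190.H455

universe v

theorem dim_eq_of_finite (S S' : Type) [CommRing S] [CommRing S']
    [Algebra S S'] [Module.Finite S S'] (hinj : Function.Injective (algebraMap S S')) :
    ringKrullDim S' = ringKrullDim S := by
  have hint : Algebra.IsIntegral S S' := Algebra.IsIntegral.of_finite S S'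
  refine le_antisymm dim_le_of_integral ?_
  refine iSup_le fun l => ?_
  obtain ⟨P, -, hP, hP2⟩ := Ideal.exists_ideal_over_prime_of_isIntegral (S := S')
    l.head.asIdeal (⊥ : Ideal S') (by
      intro a ha
      rw [Ideal.mem_comap, Ideal.mem_bot] at ha
      rw [hinj (ha.trans (map_zero _).symm)]
      exact zero_mem _)
  have hlo : P.LiesOver l.head.asIdeal := ⟨hP2.symm⟩
  obtain ⟨L, hL, -⟩ := Ideal.exists_ltSeries_of_hasGoingUp l P
  rw [← hL]
  exact le_iSup (fun l : LTSeries (PrimeSpectrum S') => ((l.length : ℕ) : WithBot ℕ∞)) L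

theorem complete_cover (S : Type) [CommRing S] [IsDomain S]
    [IsLocalRing S] [IsNoetherianRing S] [CharZero S]
    (hS : IsAdicComplete (maximalIdeal S) S) (d : ℕ) (hd : ringKrullDim S = d)
    (h : 4 ≤ d ∨ 3 ≤ d ∧ CharZero (ResidueField S)) :
    ∃ (R : Type) (_ : CommRing R) (_ : IsLocalRing R) (_ : Algebra S R),
      Module.Finite S R ∧ Function.Injective (algebraMap S R) ∧ IsCounterexample.{v} R d ∧
      Obstructs.{v} S R := by
  obtain ⟨S', s1, s2, s3, hfin, hinj, hk⟩ := exists_cover_all.{v} S (by
    rw [hd]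
    rcases h with h | ⟨h, h'⟩
    · exact Or.inl (by exact_mod_cast h)
    · exact Or.inr ⟨by exact_mod_cast h, h'⟩)
  have hloc : IsLocalRing S' := n2_isLocalRing (B := S) hS
  have hcomp : IsAdicComplete (maximalIdeal S') S' := isAdicComplete_of_finite_local (A := S) hS
  have hN : IsNoetherianRing S' := IsNoetherianRing.of_finite S S'
  have hcz : CharZero S' := charZero_of_injective_algebraMap hinj
  have hd' : ringKrullDim S' = d := (dim_eq_of_finite S S' hinj).trans hd
  obtain ⟨R, r1, r2, r3, hfinR, hinjR, hR⟩ := main_all.{v} S' hcomp d hd' (by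
    rcases h with h | ⟨h, h'⟩
    · exact Or.inl h
    · refine Or.inr ⟨h, ?_⟩
      obtain ⟨iQ⟩ := exists_rat S
      let q : ℚ →+* ResidueField S' :=
        (residue S').comp ((algebraMap S S').comp (algebraMap ℚ S))
      exact charZero_of_injective_ringHom q.injective)
  let _ : Algebra S R := ((algebraMap S' R).comp (algebraMap S S')).toAlgebra
  have hst : IsScalarTower S S' R := IsScalarTower.of_algebraMap_eq fun _ => rfl
  exact ⟨R, r1, r2, inferInstance, Module.Finite.trans S' R, hinjR.comp hinj, hR,
    fun T _ _ _ g hg hdT => hk T (g.comp (algebraMap S' R)) hg hdT⟩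

end Vale.Agent.P190.H128
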