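import Vale.Agent.P190.Bdl.B5

/-! The finite extension of `ℤ[x₁,x₂,x₃]` behind the counterexample. -/

set_option autoImplicit false

namespace Vale.Agent.P190.H128

open Vale.Agent.P190.D Vale.Agent.P190 Polynomial

abbrev EQ : Type := AlgebraicClosure ℚ

abbrev A0 : Type := MvPolynomial (Fin 3) ℤ

instance algRatEQ : Algebra.IsAlgebraic ℚ EQ := AlgebraicClosure.isAlgebraic ℚ

instance algIntEQ : Algebra.IsAlgebraic ℤ EQ :=
  (IsFractionRing.comap_isAlgebraic_iff (A := ℤ) (K := ℚ) (C := EQ)).2 inferInstance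

/-- common denominators -/
theorem exists_common {ι : Type} [Finite ι] (f : ι → EQ) :
    ∃ n : ℤ, n ≠ 0 ∧ ∀ i, IsIntegral ℤ ((n : EQ) * f i) := by
  classical
  cases nonempty_fintype ι
  have h : ∀ i, ∃ y : ℤ, y ≠ 0 ∧ IsIntegral ℤ (y • f i) := fun i =>
    (Algebra.IsAlgebraic.isAlgebraic (R := ℤ) (f i)).exists_integral_multiple
  choose y hy hy2 using h
  refine ⟨∏ i, y i, Finset.prod_ne_zero_iff.2 fun i _ => hy i, fun i => ?_⟩
  rw [← Finset.prod_erase_mul _ _ (Finset.mem_univ i)]
  have h1 : (((∏ j ∈ Finset.univ.erase i, y j) * y i : ℤ) : EQ) * f i =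
      ((∏ j ∈ Finset.univ.erase i, y j : ℤ) : EQ) * (y i • f i) := by
    rw [zsmul_eq_mul]; push_cast; ring
  rw [h1]
  refine IsIntegral.mul ?_ (hy2 i)
  exact isIntegral_algebraMap (R := ℤ) (A := EQ)

/-- the constants of an arrangement -/
def cst (X : Arr EQ) : ((X.I × Fin 3) ⊕ (X.S ⊕ (X.S ⊕ X.S))) → EQ
  | .inl (x, i) => X.l x i
  | .inr (.inl t) => X.δ t
  | .inr (.inr (.inl t)) => X.η t
  | .inr (.inr (.inr t)) => X.ν t

theorem exists_intArr : ∃ X : Arr EQ, ∀ j, IsIntegral ℤ (cst X j) := by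
  classical
  obtain ⟨X0⟩ := exists_arr EQ (fun x => IsAlgClosed.exists_pow_nat_eq x (by norm_num))
  obtain ⟨n, hn, hn2⟩ := exists_common (cst X0)
  have hnE : (n : EQ) ≠ 0 := by exact_mod_cast hn
  have hnI : IsIntegral ℤ (n : EQ) := isIntegral_algebraMap (R := ℤ) (A := EQ)
  let c : X0.I → EQ := fun x => if x ∈ Set.range X0.b then 1 else n
  have hc : ∀ x, c x ≠ 0 := by
    intro x
    simp only [c]
    split_ifs
    · exact one_ne_zero
    · exact hnE
  have hcI : ∀ (x : X0.I) (a : EQ), IsIntegral ℤ ((n : EQ) * a) → IsIntegral ℤ ((n : EQ) ^ 2 * a / c x) := by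
    intro x a ha
    simp only [c]
    split_ifs
    · rw [div_one, sq, mul_assoc]
      exact hnI.mul ha
    · have : (n : EQ) ^ 2 * a / n = n * a := by field_simp
      rw [this]
      exact ha
  have H : X0.Red (fun x i => c x ^ 2 * X0.l x i) (fun t => (n : EQ) ^ 2 * X0.δ t / c (X0.d t))
      (fun t => (n : EQ) ^ 2 * X0.η t / c (X0.h t))
      (fun t => (n : EQ) ^ 2 * X0.ν t / c (X0.v t)) :=
    { l_b := fun i => by
        have h1 : c (X0.b i) = 1 := if_pos ⟨i, rfl⟩
        funext j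
        rw [h1, one_pow, one_mul, X0.l_b]
      δ_ne := fun t => div_ne_zero (mul_ne_zero (pow_ne_zero _ hnE) (X0.δ_ne t)) (hc _)
      η_ne := fun t => div_ne_zero (mul_ne_zero (pow_ne_zero _ hnE) (X0.η_ne t)) (hc _)
      ν_ne := fun t => div_ne_zero (mul_ne_zero (pow_ne_zero _ hnE) (X0.ν_ne t)) (hc _)
      rel := fun t => by
        funext i
        have h := congrFun (X0.rel t) i
        simp only [Pi.sub_apply, Pi.smul_apply, smul_eq_mul] at h ⊢
        have h1 := hc (X0.d t)
        have h2 := hc (X0.h t)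
        have h3 := hc (X0.v t)
        field_simp
        linear_combination h
      indep := fun x y z h1 h2 h3 => by
        refine (X0.indep x y z h1 h2 h3).imp (fun h => ?_) id
        let w : Fin 3 → EQˣ := ![Units.mk0 (c x ^ 2) (pow_ne_zero _ (hc x)),
          Units.mk0 (c y ^ 2) (pow_ne_zero _ (hc y)), Units.mk0 (c z ^ 2) (pow_ne_zero _ (hc z))]
        have h4 := h.units_smul w
        convert h4 using 1
        funext i
        fin_cases i <;> rfl
      two_ne := two_ne_zero }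
  refine ⟨X0.red _ _ _ _ H, ?_⟩
  rintro (⟨x, i⟩ | t | t | t)
  · change IsIntegral ℤ (c x ^ 2 * X0.l x i)
    by_cases hx : x ∈ Set.range X0.b
    · obtain ⟨j, rfl⟩ := hx
      have h1 : c (X0.b j) = 1 := if_pos ⟨j, rfl⟩
      rw [h1, one_pow, one_mul, X0.l_b]
      by_cases hij : i = j
      · subst hij; rw [Pi.single_eq_same]; exact isIntegral_one
      · rw [Pi.single_eq_of_ne hij]; exact isIntegral_zero
    · have h1 : c x = n := if_neg hx
      rw [h1, sq, mul_assoc]
      exact hnI.mul (hn2 (.inl (x, i)))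
  · exact hcI _ _ (hn2 (.inr (.inl t)))
  · exact hcI _ _ (hn2 (.inr (.inr (.inl t))))
  · exact hcI _ _ (hn2 (.inr (.inr (.inr t))))

theorem exists_prim {ι : Type} [Finite ι] (f : ι → EQ) :
    ∃ α : EQ, IsIntegral ℤ α ∧ ∀ i, ∃ P : ℚ[X], aeval α P = f i := by
  have hint : ∀ x : EQ, IsIntegral ℚ x := fun x => Algebra.IsIntegral.isIntegral x
  let L := IntermediateField.adjoin ℚ (Set.range f)
  have : FiniteDimensional ℚ L :=
    IntermediateField.finiteDimensional_adjoin fun x _ => hint x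
  obtain ⟨α, hα⟩ := Field.exists_primitive_element ℚ L
  obtain ⟨n, hn, hn2⟩ := exists_common (fun _ : Unit => (α : EQ))
  have hnE : (n : EQ) ≠ 0 := by exact_mod_cast hn
  refine ⟨n * (α : EQ), hn2 (), fun i => ?_⟩
  have hi : f i ∈ L := IntermediateField.subset_adjoin _ _ ⟨i, rfl⟩
  have h1 : (⟨f i, hi⟩ : L) ∈ (IntermediateField.adjoin ℚ {α}).toSubalgebra := by
    rw [hα]; trivial
  rw [IntermediateField.adjoin_simple_toSubalgebra_of_isAlgebraic
    (Algebra.IsAlgebraic.isAlgebraic α), Algebra.adjoin_singleton_eq_range_aeval] at h1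
  obtain ⟨P, hP⟩ := h1
  change aeval α P = _ at hP
  refine ⟨P.comp (C ((n : ℚ)⁻¹) * Polynomial.X), ?_⟩
  have h2 : aeval (α : EQ) P = f i := by
    have h3 := congrArg (algebraMap L EQ) hP
    rw [← aeval_algebraMap_apply] at h3
    exact h3
  rw [aeval_comp, map_mul, aeval_C, aeval_X, ← h2]
  congr 2
  rw [map_inv₀, map_intCast, inv_mul_cancel_left₀ hnE]

/-- evaluation of integral polynomials -/
noncomputable def ev {R : Type} [Ring R] (x : R) (Q : ℤ[X]) : R :=
  Polynomial.eval₂ (Int.castRingHom R) x Q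

theorem map_ev {R T : Type} [Ring R] [Ring T] (f : R →+* T) (x : R) (Q : ℤ[X]) :
    f (ev x Q) = ev (f x) Q := by
  unfold ev
  rw [Polynomial.hom_eval₂]
  congr 1
  exact RingHom.ext_int _ _

theorem ev_eq_aeval (x : EQ) (Q : ℤ[X]) : ev x Q = aeval x Q := by
  unfold ev
  rw [aeval_def]
  congr 1

/-- `e` and `s` are the same rational polynomial in `α` and `αS` -/
def Rel {S : Type} [CommRing S] (α : EQ) (αS : S) (e : EQ) (s : S) : Prop :=
  ∃ (m : ℤ) (Q : ℤ[X]), m ≠ 0 ∧ (m : EQ) * e = ev α Q ∧ (m : S) * s = ev αS Q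

/-- the data behind the counterexample -/
structure Pack where
  X : Arr EQ
  S : Type
  [cr : CommRing S]
  [dom : IsDomain S]
  [alg : Algebra A0 S]
  fin : Module.Finite A0 S
  inj : Function.Injective (algebraMap A0 S)
  α : EQ
  hα : IsIntegral ℤ α
  αS : S
  hαS : ev αS (minpoly ℤ α) = 0
  l : X.I → Fin 3 → S
  δ : X.S → S
  η : X.S → S
  ν : X.S → S
  hl : ∀ x i, Rel α αS (X.l x i) (l x i)
  hδ : ∀ t, Rel α αS (X.δ t) (δ t)
  hη : ∀ t, Rel α αS (X.η t) (η t)
  hν : ∀ t, Rel α αS (X.ν t) (ν t)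
  s : X.I → S
  G : (X.S → Bool) → S
  s_b : ∀ i, s (X.b i) = algebraMap A0 S (MvPolynomial.X i)
  s_sq : ∀ x, s x ^ 2 = ∑ i, l x i * algebraMap A0 S (MvPolynomial.X i) ^ 2
  pi_G : ∀ ε ε' : X.S → Bool,
    (∏ t, if ε t then δ t * s (X.d t) + η t * s (X.h t) else ν t * s (X.v t)) * G ε' =
    (∏ t, if ε' t then δ t * s (X.d t) + η t * s (X.h t) else ν t * s (X.v t)) * G ε
  G_G : ∀ ε ε' : X.S → Bool, G ε * G ε' =
    ∏ t, if ε t = ε' t then
        (if ε t then δ t * s (X.d t) + η t * s (X.h t) else δ t * s (X.d t) - η t * s (X.h t))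
      else ν t * s (X.v t)

attribute [instance] Pack.cr Pack.dom Pack.alg

theorem rel_of {R : Type} [CommRing R] (c : EQ →+* R) (α e : EQ) (h : ∃ P : ℚ[X], aeval α P = e)
    (S : Subring R) (αS s : S) (h1 : (αS : R) = c α) (h2 : (s : R) = c e) : Rel α αS e s := by
  obtain ⟨P, hP⟩ := h
  obtain ⟨m, hm, hmP⟩ := IsLocalization.integerNormalization_spec (nonZeroDivisors ℤ) P
  have h0 : (m : EQ) * e = ev α (IsLocalization.integerNormalization (nonZeroDivisors ℤ) P) := by
    rw [ev_eq_aeval, ← Polynomial.aeval_map_algebraMap ℚ α, hmP, map_zsmul, hP, zsmul_eq_mul]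
  refine ⟨m, IsLocalization.integerNormalization (nonZeroDivisors ℤ) P,
    nonZeroDivisors.ne_zero hm, h0, ?_⟩
  apply Subtype.val_injective
  change S.subtype ((m : S) * s) = S.subtype (ev αS _)
  rw [map_ev]
  change S.subtype ((m : S) * s) = ev (αS : R) _
  rw [map_mul, map_intCast, h1, ← map_ev c α, ← h0, map_mul, map_intCast]
  congr 1

theorem exists_pack : Nonempty Pack := by
  classical
  obtain ⟨X, hX⟩ := exists_intArr
  obtain ⟨α, hα, hP⟩ := exists_prim (cst X)
  obtain ⟨R, i1, i2, i3, D, hfin, hinj, -⟩ := exists_ring X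
  let cE : EQ →+* R := (algebraMap (Bh EQ) R).comp MvPowerSeries.C
  let φ : A0 →+* Bh EQ := algebraMap A0 (Bh EQ)
  have hφ : ∀ i, φ (MvPolynomial.X i) = MvPowerSeries.X i := by
    intro i
    simp only [φ]
    rw [MvPowerSeries.algebraMap_apply']
    simp
  have hφi : Function.Injective φ := by
    intro a b hab
    simp only [φ] at hab
    rw [MvPowerSeries.algebraMap_apply', MvPowerSeries.algebraMap_apply'] at hab
    apply MvPolynomial.coe_injective
    ext n
    have h1 := congrArg (MvPowerSeries.coeff n) hab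
    rw [MvPowerSeries.coeff_map, MvPowerSeries.coeff_map] at h1
    exact Int.cast_injective (α := EQ) (by simpa using h1)
  let iA : Algebra A0 R := ((algebraMap (Bh EQ) R).comp φ).toAlgebra
  have hA : ∀ a, algebraMap A0 R a = algebraMap (Bh EQ) R (φ a) := fun a => rfl
  have hAinj : Function.Injective (algebraMap A0 R) := hinj.comp hφi
  have hci : ∀ e : EQ, IsIntegral ℤ e → IsIntegral A0 (cE e) := by
    intro e he
    have h1 : IsIntegral ℤ (cE e) := he.map (cE.toIntAlgHom)
    exact h1.tower_top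
  have hs : ∀ x, IsIntegral A0 (D.s x) := by
    intro x
    apply IsIntegral.of_pow (n := 2) (by norm_num)
    rw [D.s_sq, map_sum]
    refine IsIntegral.sum _ fun i _ => ?_
    rw [map_mul, map_pow]
    refine IsIntegral.mul (hci _ (hX (.inl (x, i)))) ?_
    rw [← hφ, ← hA]
    exact isIntegral_algebraMap.pow 2
  have hG : ∀ ε, IsIntegral A0 (D.G ε) := by
    intro ε
    apply IsIntegral.of_pow (n := 2) (by norm_num)
    rw [sq, D.G_G]
    refine IsIntegral.prod _ fun t _ => ?_
    rw [if_pos rfl]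
    have h1 := (hci _ (hX (.inr (.inl t)))).mul (hs (X.d t))
    have h2 := (hci _ (hX (.inr (.inr (.inl t))))).mul (hs (X.h t))
    split_ifs
    · exact h1.add h2
    · exact h1.sub h2
  let gens : Set R := (Set.range fun j => cE (cst X j)) ∪ ({cE α} ∪ (Set.range D.s ∪ Set.range D.G))
  have hgen : ∀ x ∈ gens, IsIntegral A0 x := by
    rintro _ (⟨j, rfl⟩ | rfl | ⟨x, rfl⟩ | ⟨ε, rfl⟩)
    · exact hci _ (hX j)
    · exact hci _ hα
    · exact hs x
    · exact hG ε
  have hfg : gens.Finite := (Set.finite_range _).union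
    ((Set.finite_singleton _).union ((Set.finite_range _).union (Set.finite_range _)))
  let S : Subalgebra A0 R := Algebra.adjoin A0 gens
  have m1 : ∀ j, cE (cst X j) ∈ S := fun j => Algebra.subset_adjoin (Or.inl ⟨j, rfl⟩)
  have m2 : cE α ∈ S := Algebra.subset_adjoin (Or.inr (Or.inl rfl))
  have m3 : ∀ x, D.s x ∈ S := fun x => Algebra.subset_adjoin (Or.inr (Or.inr (Or.inl ⟨x, rfl⟩)))
  have m4 : ∀ ε, D.G ε ∈ S := fun ε => Algebra.subset_adjoin (Or.inr (Or.inr (Or.inr ⟨ε, rfl⟩)))
  have hv : Function.Injective S.val := Subtype.val_injective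
  let cS : ((X.I × Fin 3) ⊕ (X.S ⊕ (X.S ⊕ X.S))) → S := fun j => ⟨cE (cst X j), m1 j⟩
  let αS : S := ⟨cE α, m2⟩
  have hrel : ∀ j, Rel α αS (cst X j) (cS j) := fun j =>
    rel_of cE α (cst X j) (hP j) S.toSubring αS (cS j) rfl rfl
  refine ⟨{ X := X, S := S, fin := Algebra.finite_adjoin_of_finite_of_isIntegral hfg hgen
            inj := ?_
            α := α, hα := hα, αS := αS
            hαS := ?_
            l := fun x i => cS (.inl (x, i))
            δ := fun t => cS (.inr (.inl t))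
            η := fun t => cS (.inr (.inr (.inl t)))
            ν := fun t => cS (.inr (.inr (.inr t)))
            hl := fun x i => hrel (.inl (x, i))
            hδ := fun t => hrel (.inr (.inl t))
            hη := fun t => hrel (.inr (.inr (.inl t)))
            hν := fun t => hrel (.inr (.inr (.inr t)))
            s := fun x => ⟨D.s x, m3 x⟩
            G := fun ε => ⟨D.G ε, m4 ε⟩
            s_b := ?_, s_sq := ?_, pi_G := ?_, G_G := ?_ }⟩
  · intro a b hab
    exact hAinj (congrArg S.val hab)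
  · apply hv
    have h1 := map_ev (S.val : S →+* R) αS (minpoly ℤ α)
    change (S.val : S →+* R) _ = _
    rw [h1]
    change ev (cE α) (minpoly ℤ α) = S.val 0
    rw [← map_ev, ev_eq_aeval, minpoly.aeval, map_zero, map_zero]
  · intro i
    apply hv
    change D.s (X.b i) = algebraMap A0 R (MvPolynomial.X i)
    rw [D.s_b, hA, hφ]
  · intro x
    apply hv
    rw [map_pow, map_sum]
    change D.s x ^ 2 = ∑ i, S.val (cS (.inl (x, i)) * algebraMap A0 S (MvPolynomial.X i) ^ 2)
    rw [D.s_sq, map_sum]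
    refine Finset.sum_congr rfl fun i _ => ?_
    rw [map_mul, map_mul, map_pow, map_pow, ← hφ, ← hA]
    rfl
  · intro ε ε'
    apply hv
    rw [map_mul, map_mul, map_prod, map_prod]
    simp only [apply_ite S.val, map_add, map_mul]
    exact D.pi_G ε ε'
  · intro ε ε'
    apply hv
    rw [map_mul, map_prod]
    simp only [apply_ite S.val, map_add, map_mul, map_sub]
    exact D.G_G ε ε'

end Vale.Agent.P190.H128
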