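import Vale.Agent.P190.H128.E1
import Vale.Agent.P190.H128.E3

/-! No module over the finite extension of `ℤ[x₁,x₂,x₃]` is finite free over the power series. -/

set_option autoImplicit false

namespace Vale.Agent.P190.H128

open Vale.Agent.P190.D Vale.Agent.P190 Polynomial

theorem inj_prod {Ω R M : Type} [Field Ω] [CommRing R] (g : Ω →+* R)
    [AddCommGroup M] [Module R M] (T : Module.End R M) (s : Multiset Ω)
    (h : ∀ a ∈ s, Function.Injective (aeval T ((X - C a : Polynomial Ω).map g))) :
    Function.Injective (aeval T (((s.map fun a => X - C a).prod).map g)) := by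
  induction s using Multiset.induction with
  | empty =>
    rw [Multiset.map_zero, Multiset.prod_zero, Polynomial.map_one, map_one]
    exact fun x y h => h
  | cons a s ih =>
    rw [Multiset.map_cons, Multiset.prod_cons, Polynomial.map_mul, map_mul]
    exact (h a (Multiset.mem_cons_self a s)).comp
      (ih fun b hb => h b (Multiset.mem_cons_of_mem hb))

/-- an endomorphism annihilated by a separable polynomial has an eigenspace which is a nonzero
direct summand. -/
theorem exists_eigen {Ω R M : Type} [Field Ω] [IsAlgClosed Ω] [CommRing R] (g : Ω →+* R)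
    [AddCommGroup M] [Module R M] [Nontrivial M] (T : Module.End R M) (F : Polynomial Ω)
    (hm : F.Monic) (hs : F.Separable) (hF : aeval T (F.map g) = 0) :
    ∃ a : Ω, F.IsRoot a ∧ ∃ N N' : Submodule R M, IsCompl N N' ∧ N ≠ ⊥ ∧
      ∀ x, x ∈ N ↔ T x = g a • x := by
  have hsp := (IsAlgClosed.splits F).eq_prod_roots_of_monic hm
  have h1 : ∃ a ∈ F.roots, ¬ Function.Injective (aeval T ((X - C a : Polynomial Ω).map g)) := by
    by_contra hcon
    push Not at hcon
    have h2 := inj_prod g T F.roots hcon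
    rw [← hsp, hF] at h2
    obtain ⟨x, hx⟩ := exists_ne (0 : M)
    exact hx (h2 rfl)
  obtain ⟨a, ha, hni⟩ := h1
  have hroot : F.IsRoot a := Polynomial.isRoot_of_mem_roots ha
  have hG : (X - C a) * (F /ₘ (X - C a)) = F := mul_divByMonic_eq_iff_isRoot.2 hroot
  have hcop : IsCoprime (X - C a) (F /ₘ (X - C a)) := by
    rw [← hG] at hs
    exact hs.isCoprime
  have hcop2 : IsCoprime ((X - C a : Polynomial Ω).map g) ((F /ₘ (X - C a)).map g) :=
    hcop.map (mapRingHom g)
  refine ⟨a, hroot, LinearMap.ker (aeval T ((X - C a : Polynomial Ω).map g)),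
    LinearMap.ker (aeval T ((F /ₘ (X - C a)).map g)), ⟨disjoint_ker_aeval_of_isCoprime T hcop2, ?_⟩,
    ?_, ?_⟩
  · rw [codisjoint_iff, sup_ker_aeval_eq_ker_aeval_mul_of_coprime T hcop2, ← Polynomial.map_mul,
      hG, hF, LinearMap.ker_zero]
  · intro hb
    exact hni (LinearMap.ker_eq_bot.1 hb)
  · intro x
    rw [LinearMap.mem_ker, Polynomial.map_sub, map_X, map_C, map_sub, aeval_X, aeval_C,
      LinearMap.sub_apply, sub_eq_zero, Module.algebraMap_end_apply]

theorem indep_map {K L : Type} [Field K] [Field L] (τ : K →+* L) (x y z : Fin 3 → K)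
    (h : LinearIndependent K ![x, y, z]) :
    LinearIndependent L ![fun i => τ (x i), fun i => τ (y i), fun i => τ (z i)] := by
  have h1 : IsUnit (Matrix.of ![x, y, z]) := Matrix.linearIndependent_rows_iff_isUnit.1 h
  have h2 := h1.map τ.mapMatrix
  have h3 := Matrix.linearIndependent_rows_iff_isUnit.2 h2
  convert h3 using 1
  funext i j
  fin_cases i <;> rfl

/-- the arrangement over the big field -/
theorem redH (X : Arr EQ) {Ω : Type} [Field Ω] [CharZero Ω] (τ : EQ →+* Ω) :
    X.Red (fun x i => τ (X.l x i)) (fun t => τ (X.δ t)) (fun t => τ (X.η t))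
      (fun t => τ (X.ν t)) :=
  { l_b := fun i => by
      funext j
      rw [X.l_b]
      by_cases h : j = i
      · subst h; rw [Pi.single_eq_same, Pi.single_eq_same, map_one]
      · rw [Pi.single_eq_of_ne h, Pi.single_eq_of_ne h, map_zero]
    δ_ne := fun t h => X.δ_ne t (τ.injective (h.trans (map_zero τ).symm))
    η_ne := fun t h => X.η_ne t (τ.injective (h.trans (map_zero τ).symm))
    ν_ne := fun t h => X.ν_ne t (τ.injective (h.trans (map_zero τ).symm))
    rel := fun t => by
      funext i
      have h := congrArg τ (congrFun (X.rel t) i)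
      simp only [Pi.sub_apply, Pi.smul_apply, smul_eq_mul, map_sub, map_mul, map_pow] at h ⊢
      exact h
    indep := fun x y z h1 h2 h3 =>
      (X.indep x y z h1 h2 h3).imp (fun h => indep_map τ _ _ _ h) id
    two_ne := two_ne_zero }

theorem exists_rdata (P : Pack) {Ω : Type} [Field Ω] [CharZero Ω] (N : Type) [AddCommGroup N]
    [Module (Bh Ω) N] (τ : EQ →+* Ω)
    (ρN : P.S →+* Module.End (Bh Ω) N)
    (hρX : ∀ i, ρN (algebraMap A0 P.S (MvPolynomial.X i)) =
      algebraMap (Bh Ω) (Module.End (Bh Ω) N) (MvPowerSeries.X i))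
    (hrel : ∀ e s, Rel P.α P.αS e s →
      ρN s = algebraMap (Bh Ω) (Module.End (Bh Ω) N) (MvPowerSeries.C (τ e))) :
    ∃ (Q : Type) (_ : CommRing Q) (_ : Algebra (Bh Ω) Q) (_ : Module Q N)
      (_ : IsScalarTower (Bh Ω) Q N),
      Nonempty (RData (P.X.red _ _ _ _ (redH P.X τ)) Q) := by
  classical
  have hcomm : ∀ x ∈ Set.range ρN, ∀ y ∈ Set.range ρN, x * y = y * x := by
    rintro _ ⟨s, rfl⟩ _ ⟨t, rfl⟩
    rw [← map_mul, ← map_mul, mul_comm]
  let Q : Subalgebra (Bh Ω) (Module.End (Bh Ω) N) := Algebra.adjoin (Bh Ω) (Set.range ρN)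
  have hQ : IsMulCommutative Q := Algebra.isMulCommutative_adjoin (Bh Ω) hcomm
  let iQ : CommRing Q := { (inferInstance : Ring Q) with mul_comm := hQ.is_comm.comm }
  let ρQ : P.S →+* Q :=
    { toFun := fun s => ⟨ρN s, Algebra.subset_adjoin ⟨s, rfl⟩⟩
      map_one' := Subtype.ext (map_one ρN)
      map_mul' := fun s t => Subtype.ext (map_mul ρN s t)
      map_zero' := Subtype.ext (map_zero ρN)
      map_add' := fun s t => Subtype.ext (map_add ρN s t) }
  have hX : ∀ i, ρQ (algebraMap A0 P.S (MvPolynomial.X i)) =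
      algebraMap (Bh Ω) Q (MvPowerSeries.X i) := fun i => Subtype.ext (hρX i)
  have hc : ∀ e s, Rel P.α P.αS e s → ρQ s = algebraMap (Bh Ω) Q (MvPowerSeries.C (τ e)) :=
    fun e s h => Subtype.ext (hrel e s h)
  refine ⟨Q, iQ, inferInstance, inferInstance, inferInstance, ⟨?_⟩⟩
  exact
    { s := fun x => ρQ (P.s x)
      G := fun ε => ρQ (P.G ε)
      s_b := fun i => by
        change ρQ (P.s (P.X.b i)) = _
        rw [P.s_b, hX]
      s_sq := fun x => by
        change ρQ (P.s x) ^ 2 = _
        rw [← map_pow, P.s_sq, map_sum, map_sum]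
        refine Finset.sum_congr rfl fun i _ => ?_
        rw [map_mul, map_mul, map_pow, map_pow, hX, hc _ _ (P.hl x i)]
      pi_G := fun ε ε' => by
        have h := congrArg ρQ (P.pi_G ε ε')
        rw [map_mul, map_mul, map_prod, map_prod] at h
        simp only [apply_ite ρQ, map_add, map_mul, fun t => hc _ _ (P.hδ t),
          fun t => hc _ _ (P.hη t), fun t => hc _ _ (P.hν t)] at h
        exact h
      G_G := fun ε ε' => by
        have h := congrArg ρQ (P.G_G ε ε')
        rw [map_mul, map_prod] at h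
        simp only [apply_ite ρQ, map_add, map_sub, map_mul, fun t => hc _ _ (P.hδ t),
          fun t => hc _ _ (P.hη t), fun t => hc _ _ (P.hν t)] at h
        exact h }

theorem core2 (P : Pack) (U : Ultrafilter ℕ) (k : ℕ → Type) [∀ i, Field (k i)]
    (hU : (U : Filter ℕ) ≤ Filter.atTop) (p : ℕ → ℕ)
    (hp : ∀ i, (p i).Prime) (hp' : Filter.Tendsto p Filter.atTop Filter.atTop)
    [∀ i, IsAlgClosed (k i)] [∀ i, CharP (k i) (p i)] [CharZero (UK U k)]
    (N : Type) [AddCommGroup N] [Module (Bh (UK U k)) N] [Module.Free (Bh (UK U k)) N]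
    [Module.Finite (Bh (UK U k)) N] [Nontrivial N] (τ : EQ →+* UK U k)
    (ρN : P.S →+* Module.End (Bh (UK U k)) N)
    (hρX : ∀ i, ρN (algebraMap A0 P.S (MvPolynomial.X i)) =
      algebraMap (Bh (UK U k)) (Module.End (Bh (UK U k)) N) (MvPowerSeries.X i))
    (hrel : ∀ e s, Rel P.α P.αS e s →
      ρN s = algebraMap (Bh (UK U k)) (Module.End (Bh (UK U k)) N) (MvPowerSeries.C (τ e))) :
    False := by
  obtain ⟨Q, i1, i2, i3, i4, ⟨D⟩⟩ := exists_rdata P N τ ρN hρX hrel
  have hinf : Infinite (UK U k) := inferInstance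
  exact no_RMod U hU p hp hp' k _ Q D N

section

variable (P : Pack) (U : Ultrafilter ℕ) (k : ℕ → Type) [∀ i, Field (k i)]

theorem core (hU : (U : Filter ℕ) ≤ Filter.atTop) (p : ℕ → ℕ)
    (hp : ∀ i, (p i).Prime) (hp' : Filter.Tendsto p Filter.atTop Filter.atTop)
    [∀ i, IsAlgClosed (k i)] [∀ i, CharP (k i) (p i)] [CharZero (UK U k)]
    (M : Type) [AddCommGroup M] [Module (Bh (UK U k)) M] [Module.Free (Bh (UK U k)) M]
    [Module.Finite (Bh (UK U k)) M] [Nontrivial M]
    (ρ : P.S →+* Module.End (Bh (UK U k)) M)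
    (hρ : ∀ i, ρ (algebraMap A0 P.S (MvPolynomial.X i)) =
      algebraMap (Bh (UK U k)) (Module.End (Bh (UK U k)) M) (MvPowerSeries.X i)) : False := by
  classical
  have hac : IsAlgClosed (UK U k) := UK_isAlgClosed
  let c : UK U k →+* Bh (UK U k) := MvPowerSeries.C
  -- the minimal polynomial
  let F0 := minpoly ℤ P.α
  let F : Polynomial (UK U k) := F0.map (Int.castRingHom (UK U k))
  have hm0 : F0.Monic := minpoly.monic P.hα
  have hm : F.Monic := hm0.map (Int.castRingHom (UK U k))
  have hq : minpoly ℚ P.α = F0.map (algebraMap ℤ ℚ) :=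
    minpoly.isIntegrallyClosed_eq_field_fractions' ℚ P.hα
  have hFq : F = (minpoly ℚ P.α).map (algebraMap ℚ (UK U k)) := by
    have h1 : (algebraMap ℚ (UK U k)).comp (algebraMap ℤ ℚ) = Int.castRingHom (UK U k) :=
      RingHom.ext_int _ _
    rw [hq, Polynomial.map_map, h1]
  have hs : F.Separable := by
    rw [hFq]
    exact (minpoly.irreducible (Algebra.IsIntegral.isIntegral P.α)).separable.map
  let T : Module.End (Bh (UK U k)) M := ρ P.αS
  have hT : aeval T (F.map c) = 0 := by
    have h1 : ev T F0 = 0 := by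
      change ev (ρ P.αS) F0 = 0
      rw [← map_ev, P.hαS, map_zero]
    rw [← h1, Polynomial.map_map]
    unfold ev
    rw [aeval_def, eval₂_map]
    congr 1
    exact RingHom.ext_int _ _
  obtain ⟨a, ha, N, N', hcompl, hN0, hN⟩ := exists_eigen c T F hm hs hT
  -- the summand
  have hproj : Module.Projective (Bh (UK U k)) N :=
    Module.Projective.of_split N.subtype (N.projectionOnto N' hcompl) (by
      ext x
      simp)
  have hfinN : Module.Finite (Bh (UK U k)) N :=
    Module.Finite.of_surjective (N.projectionOnto N' hcompl)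
      (LinearMap.range_eq_top.1 (Submodule.range_projectionOnto hcompl))
  have hfree : Module.Free (Bh (UK U k)) N := Module.free_of_flat_of_isLocalRing
  have hnt : Nontrivial N := Submodule.nontrivial_iff_ne_bot.2 hN0
  -- the action on the summand
  have hstab : ∀ s : P.S, ∀ x ∈ N, ρ s x ∈ N := by
    intro s x hx
    rw [hN] at hx ⊢
    have h1 : T (ρ s x) = ρ s (T x) := by
      change (ρ P.αS * ρ s) x = (ρ s * ρ P.αS) x
      rw [← map_mul, ← map_mul, mul_comm]
    rw [h1, hx, map_smul]
  let ρN : P.S →+* Module.End (Bh (UK U k)) N :=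
    { toFun := fun s => (ρ s).restrict (hstab s)
      map_one' := by ext x; simp
      map_mul' := fun s t => by ext x; simp
      map_zero' := by ext x; simp
      map_add' := fun s t => by ext x; simp }
  have hρN : ∀ s (x : N), ((ρN s x : N) : M) = ρ s x := fun s x => rfl
  have hρX : ∀ i, ρN (algebraMap A0 P.S (MvPolynomial.X i)) =
      algebraMap (Bh (UK U k)) (Module.End (Bh (UK U k)) N) (MvPowerSeries.X i) := by
    intro i
    ext x
    rw [hρN, hρ]
    rfl
  -- the embedding of the constants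
  obtain ⟨τ, hτ⟩ := IntermediateField.exists_algHom_of_splits_of_aeval (F := ℚ) (E := EQ)
    (K := UK U k) (fun s => ⟨Algebra.IsIntegral.isIntegral s, IsAlgClosed.splits _⟩)
    (x := P.α) (y := a) (by
      rw [aeval_def, ← eval_map, ← hFq]
      exact ha)
  have hTN : ρN P.αS = algebraMap (Bh (UK U k)) (Module.End (Bh (UK U k)) N) (c a) := by
    ext x
    rw [hρN]
    exact (hN x).1 x.2
  have hrel : ∀ e s, Rel P.α P.αS e s →
      ρN s = algebraMap (Bh (UK U k)) (Module.End (Bh (UK U k)) N) (c (τ e)) := by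
    rintro e s ⟨m, Q, hm0, h1, h2⟩
    have h3 : ρN ((m : P.S) * s) =
        algebraMap (Bh (UK U k)) (Module.End (Bh (UK U k)) N) (c (τ ((m : EQ) * e))) := by
      rw [h1, h2, map_ev (R := P.S) (T := Module.End (Bh (UK U k)) N) ρN, hTN]
      have h4 : τ (ev P.α Q) = ev (τ P.α) Q := map_ev (τ : EQ →+* UK U k) P.α Q
      rw [h4, hτ, map_ev c, map_ev (R := Bh (UK U k)) (T := Module.End (Bh (UK U k)) N)
        (algebraMap (Bh (UK U k)) (Module.End (Bh (UK U k)) N))]
    rw [map_mul, map_intCast, map_mul, map_intCast, map_mul, map_intCast, map_mul,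
      map_intCast] at h3
    have hu : IsUnit ((m : ℤ) : Module.End (Bh (UK U k)) N) := by
      have h5 : IsUnit ((m : UK U k)) := isUnit_iff_ne_zero.2 (by exact_mod_cast hm0)
      have h6 := (h5.map c).map (algebraMap (Bh (UK U k)) (Module.End (Bh (UK U k)) N))
      rwa [map_intCast, map_intCast] at h6
    exact hu.mul_left_cancel h3
  exact core2 P U k hU p hp hp' N τ ρN hρX hrel

end

end Vale.Agent.P190.H128
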