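import Vale.Agent.P190.Bdl.B5
import Mathlib.RingTheory.RegularLocalRing.Defs

/-! Regular local rings are completely integrally closed domains with a regular system of
parameters. -/

set_option autoImplicit false

namespace Vale.Agent.P190.H128

open Vale.Agent.P190 Vale.Agent.P190.D IsLocalRing RingTheory.Sequence

open scoped Pointwise

theorem krull_dvd {V : Type} [CommRing V] [IsNoetherianRing V] [IsLocalRing V] {x b a : V}
    (hx : x ∈ maximalIdeal V) (h : ∀ m : ℕ, ∃ u w, a = b * u + x ^ m * w) : b ∣ a := by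
  have h1 : Ideal.Quotient.mk (Ideal.span {b}) a ∈
      (⨅ i : ℕ, (Ideal.span {x}) ^ i • (⊤ : Submodule V (V ⧸ Ideal.span {b}))) := by
    rw [Submodule.mem_iInf]
    intro m
    obtain ⟨u, w, h2⟩ := h m
    have h3 : Ideal.Quotient.mk (Ideal.span {b}) a =
        (x ^ m) • (Ideal.Quotient.mk (Ideal.span {b}) w) := by
      rw [h2, map_add, map_mul, Ideal.Quotient.mk_singleton_self, zero_mul, zero_add, map_mul,
        Algebra.smul_def]
      rfl
    rw [h3]
    exact Submodule.smul_mem_smul (Ideal.pow_mem_pow (Ideal.mem_span_singleton_self x) m) trivial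
  rw [Ideal.iInf_pow_smul_eq_bot_of_isLocalRing (Ideal.span {x}) (by
    intro h
    exact (Ideal.IsPrime.ne_top (inferInstance : (maximalIdeal V).IsPrime))
      (top_le_iff.1 (h ▸ (Ideal.span_singleton_le_iff_mem _).2 hx))), Submodule.mem_bot] at h1
  exact Ideal.mem_span_singleton.1 (Ideal.Quotient.eq_zero_iff_mem.1 h1)

theorem archDiv_lift {V : Type} [CommRing V] [IsDomain V] [IsNoetherianRing V] [IsLocalRing V]
    {x : V} (hxm : x ∈ maximalIdeal V) (hx : Prime x) (h : ArchDiv (V ⧸ Ideal.span {x})) :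
    ArchDiv V := by
  -- the main case
  have key : ∀ a b c : V, ¬ x ∣ b → ¬ x ∣ c → (∀ n : ℕ, b ^ n ∣ c * a ^ n) → b ∣ a := by
    intro a b c hb hc hn
    apply krull_dvd hxm
    intro m
    induction m with
    | zero => exact ⟨0, a, by ring⟩
    | succ m ih =>
      obtain ⟨u, w, h1⟩ := ih
      have h2 : ∀ n : ℕ, b ^ n ∣ c * w ^ n := by
        intro n
        have h3 : b ^ n ∣ c * (x ^ m * w) ^ n := by
          have h4 : x ^ m * w = a + (-(b * u)) := by rw [h1]; ring
          rw [h4, add_pow, Finset.mul_sum]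
          refine Finset.dvd_sum fun i hi => ?_
          have h5 : n = i + (n - i) := by
            have := Finset.mem_range.1 hi; omega
          have h6 : c * (a ^ i * (-(b * u)) ^ (n - i) * (n.choose i : V)) =
              (c * a ^ i) * (b ^ (n - i) * ((-u) ^ (n - i) * (n.choose i : V))) := by
            rw [← mul_neg, mul_pow]; ring
          rw [h6]
          conv_lhs => rw [h5, pow_add]
          exact mul_dvd_mul (hn i) (dvd_mul_right _ _)
        obtain ⟨t, ht⟩ := h3
        have h4 : x ^ (m * n) ∣ b ^ n * t := by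
          rw [← ht, mul_pow, ← pow_mul]
          exact ⟨c * w ^ n, by ring⟩
        obtain ⟨t', ht'⟩ := hx.pow_dvd_of_dvd_mul_left (m * n)
          (fun h7 => hb (hx.dvd_of_dvd_pow h7)) h4
        refine ⟨t', ?_⟩
        have h8 : x ^ (m * n) * (c * w ^ n) = x ^ (m * n) * (b ^ n * t') := by
          have h9 : x ^ (m * n) * (c * w ^ n) = c * (x ^ m * w) ^ n := by
            rw [mul_pow, ← pow_mul]; ring
          rw [h9, ht, ht']
          ring
        exact mul_left_cancel₀ (pow_ne_zero _ hx.ne_zero) h8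
      have h3 : Ideal.Quotient.mk (Ideal.span {x}) b ∣ Ideal.Quotient.mk (Ideal.span {x}) w := by
        apply h _ _ (Ideal.Quotient.mk (Ideal.span {x}) c)
        · rw [ne_eq, Ideal.Quotient.eq_zero_iff_mem, Ideal.mem_span_singleton]
          exact hc
        · intro n
          have := map_dvd (Ideal.Quotient.mk (Ideal.span {x})) (h2 n)
          rwa [map_mul, map_pow, map_pow] at this
      obtain ⟨q, hq⟩ := h3
      obtain ⟨u', rfl⟩ := Ideal.Quotient.mk_surjective q
      rw [← map_mul, Ideal.Quotient.eq, Ideal.mem_span_singleton] at hq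
      obtain ⟨w', hw'⟩ := hq
      refine ⟨u + x ^ m * u', w', ?_⟩
      have h4 : w = b * u' + x * w' := by rw [← hw']; ring
      rw [h1]
      conv_lhs => rw [h4]
      ring
  intro a b c hc hn
  by_cases hb0 : b = 0
  · have := hn 1
    rw [pow_one, pow_one, hb0, zero_dvd_iff, mul_eq_zero] at this
    rw [hb0, this.resolve_left hc]
  by_cases ha0 : a = 0
  · rw [ha0]; exact dvd_zero b
  obtain ⟨k, b', hb', rfl⟩ := WfDvdMonoid.max_power_factor' hb0 hx.not_isUnit
  obtain ⟨j, c', hc', rfl⟩ := WfDvdMonoid.max_power_factor' hc hx.not_isUnit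
  obtain ⟨i, a', ha', rfl⟩ := WfDvdMonoid.max_power_factor' ha0 hx.not_isUnit
  have hki : k ≤ i := by
    by_contra hlt
    push Not at hlt
    have h1 := hn (j + 1)
    have h2 : x ^ (j + i * (j + 1) + 1) ∣ x ^ (j + i * (j + 1)) * (c' * a' ^ (j + 1)) := by
      have h3 : x ^ (j + i * (j + 1) + 1) ∣ (x ^ k * b') ^ (j + 1) := by
        rw [mul_pow, ← pow_mul]
        refine Dvd.dvd.mul_right (pow_dvd_pow x ?_) _
        calc j + i * (j + 1) + 1 = (i + 1) * (j + 1) := by ring
          _ ≤ k * (j + 1) := Nat.mul_le_mul_right _ hlt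
      refine (h3.trans h1).trans (dvd_of_eq ?_)
      rw [mul_pow, ← pow_mul, pow_add]
      ring
    rw [pow_succ] at h2
    have h4 := (mul_dvd_mul_iff_left (pow_ne_zero _ hx.ne_zero)).1 h2
    rcases hx.dvd_or_dvd h4 with h5 | h5
    · exact hc' h5
    · exact ha' (hx.dvd_of_dvd_pow h5)
  obtain ⟨l, rfl⟩ := Nat.exists_eq_add_of_le hki
  have h1 : b' ∣ x ^ l * a' := by
    apply key _ _ c' hb' hc'
    intro n
    obtain ⟨t, ht⟩ := hn n
    have h2 : x ^ j * (c' * (x ^ l * a') ^ n) = b' ^ n * t := by
      apply mul_left_cancel₀ (pow_ne_zero (k * n) hx.ne_zero)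
      calc x ^ (k * n) * (x ^ j * (c' * (x ^ l * a') ^ n))
          = x ^ j * c' * (x ^ (k + l) * a') ^ n := by
            rw [pow_add, mul_pow, mul_pow, mul_pow, ← pow_mul x k]; ring
        _ = (x ^ k * b') ^ n * t := ht
        _ = x ^ (k * n) * (b' ^ n * t) := by rw [mul_pow, ← pow_mul]; ring
    have h3 : x ^ j ∣ b' ^ n * t := ⟨_, h2.symm⟩
    obtain ⟨t', ht'⟩ := hx.pow_dvd_of_dvd_mul_left j
      (fun h7 => hb' (hx.dvd_of_dvd_pow h7)) h3
    refine ⟨t', mul_left_cancel₀ (pow_ne_zero j hx.ne_zero) ?_⟩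
    rw [h2, ht']
    ring
  rw [pow_add, mul_assoc]
  exact mul_dvd_mul_left _ h1

section quot

variable {V : Type} [CommRing V] [IsLocalRing V]

theorem nontrivial_quot {x : V} (hx : x ∈ maximalIdeal V) : Nontrivial (V ⧸ Ideal.span {x}) :=
  Ideal.Quotient.nontrivial_iff.2 fun h =>
    (Ideal.IsPrime.ne_top (inferInstance : (maximalIdeal V).IsPrime))
      (top_le_iff.1 (h ▸ (Ideal.span_singleton_le_iff_mem _).2 hx))

theorem isLocalRing_quot {x : V} (hx : x ∈ maximalIdeal V) : IsLocalRing (V ⧸ Ideal.span {x}) :=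
  have := nontrivial_quot hx
  IsLocalRing.of_surjective' (Ideal.Quotient.mk _) Ideal.Quotient.mk_surjective

theorem comap_max {x : V} (hx : x ∈ maximalIdeal V) [IsLocalRing (V ⧸ Ideal.span {x})] :
    (maximalIdeal (V ⧸ Ideal.span {x})).comap (Ideal.Quotient.mk (Ideal.span {x})) =
      maximalIdeal V := by
  have := nontrivial_quot hx
  have := IsLocalHom.of_surjective (Ideal.Quotient.mk (Ideal.span {x})) Ideal.Quotient.mk_surjective
  exact IsLocalRing.maximalIdeal_comap (Ideal.Quotient.mk (Ideal.span {x}))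

theorem exchange {x : V} (hx : x ∈ maximalIdeal V) (hx2 : x ∉ maximalIdeal V ^ 2)
    [IsLocalRing (V ⧸ Ideal.span {x})] (s : Finset V) (hs : Ideal.span (s : Set V) = maximalIdeal V) :
    ∃ t : Finset (V ⧸ Ideal.span {x}), t.card + 1 ≤ s.card ∧
      Ideal.span (t : Set (V ⧸ Ideal.span {x})) = maximalIdeal (V ⧸ Ideal.span {x}) := by
  classical
  have h1 : x ∈ Ideal.span (s : Set V) := by rw [hs]; exact hx
  obtain ⟨f, hf⟩ := (Submodule.mem_span_finset.1 h1)
  have h2 : ∃ i ∈ s, f i ∉ maximalIdeal V := by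
    by_contra hcon
    push Not at hcon
    apply hx2
    rw [← hf.2, sq]
    refine Ideal.sum_mem _ fun i hi => Ideal.mul_mem_mul (hcon i hi) ?_
    rw [← hs]
    exact Ideal.subset_span hi
  obtain ⟨i, hi, hfi⟩ := h2
  have hu : IsUnit (f i) := by
    by_contra h
    exact hfi ((IsLocalRing.mem_maximalIdeal _).2 h)
  let mk := Ideal.Quotient.mk (Ideal.span {x})
  refine ⟨(s.erase i).image mk, ?_, ?_⟩
  · have h3 := Finset.card_image_le (s := s.erase i) (f := mk)
    rw [Finset.card_erase_of_mem hi] at h3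
    have h4 := Finset.card_pos.2 ⟨i, hi⟩
    omega
  · have hmem : ∀ j ∈ s, j ≠ i → mk j ∈ Ideal.span (((s.erase i).image mk : Finset _) : Set (V ⧸ Ideal.span {x})) :=
      fun j hj hji => Ideal.subset_span (by
        rw [Finset.mem_coe]
        exact Finset.mem_image_of_mem _ (Finset.mem_erase.2 ⟨hji, hj⟩))
    apply le_antisymm
    · rw [Ideal.span_le]
      intro y hy
      rw [Finset.mem_coe, Finset.mem_image] at hy
      obtain ⟨j, hj, rfl⟩ := hy
      change j ∈ (maximalIdeal (V ⧸ Ideal.span {x})).comap mk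
      rw [comap_max hx, ← hs]
      exact Ideal.subset_span (Finset.mem_of_mem_erase hj)
    · intro y hy
      obtain ⟨v, rfl⟩ := Ideal.Quotient.mk_surjective y
      have hv : v ∈ (maximalIdeal (V ⧸ Ideal.span {x})).comap mk := hy
      rw [comap_max hx, ← hs] at hv
      have hle : Ideal.span (s : Set V) ≤
          (Ideal.span (((s.erase i).image mk : Finset _) : Set (V ⧸ Ideal.span {x}))).comap mk := by
        rw [Ideal.span_le]
        intro j hj
        rw [SetLike.mem_coe, Ideal.mem_comap]
        by_cases hji : j = i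
        · subst hji
          have h5 : mk (f j) * mk j = - ∑ l ∈ s.erase j, mk (f l) * mk l := by
            have h6 := congrArg mk hf.2
            rw [map_sum, ← Finset.add_sum_erase _ _ hi] at h6
            have h7 : mk x = 0 := Ideal.Quotient.mk_singleton_self x
            rw [h7] at h6
            simp only [smul_eq_mul, map_mul] at h6
            exact eq_neg_of_add_eq_zero_left h6
          have h8 : mk (f j) * mk j ∈ Ideal.span (((s.erase j).image mk : Finset _) : Set (V ⧸ Ideal.span {x})) := by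
            rw [h5]
            refine neg_mem (Ideal.sum_mem _ fun l hl => Ideal.mul_mem_left _ _ ?_)
            exact hmem l (Finset.mem_of_mem_erase hl) (Finset.ne_of_mem_erase hl)
          obtain ⟨w, hw⟩ := (hu.map mk).exists_left_inv
          have h9 := Ideal.mul_mem_left _ w h8
          rwa [← mul_assoc, hw, one_mul] at h9
        · exact hmem j hj hji
      exact hle hv

end quot

theorem exists_good {V : Type} [CommRing V] [IsLocalRing V] [IsNoetherianRing V]
    (hd : ringKrullDim V ≠ 0) :
    ∃ x ∈ maximalIdeal V, x ∉ maximalIdeal V ^ 2 ∧ ∀ P ∈ minimalPrimes V, x ∉ P := by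
  classical
  by_contra hcon
  push Not at hcon
  have hfin := minimalPrimes.finite_of_isNoetherianRing V
  have h1 : ∃ P ∈ minimalPrimes V, maximalIdeal V ≤ P := by
    have h2 := (Ideal.subset_union_prime' (s := hfin.toFinset) (f := fun P : Ideal V => P)
      (a := maximalIdeal V ^ 2) (b := maximalIdeal V ^ 2)
      (fun P hP => (hfin.mem_toFinset.1 hP).1.1) (I := maximalIdeal V)).1 (by
        intro x hx
        by_cases hx2 : x ∈ maximalIdeal V ^ 2
        · exact Or.inl (Or.inl hx2)
        · obtain ⟨P, hP, hxP⟩ := hcon x hx hx2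
          refine Or.inr (Set.mem_biUnion (x := P) ?_ hxP)
          rw [Finset.mem_coe]
          exact hfin.mem_toFinset.2 hP)
    have h3 : maximalIdeal V ≤ maximalIdeal V ^ 2 → ∃ P ∈ minimalPrimes V, maximalIdeal V ≤ P := by
      intro h4
      have h5 : maximalIdeal V = ⊥ := by
        refine Submodule.eq_bot_of_le_smul_of_le_jacobson_bot (maximalIdeal V) (maximalIdeal V)
          (IsNoetherian.noetherian _) ?_ (maximalIdeal_le_jacobson _)
        rwa [smul_eq_mul, ← sq]
      obtain ⟨P, hP, -⟩ := Ideal.exists_minimalPrimes_le (I := (⊥ : Ideal V))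
        (J := maximalIdeal V) bot_le
      exact ⟨P, hP, by rw [h5]; exact bot_le⟩
    rcases h2 with h4 | h4 | ⟨P, hP, h4⟩
    · exact h3 h4
    · exact h3 h4
    · exact ⟨P, hfin.mem_toFinset.1 hP, h4⟩
  obtain ⟨P, hP, hle⟩ := h1
  have h2 : maximalIdeal V = P :=
    (maximalIdeal.isMaximal V).eq_of_le hP.1.1.ne_top hle
  apply hd
  rw [← IsLocalRing.maximalIdeal_height_eq_ringKrullDim, Ideal.height_eq_zero_iff.2 (h2 ▸ hP)]
  rfl

/-- regular local rings are completely integrally closed domains with a regular system of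
parameters -/
theorem regular_aux (d : ℕ) : ∀ (V : Type) [CommRing V] [IsLocalRing V] [IsNoetherianRing V],
    ringKrullDim V = d → (∃ s : Finset V, s.card ≤ d ∧ Ideal.span (s : Set V) = maximalIdeal V) →
    IsDomain V ∧ ArchDiv V ∧ ∃ ys : List V, IsPar V ys := by
  induction d with
  | zero =>
    intro V _ _ _ hd ⟨s, hs, hspan⟩
    have hs0 : s = ∅ := Finset.card_eq_zero.1 (Nat.le_zero.1 hs)
    have hbot : maximalIdeal V = ⊥ := by
      rw [← hspan, hs0, Finset.coe_empty, Ideal.span_empty]
    have hf : IsField V := IsLocalRing.isField_iff_maximalIdeal_eq.2 hbot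
    have hdom : IsDomain V := hf.isDomain
    refine ⟨hdom, ?_, [], ?_, ?_⟩
    · intro a b c hc hn
      by_cases hb : b = 0
      · have := hn 1
        rw [pow_one, pow_one, hb, zero_dvd_iff, mul_eq_zero] at this
        rw [hb, this.resolve_left hc]
      · obtain ⟨u, hu⟩ := hf.mul_inv_cancel hb
        exact (IsUnit.of_mul_eq_one u hu).dvd
    · exact IsWeaklyRegular.nil V V
    · rw [Ideal.ofList_nil, hbot]
  | succ d ih =>
    intro V _ _ _ hd ⟨s, hs, hspan⟩
    have hd0 : ringKrullDim V ≠ 0 := by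
      rw [hd]
      exact_mod_cast Nat.succ_ne_zero d
    obtain ⟨x, hx, hx2, hxP⟩ := exists_good hd0
    have hloc : IsLocalRing (V ⧸ Ideal.span {x}) := isLocalRing_quot hx
    obtain ⟨t, ht, htspan⟩ := exchange hx hx2 s hspan
    have htd : t.card ≤ d := by omega
    have hdim : ringKrullDim (V ⧸ Ideal.span {x}) = d := by
      apply le_antisymm
      · refine (ringKrullDim_le_spanFinrank_maximalIdeal (V ⧸ Ideal.span {x})).trans ?_
        rw [← htspan]
        have h1 := Submodule.spanFinrank_span_le_ncard_of_finite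
          (R := V ⧸ Ideal.span {x}) (s := (t : Set (V ⧸ Ideal.span {x}))) t.finite_toSet
        rw [Set.ncard_coe_finset] at h1
        exact_mod_cast h1.trans htd
      · have h1 := ringKrullDim_le_ringKrullDim_quotient_add_card ({x} : Finset V) (by
          intro y hy
          rw [Finset.mem_coe, Finset.mem_singleton] at hy
          rw [hy]
          exact (IsLocalRing.ringJacobson_eq_maximalIdeal V).symm ▸ hx)
        rw [hd, Finset.coe_singleton, Finset.card_singleton] at h1
        have h2 : ((d : ℕ) : WithBot ℕ∞) + 1 ≤ ringKrullDim (V ⧸ Ideal.span {x}) + 1 := by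
          exact_mod_cast h1
        exact ENat.WithBot.add_le_add_one_right_iff.1 h2
    obtain ⟨hdom', harch, ys, hys⟩ := ih (V ⧸ Ideal.span {x}) hdim ⟨t, htd, htspan⟩
    have hprime : (Ideal.span {x}).IsPrime := (Ideal.Quotient.isDomain_iff_prime _).1 hdom'
    -- the ring is a domain
    obtain ⟨P, hP, hPx⟩ := Ideal.exists_minimalPrimes_le (I := (⊥ : Ideal V))
      (J := Ideal.span {x}) bot_le
    have hPp : P.IsPrime := hP.1.1
    have hP0 : P = ⊥ := by
      refine Submodule.eq_bot_of_le_smul_of_le_jacobson_bot (Ideal.span {x}) P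
          (IsNoetherian.noetherian _) ?_ (((Ideal.span_singleton_le_iff_mem _).2 hx).trans
            (maximalIdeal_le_jacobson _))
      intro p hp
      obtain ⟨q, rfl⟩ := Ideal.mem_span_singleton.1 (hPx hp)
      have hq : q ∈ P := (hPp.mem_or_mem hp).resolve_left (hxP P hP)
      exact Submodule.smul_mem_smul (Ideal.mem_span_singleton_self x) hq
    have hbotp : (⊥ : Ideal V).IsPrime := hP0 ▸ hPp
    have hdom : IsDomain V := IsDomain.of_bot_isPrime V
    have hx0 : x ≠ 0 := fun h => hx2 (h ▸ Ideal.zero_mem _)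
    have hxp : Prime x := (Ideal.span_singleton_prime hx0).1 hprime
    refine ⟨hdom, archDiv_lift hx hxp harch, ?_⟩
    obtain ⟨l, hl⟩ : ∃ l : List V, l.map (Ideal.Quotient.mk (Ideal.span {x})) = ys :=
      ⟨ys.map (Function.surjInv Ideal.Quotient.mk_surjective), by
        rw [List.map_map]
        have : (Ideal.Quotient.mk (Ideal.span {x})) ∘
            (Function.surjInv (Ideal.Quotient.mk_surjective (I := Ideal.span {x}))) = id :=
          funext fun y => Function.surjInv_eq _ y
        rw [this, List.map_id]⟩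
    refine ⟨x :: l, ?_, ?_⟩
    · rw [isWeaklyRegular_cons_iff]
      refine ⟨fun a b hab => mul_left_cancel₀ hx0 hab, ?_⟩
      have hk : (Ideal.span {x} : Submodule V V) = x • (⊤ : Submodule V V) := by
        ext y
        rw [Ideal.mem_span_singleton, Submodule.mem_smul_pointwise_iff_exists]
        constructor
        · rintro ⟨z, rfl⟩; exact ⟨z, trivial, rfl⟩
        · rintro ⟨z, -, rfl⟩; exact ⟨z, rfl⟩
      have e : (V ⧸ (Ideal.span {x} : Submodule V V)) ≃ₗ[V] QuotSMulTop x V :=
        Submodule.quotEquivOfEq _ _ hk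
      refine (e.isWeaklyRegular_congr l).1 ?_
      have h1 := hys.reg
      rw [← hl] at h1
      exact (isWeaklyRegular_map_algebraMap_iff (V ⧸ Ideal.span {x}) (V ⧸ Ideal.span {x}) l).1 h1
    · have h1 : (Ideal.ofList l).map (Ideal.Quotient.mk (Ideal.span {x})) =
          maximalIdeal (V ⧸ Ideal.span {x}) := by
        rw [Ideal.map_ofList, hl, hys.gen]
      rw [Ideal.ofList_cons, ← comap_max hx, ← h1,
        Ideal.comap_map_of_surjective' _ Ideal.Quotient.mk_surjective, Ideal.mk_ker, sup_comm]

/-- Facts on regular local rings. -/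
theorem regular_facts (V : Type) [CommRing V] [IsRegularLocalRing V] :
    IsDomain V ∧ ArchDiv V ∧ ∃ ys : List V, IsPar V ys := by
  have h1 := IsRegularLocalRing.spanFinrank_maximalIdeal (R := V)
  obtain ⟨s, hs, hs2⟩ := Submodule.FG.exists_span_finset_card_eq_spanFinrank
    (IsNoetherian.noetherian (maximalIdeal V))
  exact regular_aux _ V h1.symm ⟨s, hs.le, hs2⟩

end Vale.Agent.P190.H128
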