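import Vale.Agent.P190.H128.E2
import Mathlib.RingTheory.AdicCompletion.Topology
import Mathlib.RingTheory.AdicCompletion.Functoriality
import Mathlib.RingTheory.MvPowerSeries.Evaluation

/-! Complete local rings are finite over power series rings (Cohen). -/

set_option autoImplicit false

namespace Vale.Agent.P190.H128

open Vale.Agent.P190 Vale.Agent.P190.D IsLocalRing RingTheory.Sequence

/-- evaluation of power series in a complete ring -/
theorem exists_eval {V B : Type} [CommRing V] [CommRing B] (I : Ideal B)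
    (hB : IsAdicComplete I B) (g : V →+* B) {n : ℕ} (x : Fin n → B) (hx : ∀ i, x i ∈ I) :
    ∃ φ : MvPowerSeries (Fin n) V →+* B, (∀ a, φ (MvPowerSeries.C a) = g a) ∧
      ∀ i, φ (MvPowerSeries.X i) = x i := by
  let iB : WithIdeal B := ⟨I⟩
  let uV : UniformSpace V := ⊥
  have hd : DiscreteTopology V := ⟨rfl⟩
  have hcB := (IsAdic.isAdicComplete_iff (R := B) (I := I) rfl).1 hB
  have h1 : CompleteSpace B := hcB.1
  have h2 : T2Space B := hcB.2
  have h3 : IsUniformAddGroup V := inferInstance
  have h4 : IsTopologicalSemiring V := inferInstance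
  have hev : MvPowerSeries.HasEval x :=
    ⟨fun s => WithIdeal.isTopologicallyNilpotent_of_mem (hx s), by
      rw [Filter.cofinite_eq_bot]; exact Filter.tendsto_bot⟩
  have hg : Continuous g := continuous_of_discreteTopology
  refine ⟨MvPowerSeries.eval₂Hom hg hev, fun a => ?_, fun i => ?_⟩
  · rw [MvPowerSeries.coe_eval₂Hom, MvPowerSeries.eval₂_C]
  · rw [MvPowerSeries.coe_eval₂Hom, MvPowerSeries.eval₂_X]

/-- generation modulo powers of the maximal ideal -/
theorem exists_gens {V B : Type} [CommRing V] [CommRing B] [IsLocalRing B] [IsNoetherianRing B]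
    (g : V →+* B) (hg : Function.Surjective ((residue B).comp g)) (N : ℕ) :
    ∃ T : Finset B, ∀ b : B, ∃ c : B → V, b - ∑ t ∈ T, g (c t) * t ∈ maximalIdeal B ^ N := by
  classical
  induction N with
  | zero => exact ⟨∅, fun b => ⟨0, by simp⟩⟩
  | succ N ih =>
    obtain ⟨T, hT⟩ := ih
    obtain ⟨s, hs⟩ := (IsNoetherian.noetherian (maximalIdeal B ^ N) : (maximalIdeal B ^ N).FG)
    refine ⟨T ∪ s, fun b => ?_⟩
    obtain ⟨c, hc⟩ := hT b
    rw [← hs] at hc
    obtain ⟨f, hf, hf2⟩ := Submodule.mem_span_finset.1 hc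
    have h1 : ∀ y : B, ∃ v : V, f y - g v ∈ maximalIdeal B := by
      intro y
      obtain ⟨v, hv⟩ := hg (residue B (f y))
      refine ⟨v, ?_⟩
      rw [← residue_eq_zero_iff, map_sub, sub_eq_zero]
      exact hv.symm
    choose v hv using h1
    refine ⟨fun t => (if t ∈ T then c t else 0) + (if t ∈ s then v t else 0), ?_⟩
    have h2 : ∑ t ∈ T ∪ s, g ((if t ∈ T then c t else 0) + (if t ∈ s then v t else 0)) * t =
        ∑ t ∈ T, g (c t) * t + ∑ t ∈ s, g (v t) * t := by
      simp only [map_add, add_mul, Finset.sum_add_distrib]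
      congr 1
      · rw [← Finset.sum_subset (Finset.subset_union_left (s₁ := T) (s₂ := s))]
        · exact Finset.sum_congr rfl fun t ht => by rw [if_pos ht]
        · intro t _ ht; rw [if_neg ht, map_zero, zero_mul]
      · rw [← Finset.sum_subset (Finset.subset_union_right (s₁ := T) (s₂ := s))]
        · exact Finset.sum_congr rfl fun t ht => by rw [if_pos ht]
        · intro t _ ht; rw [if_neg ht, map_zero, zero_mul]
    rw [h2, ← sub_sub, ← hf2, ← Finset.sum_sub_distrib]
    refine Ideal.sum_mem _ fun t ht => ?_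
    have h3 : f t • t - g (v t) * t = (f t - g (v t)) * t := by rw [smul_eq_mul]; ring
    rw [h3, pow_succ']
    refine Ideal.mul_mem_mul (hv t) ?_
    rw [← hs]
    exact Submodule.subset_span ht

/-- the finiteness part of Cohen's theorem -/
theorem exists_finite {V B : Type} [CommRing V] [IsLocalRing V] [IsNoetherianRing V]
    (hV : IsAdicComplete (maximalIdeal V) V) [CommRing B] [IsLocalRing B] [IsNoetherianRing B]
    (hB : IsAdicComplete (maximalIdeal B) B) (g : V →+* B) (hgl : IsLocalHom g)
    (hg : Function.Surjective ((residue B).comp g)) {n : ℕ} (x : Fin n → B)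
    (hx : ∀ i, x i ∈ maximalIdeal B) (N : ℕ)
    (hN : maximalIdeal B ^ N ≤ (maximalIdeal V).map g ⊔ Ideal.span (Set.range x)) :
    ∃ φ : MvPowerSeries (Fin n) V →+* B, (∀ a, φ (MvPowerSeries.C a) = g a) ∧
      (∀ i, φ (MvPowerSeries.X i) = x i) ∧ φ.Finite := by
  classical
  obtain ⟨φ, hC, hX⟩ := exists_eval (maximalIdeal B) hB g x hx
  refine ⟨φ, hC, hX, ?_⟩
  let _ : Algebra (MvPowerSeries (Fin n) V) B := φ.toAlgebra
  have hal : ∀ a, algebraMap (MvPowerSeries (Fin n) V) B a = φ a := fun a => rfl
  change Module.Finite (MvPowerSeries (Fin n) V) B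
  obtain ⟨T, hT⟩ := exists_gens g hg N
  let A := MvPowerSeries (Fin n) V
  have hA : IsAdicComplete (maximalIdeal A) A := isAdicCompleteV hV
  have hAT : IsAdicComplete (maximalIdeal A) (T → A) := isAdicComplete_of_finite _ hA
  -- the image of the maximal ideal
  have hle1 : (maximalIdeal A).map (algebraMap A B) ≤ maximalIdeal B := by
    rw [Ideal.map_le_iff_le_comap]
    intro f hf
    rw [Ideal.mem_comap, hal]
    have h1 := (mem_max_iff f).1 hf
    have h2 : f - MvPowerSeries.C (MvPowerSeries.constantCoeff f) ∈ Ideal.ofList (vars n V) := by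
      rw [ofList_vars, map_sub, MvPowerSeries.constantCoeff_C, sub_self]
    have h3 : Ideal.ofList (vars n V) ≤ (maximalIdeal B).comap φ := by
      unfold Ideal.ofList
      rw [Ideal.span_le]
      intro y hy
      obtain ⟨i, -, rfl⟩ := List.mem_map.1 hy
      rw [SetLike.mem_coe, Ideal.mem_comap, hX]
      exact hx i
    have h4 : φ f = φ (f - MvPowerSeries.C (MvPowerSeries.constantCoeff f)) +
        g (MvPowerSeries.constantCoeff f) := by
      rw [← hC, ← map_add, sub_add_cancel]
    rw [h4]
    refine Ideal.add_mem _ (h3 h2) ?_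
    rw [← Ideal.mem_comap, IsLocalRing.maximalIdeal_comap g]
    exact h1
  have hle2 : maximalIdeal B ^ N ≤ (maximalIdeal A).map (algebraMap A B) := by
    refine hN.trans (sup_le ?_ ?_)
    · rw [Ideal.map_le_iff_le_comap]
      intro a ha
      rw [Ideal.mem_comap, ← hC, ← hal]
      apply Ideal.mem_map_of_mem
      rw [mem_max_iff, MvPowerSeries.constantCoeff_C]
      exact ha
    · rw [Ideal.span_le]
      rintro _ ⟨i, rfl⟩
      rw [← hX, ← hal]
      apply Ideal.mem_map_of_mem
      rw [mem_max_iff, MvPowerSeries.constantCoeff_X]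
      exact Ideal.zero_mem _
  have hH : IsHausdorff (maximalIdeal A) B := by
    rw [← IsHausdorff.map_algebraMap_iff (R := A) (S := B)]
    refine IsHausdorff.of_isLocalRing _ _ fun h => ?_
    rw [h] at hle1
    exact (Ideal.IsPrime.ne_top (inferInstance : (maximalIdeal B).IsPrime)) (top_le_iff.1 hle1)
  let f : (T → A) →ₗ[A] B := Fintype.linearCombination A (fun t : T => (t : B))
  have hsurj : Function.Surjective f := by
    have h0 : IsPrecomplete (maximalIdeal A) (T → A) := hAT.toIsPrecomplete
    apply surjective_of_mkQ_comp_surjective (I := maximalIdeal A)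
    intro q
    obtain ⟨b, rfl⟩ := Submodule.mkQ_surjective _ q
    obtain ⟨c, hc⟩ := hT b
    refine ⟨fun t => MvPowerSeries.C (c t), ?_⟩
    rw [LinearMap.comp_apply, ← sub_eq_zero, ← map_sub, Submodule.mkQ_apply,
      Submodule.Quotient.mk_eq_zero]
    have h1 : f (fun t => MvPowerSeries.C (c t)) = ∑ t ∈ T, g (c t) * t := by
      simp only [f]
      rw [Fintype.linearCombination_apply, ← Finset.sum_coe_sort T (fun t => g (c t) * t)]
      refine Finset.sum_congr rfl fun t _ => ?_
      rw [Algebra.smul_def, hal, hC]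
    rw [h1, Ideal.smul_top_eq_map, Submodule.restrictScalars_mem]
    have h2 := hle2 hc
    rw [← neg_sub]
    exact neg_mem h2
  exact Module.Finite.of_surjective f hsurj

/-- systems of parameters modulo an ideal -/
theorem exists_params {B : Type} [CommRing B] [IsLocalRing B] [IsNoetherianRing B] (I : Ideal B)
    (hI : I ≤ maximalIdeal B) : ∃ (n : ℕ) (x : Fin n → B) (N : ℕ), (∀ i, x i ∈ maximalIdeal B) ∧
      ringKrullDim (B ⧸ I) = n ∧ maximalIdeal B ^ N ≤ I ⊔ Ideal.span (Set.range x) := by
  classical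
  have hIt : I ≠ ⊤ := fun h => (Ideal.IsPrime.ne_top
    (inferInstance : (maximalIdeal B).IsPrime)) (top_le_iff.1 (h ▸ hI))
  have hnt : Nontrivial (B ⧸ I) := Ideal.Quotient.nontrivial_iff.2 hIt
  have hl : IsLocalRing (B ⧸ I) :=
    IsLocalRing.of_surjective' (Ideal.Quotient.mk I) Ideal.Quotient.mk_surjective
  have hlh := IsLocalHom.of_surjective (Ideal.Quotient.mk I) Ideal.Quotient.mk_surjective
  obtain ⟨s, hs, hcard⟩ := Ideal.exists_finset_card_eq_height_of_isNoetherianRing
    (maximalIdeal (B ⧸ I))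
  have hcomap : (maximalIdeal (B ⧸ I)).comap (Ideal.Quotient.mk I) = maximalIdeal B :=
    IsLocalRing.maximalIdeal_comap (Ideal.Quotient.mk I)
  let x : Fin s.card → B := fun i =>
    Function.surjInv (Ideal.Quotient.mk_surjective (I := I)) ((s.equivFin.symm i : s) : B ⧸ I)
  have hx : ∀ i, Ideal.Quotient.mk I (x i) = ((s.equivFin.symm i : s) : B ⧸ I) := fun i =>
    Function.surjInv_eq _ _
  have hrange : Ideal.map (Ideal.Quotient.mk I) (Ideal.span (Set.range x)) =
      Ideal.span (s : Set (B ⧸ I)) := by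
    rw [Ideal.map_span]
    congr 1
    ext y
    constructor
    · rintro ⟨_, ⟨i, rfl⟩, rfl⟩
      rw [hx]
      exact (s.equivFin.symm i).2
    · intro hy
      refine ⟨x (s.equivFin ⟨y, hy⟩), ⟨_, rfl⟩, ?_⟩
      rw [hx, Equiv.symm_apply_apply]
  have hrad : maximalIdeal (B ⧸ I) ≤ (Ideal.span (s : Set (B ⧸ I))).radical := by
    rw [Ideal.radical_eq_sInf]
    refine le_sInf ?_
    rintro Q ⟨hQ1, hQ2⟩
    exact hs.2 ⟨hQ2, hQ1⟩ (IsLocalRing.le_maximalIdeal hQ2.ne_top)
  obtain ⟨N, hN⟩ := Ideal.exists_pow_le_of_le_radical_of_fg hrad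
    (IsNoetherian.noetherian (maximalIdeal (B ⧸ I)))
  refine ⟨s.card, x, N, fun i => ?_, ?_, ?_⟩
  · rw [← hcomap, Ideal.mem_comap, hx]
    exact hs.1.2 (Ideal.subset_span (s.equivFin.symm i).2)
  · rw [← IsLocalRing.maximalIdeal_height_eq_ringKrullDim, ← hcard]
    rfl
  · have h1 : maximalIdeal B ^ N ≤ (maximalIdeal (B ⧸ I) ^ N).comap (Ideal.Quotient.mk I) := by
      rw [← hcomap]
      exact Ideal.le_comap_pow _ N
    refine h1.trans ((Ideal.comap_mono hN).trans ?_)
    rw [← hrange, Ideal.comap_map_of_surjective' _ Ideal.Quotient.mk_surjective, Ideal.mk_ker,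
      sup_comm]

/-- dimensions in integral extensions -/
theorem dim_le_of_integral {A B : Type} [CommRing A] [CommRing B] [Algebra A B]
    [Algebra.IsIntegral A B] : ringKrullDim B ≤ ringKrullDim A := by
  refine Order.krullDim_le_of_strictMono (PrimeSpectrum.comap (algebraMap A B)) ?_
  intro P Q hPQ
  exact Ideal.IsIntegral.comap_lt_comap hPQ

/-- Cohen: a complete local domain is finite over a power series ring -/
theorem exists_cohen {V B : Type} [CommRing V] [IsLocalRing V] [IsNoetherianRing V] [IsDomain V]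
    (hV : IsAdicComplete (maximalIdeal V) V) {ys : List V} (hys : IsPar V ys)
    [CommRing B] [IsLocalRing B] [IsNoetherianRing B] [IsDomain B]
    (hB : IsAdicComplete (maximalIdeal B) B) (g : V →+* B) (hgl : IsLocalHom g)
    (hg : Function.Surjective ((residue B).comp g))
    (hdim : ringKrullDim (B ⧸ (maximalIdeal V).map g) + (ys.length : ℕ) ≤ ringKrullDim B) :
    ∃ (n : ℕ) (φ : MvPowerSeries (Fin n) V →+* B), (∀ a, φ (MvPowerSeries.C a) = g a) ∧
      φ.Finite ∧ Function.Injective φ ∧ ringKrullDim B = (ys.length + n : ℕ) := by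
  have hle : (maximalIdeal V).map g ≤ maximalIdeal B := by
    rw [Ideal.map_le_iff_le_comap, IsLocalRing.maximalIdeal_comap g]
  obtain ⟨n, x, N, hx, hn, hN⟩ := exists_params _ hle
  obtain ⟨φ, hC, -, hfin⟩ := exists_finite hV hB g hgl hg x hx N hN
  have hA : IsDomain (MvPowerSeries (Fin n) V) := NoZeroDivisors.to_isDomain _
  have hdA : ringKrullDim (MvPowerSeries (Fin n) V) = (ys.length + n : ℕ) := by
    rw [n1_ringKrullDim_B (isParV n hys), pars_length]
  rw [hn] at hdim
  -- the image of the power series ring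
  have hker : ringKrullDim B ≤ ringKrullDim φ.range := by
    let _ : Algebra φ.range B := φ.range.subtype.toAlgebra
    have hint : Algebra.IsIntegral φ.range B := by
      constructor
      intro b
      obtain ⟨p, hp, hp2⟩ := RingHom.IsIntegral.of_finite hfin b
      refine ⟨p.map φ.rangeRestrict, hp.map _, ?_⟩
      rw [Polynomial.eval₂_map]
      exact hp2
    exact dim_le_of_integral
  have hinj : Function.Injective φ := by
    rw [injective_iff_map_eq_zero]
    intro a ha
    by_contra ha0
    have h1 := ringKrullDim_succ_le_of_surjective φ.rangeRestrict φ.rangeRestrict_surjective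
      (r := a) (mem_nonZeroDivisors_of_ne_zero ha0) (Subtype.ext ha)
    have h2 : ((ys.length + n : ℕ) : WithBot ℕ∞) + 1 ≤ ((ys.length + n : ℕ) : WithBot ℕ∞) := by
      calc ((ys.length + n : ℕ) : WithBot ℕ∞) + 1
          = (n : WithBot ℕ∞) + (ys.length : ℕ) + 1 := by push_cast; ring
        _ ≤ ringKrullDim φ.range + 1 := by
            gcongr
            exact hdim.trans hker
        _ ≤ ringKrullDim (MvPowerSeries (Fin n) V) := h1
        _ = _ := hdA
    have h3 : (ys.length + n : ℕ) + 1 ≤ (ys.length + n : ℕ) := by exact_mod_cast h2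
    omega
  refine ⟨n, φ, hC, hfin, hinj, le_antisymm ?_ ?_⟩
  · refine hker.trans ?_
    rw [← hdA]
    exact ringKrullDim_le_of_surjective φ.rangeRestrict φ.rangeRestrict_surjective
  · refine le_trans (le_of_eq ?_) hdim
    push_cast
    ring

end Vale.Agent.P190.H128
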