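import Vale.Agent.P190.H128.E7
import Mathlib.RingTheory.Perfectoid.FontaineTheta
import Mathlib.RingTheory.WittVector.DiscreteValuationRing
import Mathlib.RingTheory.WittVector.Complete

/-! Complete local rings with perfect residue field of characteristic `p` are algebras over the
Witt vectors. -/

set_option autoImplicit false

namespace Vale.Agent.P190.H128

open Vale.Agent.P190 Vale.Agent.P190.D IsLocalRing RingTheory.Sequence

/-- coefficient fields in characteristic `p`, perfect residue field -/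
theorem exists_coeff_charP (p : ℕ) [hp : Fact p.Prime] (D k : Type) [CommRing D] [CharP D p]
    [Field k] [CharP k p] [PerfectRing k p] (π : D →+* k) (hπ : Function.Surjective π)
    (J : Ideal D) (hJ : RingHom.ker π = J) (hD : IsAdicComplete J D) :
    ∃ σ : k →+* D, ∀ x, π (σ x) = x := by
  have hk : ∀ n : ℕ, ∀ a ∈ RingHom.ker π,
      ((Ideal.Quotient.mk (J ^ n)).comp (iterateFrobenius D p n)) a = 0 := by
    intro n a ha
    rw [hJ] at ha
    rw [RingHom.comp_apply, iterateFrobenius_def, Ideal.Quotient.eq_zero_iff_mem]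
    exact Ideal.pow_le_pow_right (Nat.lt_pow_self hp.1.one_lt).le (Ideal.pow_mem_pow ha (p ^ n))
  let F : (n : ℕ) → k →+* D ⧸ J ^ n := fun n =>
    ((Ideal.Quotient.lift (RingHom.ker π) _ (hk n)).comp
      (RingHom.quotientKerEquivOfSurjective hπ).symm.toRingHom).comp
      (iterateFrobeniusEquiv k p n).symm.toRingHom
  have hF : ∀ n b, F n (π b ^ (p ^ n)) = Ideal.Quotient.mk (J ^ n) (b ^ (p ^ n)) := by
    intro n b
    have h1 : (iterateFrobeniusEquiv k p n).symm (π b ^ (p ^ n)) = π b := by
      rw [RingEquiv.symm_apply_eq, iterateFrobeniusEquiv_def]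
    have h2 : (RingHom.quotientKerEquivOfSurjective hπ).symm (π b) =
        Ideal.Quotient.mk (RingHom.ker π) b := by
      rw [RingEquiv.symm_apply_eq]
      rfl
    change (Ideal.Quotient.lift (RingHom.ker π) _ (hk n))
      ((RingHom.quotientKerEquivOfSurjective hπ).symm
        ((iterateFrobeniusEquiv k p n).symm (π b ^ (p ^ n)))) = _
    rw [h1, h2, Ideal.Quotient.lift_mk, RingHom.comp_apply, iterateFrobenius_def]
  have hsurj : ∀ n (x : k), ∃ b, x = π b ^ (p ^ n) := by
    intro n x
    obtain ⟨b, hb⟩ := hπ ((iterateFrobeniusEquiv k p n).symm x)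
    refine ⟨b, ?_⟩
    rw [hb, ← iterateFrobeniusEquiv_def, RingEquiv.apply_symm_apply]
  have hcompat : ∀ {m n : ℕ} (hle : m ≤ n),
      (Ideal.Quotient.factorPow J hle).comp (F n) = F m := by
    intro m n hle
    ext x
    obtain ⟨b, rfl⟩ := hsurj n x
    have h1 : (π b ^ (p ^ n)) = π (b ^ (p ^ (n - m))) ^ (p ^ m) := by
      rw [map_pow, ← pow_mul, ← pow_add, Nat.sub_add_cancel hle]
    rw [RingHom.comp_apply, hF]
    conv_rhs => rw [h1, hF]
    rw [← pow_mul, ← pow_add, Nat.sub_add_cancel hle]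
    rfl
  refine ⟨IsAdicComplete.liftRingHom J F hcompat, fun x => ?_⟩
  obtain ⟨b, rfl⟩ := hsurj 1 x
  have h1 := IsAdicComplete.mk_liftRingHom J F hcompat 1 (π b ^ (p ^ 1))
  rw [hF, Ideal.Quotient.eq, pow_one] at h1
  have h2 := hJ.ge h1
  rw [RingHom.mem_ker, map_sub, sub_eq_zero] at h2
  rw [h2, map_pow]

/-- a complete Noetherian local ring is complete for every smaller ideal -/
theorem isAdicComplete_of_le_max {B : Type} [CommRing B] [IsLocalRing B] [IsNoetherianRing B]
    (hB : IsAdicComplete (maximalIdeal B) B) (I : Ideal B) (hI : I ≤ maximalIdeal B) :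
    IsAdicComplete I B := by
  have hIt : I ≠ ⊤ := fun h => (Ideal.IsPrime.ne_top
    (inferInstance : (maximalIdeal B).IsPrime)) (top_le_iff.1 (h ▸ hI))
  refine { haus' := (IsHausdorff.of_isLocalRing I B hIt).haus', prec' := ?_ }
  intro f hf
  obtain ⟨L, hL⟩ := hB.prec' f (fun {m n} hmn =>
    (hf hmn).mono (Submodule.smul_mono_left (Ideal.pow_right_mono hI m)))
  refine ⟨L, fun n => ?_⟩
  rw [SModEq.sub_mem, smul_eq_mul, Ideal.mul_top]
  have h1 : Ideal.Quotient.mk (I ^ n) (f n - L) ∈
      (⨅ i : ℕ, (maximalIdeal B) ^ i • (⊤ : Submodule B (B ⧸ I ^ n))) := by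
    rw [Submodule.mem_iInf]
    intro m
    have h2 : f n - L = (f n - f (n + m)) + (f (n + m) - L) := by ring
    have h3 : f n - f (n + m) ∈ I ^ n := by
      have := hf (Nat.le_add_right n m)
      rwa [SModEq.sub_mem, smul_eq_mul, Ideal.mul_top] at this
    have h4 : f (n + m) - L ∈ maximalIdeal B ^ m := by
      have := hL (n + m)
      rw [SModEq.sub_mem, smul_eq_mul, Ideal.mul_top] at this
      exact Ideal.pow_le_pow_right (Nat.le_add_left m n) this
    have h5 : Ideal.Quotient.mk (I ^ n) (f n - L) =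
        (f (n + m) - L) • (1 : B ⧸ I ^ n) := by
      rw [h2, map_add, Ideal.Quotient.eq_zero_iff_mem.2 h3, zero_add, Algebra.smul_def, mul_one]
      rfl
    rw [h5]
    exact Submodule.smul_mem_smul h4 trivial
  rw [Ideal.iInf_pow_smul_eq_bot_of_isLocalRing _ (Ideal.IsPrime.ne_top
    (inferInstance : (maximalIdeal B).IsPrime)), Submodule.mem_bot] at h1
  exact Ideal.Quotient.eq_zero_iff_mem.1 h1

open WittVector in
/-- The map from the Witt vectors of the (perfect) residue field -/
theorem exists_witt (p : ℕ) [hp : Fact p.Prime] (B k : Type) [CommRing B] [IsLocalRing B]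
    [IsNoetherianRing B] (hB : IsAdicComplete (maximalIdeal B) B)
    [Field k] [CharP k p] [PerfectRing k p] (π : B →+* k) (hπ : Function.Surjective π) :
    ∃ g : WittVector p k →+* B, ∀ x, π (g x) = x.coeff 0 := by
  have hkerB : RingHom.ker π = maximalIdeal B :=
    IsLocalRing.eq_maximalIdeal (RingHom.ker_isMaximal_of_surjective π hπ)
  have hpB : (p : B) ∈ maximalIdeal B := by
    rw [← hkerB, RingHom.mem_ker, map_natCast, CharP.cast_eq_zero]
  have hpu : Fact (¬ IsUnit (p : B)) := ⟨(IsLocalRing.mem_maximalIdeal _).1 hpB⟩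
  have hle : Ideal.span {(p : B)} ≤ maximalIdeal B := (Ideal.span_singleton_le_iff_mem _).2 hpB
  have hpc : IsAdicComplete (Ideal.span {(p : B)}) B := isAdicComplete_of_le_max hB _ hle
  let π' : ModP B p →+* k := Ideal.Quotient.lift (Ideal.span {(p : B)}) π (fun a ha => by
    rw [← RingHom.mem_ker, hkerB]; exact hle ha)
  have hπ' : ∀ b, π' (Ideal.Quotient.mk _ b) = π b := fun b => Ideal.Quotient.lift_mk _ _ _
  have hsurj : Function.Surjective π' := fun x => by
    obtain ⟨b, rfl⟩ := hπ x
    exact ⟨Ideal.Quotient.mk _ b, hπ' b⟩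
  have hloc : IsLocalRing (ModP B p) :=
    IsLocalRing.of_surjective' (Ideal.Quotient.mk _) Ideal.Quotient.mk_surjective
  have hcomp : IsAdicComplete (maximalIdeal (ModP B p)) (ModP B p) :=
    isAdicComplete_of_finite_local (A := B) hB
  have hker' : RingHom.ker π' = maximalIdeal (ModP B p) :=
    IsLocalRing.eq_maximalIdeal (RingHom.ker_isMaximal_of_surjective π' hsurj)
  obtain ⟨σ, hσ⟩ := exists_coeff_charP p (ModP B p) k π' hsurj _ hker' hcomp
  let σ' : k →+* PreTilt B p := Perfection.lift p k (ModP B p) σ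
  have hσ' : ∀ x, PreTilt.coeff 0 (σ' x) = σ x := fun x => rfl
  refine ⟨(fontaineTheta B p).comp (WittVector.map σ'), fun x => ?_⟩
  rw [RingHom.comp_apply, ← hπ', mk_fontaineTheta, WittVector.map_coeff, hσ', hσ]

end Vale.Agent.P190.H128
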