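import Mathlib.LinearAlgebra.Dimension.Localization
import Mathlib.LinearAlgebra.Dimension.Free
import Mathlib.RingTheory.Localization.FractionRing
import Mathlib.RingTheory.Localization.Module
import Mathlib.RingTheory.Finiteness.Basic
import Mathlib.RingTheory.IntegralClosure.IsIntegral.Basic
import Mathlib.Algebra.Module.Torsion.Free
import Mathlib.RingTheory.Localization.Integral
import Mathlib.RingTheory.Localization.Finiteness

/-! Ranks of modules in a tower of domains. -/

set_option autoImplicit false

namespace Vale.Agent.P190.H128

universe v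

theorem rk_aux (B R K L : Type) (M V : Type v) [CommRing B] [IsDomain B] [CommRing R] [IsDomain R]
    [Field K] [Field L] [Algebra B R] [Algebra B K] [Algebra R L] [Algebra B L] [Algebra K L]
    [IsScalarTower B R L] [IsScalarTower B K L] [IsFractionRing B K] [IsFractionRing R L]
    [AddCommGroup M] [Module R M] [Module B M] [IsScalarTower B R M]
    [AddCommGroup V] [Module R V] [Module B V] [Module K V] [Module L V] [IsScalarTower B R V]
    [IsScalarTower R L V] [IsScalarTower K L V] [IsScalarTower B K V]
    [Module.Finite K L] [Module.Finite L V] (f : M →ₗ[R] V)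
    [IsLocalizedModule (nonZeroDivisors R) f] (hf : Function.Injective f) :
    Module.finrank B M ≤ Module.finrank B R * Module.finrank R M := by
  have h1 : Module.finrank L V = Module.finrank R M := by
    rw [IsLocalization.finrank_eq L (nonZeroDivisors R) le_rfl,
      IsLocalizedModule.finrank_eq (nonZeroDivisors R) f le_rfl]
  have h2 : Module.finrank K L = Module.finrank B R := IsFractionRing.finrank_eq B K R L
  have h3 : Module.finrank K V = Module.finrank B V :=
    IsLocalization.finrank_eq K (nonZeroDivisors B) le_rfl
  have h4 : Module.finrank K L * Module.finrank L V = Module.finrank K V :=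
    Module.finrank_mul_finrank K L V
  have h5 : Module.rank B M ≤ Module.rank B V :=
    LinearMap.rank_le_of_injective (f.restrictScalars B) hf
  have hfin : Module.Finite K V := Module.Finite.trans L V
  have h6 : Module.rank B V < Cardinal.aleph0 := by
    rw [← IsLocalization.rank_eq K (nonZeroDivisors B) le_rfl]
    exact Module.rank_lt_aleph0 K V
  calc Module.finrank B M ≤ Module.finrank B V := Cardinal.toNat_le_toNat h5 h6
    _ = Module.finrank B R * Module.finrank R M := by rw [← h3, ← h4, h1, h2]

theorem rk_aux2 (B R K L : Type) (M V : Type v) [CommRing B] [IsDomain B] [CommRing R]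
    [IsDomain R] [Algebra B R] [Module.Finite B R] (hinj : Function.Injective (algebraMap B R))
    [Field K] [Field L] [Algebra B K] [Algebra R L] [IsFractionRing B K] [IsFractionRing R L]
    [AddCommGroup M] [Module R M] [Module B M] [IsScalarTower B R M] [Module.Finite R M]
    [AddCommGroup V] [Module R V] [Module L V] [IsScalarTower R L V]
    (f : M →ₗ[R] V) [IsLocalizedModule (nonZeroDivisors R) f]
    (ht : ∀ (b : B) (m : M), b • m = 0 → b = 0 ∨ m = 0) :
    Module.finrank B M ≤ Module.finrank B R * Module.finrank R M := by
  classical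
  let _ : Algebra B L := ((algebraMap R L).comp (algebraMap B R)).toAlgebra
  have hst1 : IsScalarTower B R L := IsScalarTower.of_algebraMap_eq fun _ => rfl
  have hBL : Function.Injective (algebraMap B L) := (IsFractionRing.injective R L).comp hinj
  let _ : Algebra K L := (IsFractionRing.lift (A := B) (K := K) (g := algebraMap B L) hBL).toAlgebra
  have hst2 : IsScalarTower B K L := IsScalarTower.of_algebraMap_eq fun x =>
    (IsFractionRing.lift_algebraMap hBL x).symm
  have hint : Algebra.IsIntegral B R := Algebra.IsIntegral.of_finite B R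
  have htf : Module.IsTorsionFree B R := Module.isTorsionFree_iff_algebraMap_injective.2 hinj
  have halg : Algebra.IsAlgebraic B R := inferInstance
  have hmul : ∀ r : R, r ≠ 0 → ∃ b : B, b ≠ 0 ∧ ∃ r' : R, algebraMap B R b = r' * r := by
    intro r hr
    obtain ⟨b, hb, r', h⟩ := (halg.isAlgebraic r).exists_nonzero_dvd
      (mem_nonZeroDivisors_of_ne_zero hr)
    exact ⟨b, hb, r', by rw [h, mul_comm]⟩
  have hloc : IsLocalization (Algebra.algebraMapSubmonoid R (nonZeroDivisors B)) L := by
    refine (IsLocalization.iff_of_le_of_exists_dvd (S := L)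
      (Algebra.algebraMapSubmonoid R (nonZeroDivisors B)) (nonZeroDivisors R) ?_ ?_).2 inferInstance
    · rintro _ ⟨b, hb, rfl⟩
      exact mem_nonZeroDivisors_of_ne_zero fun h =>
        nonZeroDivisors.ne_zero hb (hinj (h.trans (map_zero _).symm))
    · intro r hr
      obtain ⟨b, hb, r', h⟩ := hmul r (nonZeroDivisors.ne_zero hr)
      exact ⟨algebraMap B R b, ⟨b, mem_nonZeroDivisors_of_ne_zero hb, rfl⟩, r', by
        rw [h, mul_comm]⟩
  have hfinKL : Module.Finite K L := Module.Finite.of_isLocalization B R (nonZeroDivisors B)
  let _ : Module B V := Module.compHom V (algebraMap B R)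
  let _ : Module K V := Module.compHom V (algebraMap K L)
  have hBRV : IsScalarTower B R V := ⟨fun b r v => by
    rw [Algebra.smul_def, mul_smul]; rfl⟩
  have hKLV : IsScalarTower K L V := ⟨fun b r v => by
    rw [Algebra.smul_def, mul_smul]; rfl⟩
  have hBKV : IsScalarTower B K V := ⟨fun b x v => by
    change algebraMap K L (b • x) • v = algebraMap B R b • algebraMap K L x • v
    rw [Algebra.smul_def, map_mul, mul_smul, ← IsScalarTower.algebraMap_apply B K L,
      IsScalarTower.algebraMap_apply B R L, algebraMap_smul]⟩
  have hfinV : Module.Finite L V := Module.Finite.of_isLocalizedModule (nonZeroDivisors R) (Rₚ := L) f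
  refine rk_aux B R K L M V f ?_
  rw [injective_iff_map_eq_zero]
  intro m hm
  rw [IsLocalizedModule.eq_zero_iff (nonZeroDivisors R) f] at hm
  obtain ⟨⟨r, hr⟩, h⟩ := hm
  obtain ⟨b, hb, r', h2⟩ := hmul r (nonZeroDivisors.ne_zero hr)
  refine (ht b m ?_).resolve_left hb
  have h3 : r • m = 0 := h
  rw [← algebraMap_smul R b m, h2, mul_smul, h3, smul_zero]

/-- ranks in towers of domains -/
theorem finrank_le_mul (B R : Type) (M : Type v) [CommRing B] [IsDomain B] [CommRing R]
    [IsDomain R] [Algebra B R] [Module.Finite B R] (hinj : Function.Injective (algebraMap B R))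
    [AddCommGroup M] [Module R M] [Module B M] [IsScalarTower B R M] [Module.Finite R M]
    (ht : ∀ (b : B) (m : M), b • m = 0 → b = 0 ∨ m = 0) :
    Module.finrank B M ≤ Module.finrank B R * Module.finrank R M :=
  rk_aux2 B R (FractionRing B) (FractionRing R) M (LocalizedModule (nonZeroDivisors R) M) hinj
    (LocalizedModule.mkLinearMap (nonZeroDivisors R) M) ht

end Vale.Agent.P190.H128
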